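import Vale.Agent.P098.Reg.Eps.Basic

/-! Elementary maximum principle and Bernstein's interior gradient bound for harmonic functions. -/

noncomputable section

namespace Vale.Agent.P098.Reg.Eps

open Set Filter Topology
open scoped ContDiff RealInnerProductSpace

variable {d : ℕ}
variable {f : EuclideanSpace ℝ (Fin d) → ℝ} {x : EuclideanSpace ℝ (Fin d)}

/-- At a local maximum the Laplacian is nonpositive. -/
theorem lap_nonpos_of_max (hf : ContDiffAt ℝ 2 f x) (hx : IsLocalMax f x) : lap f x ≤ 0 := by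
  refine Finset.sum_nonpos fun i _ => ?_
  set e := EuclideanSpace.single (𝕜 := ℝ) i (1:ℝ)
  let φ : ℝ → ℝ := fun t => f (x + t • e)
  have hline : ∀ t : ℝ, HasDerivAt (fun s : ℝ => x + s • e) e t := fun t => by
    simpa using ((hasDerivAt_id t).smul_const e).const_add x
  have ht0 : Tendsto (fun t : ℝ => x + t • e) (𝓝 0) (𝓝 x) := by
    have := (hline 0).continuousAt.tendsto
    simpa using this
  have hd1 : ∀ᶠ t in 𝓝 (0:ℝ), HasDerivAt φ (pd i f (x + t • e)) t := by
    filter_upwards [ht0.eventually (eventually_diff hf)] with t ht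
    exact ht.hasFDerivAt.comp_hasDerivAt t (hline t)
  have hde : deriv φ =ᶠ[𝓝 0] fun t => pd i f (x + t • e) := hd1.mono fun t h => h.deriv
  have hd2 : deriv (deriv φ) 0 = pd i (pd i f) x := by
    rw [hde.deriv_eq]
    have h : DifferentiableAt ℝ (pd i f) (x + (0:ℝ) • e) := by simpa using pd_eventually i hf
    have := (h.hasFDerivAt.comp_hasDerivAt 0 (hline 0)).deriv
    simpa [Function.comp_def, pd, e] using this
  have hmax : IsLocalMax φ 0 := by
    have h' : IsLocalMax f (x + (0:ℝ) • e) := by simpa using hx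
    exact h'.comp_continuous (g := fun t : ℝ => x + t • e) (hline 0).continuousAt
  by_contra hpos
  rw [not_le, ← hd2] at hpos
  have hmin : IsLocalMin φ 0 := isLocalMin_of_deriv_deriv_pos hpos hmax.deriv_eq_zero
    hd1.self_of_nhds.continuousAt
  have hc : φ =ᶠ[𝓝 0] fun _ => φ 0 := by
    filter_upwards [hmax, hmin] with t h1 h2 using le_antisymm h1 h2
  have : deriv φ =ᶠ[𝓝 0] fun _ => (0:ℝ) := by
    filter_upwards [hc.eventuallyEq_nhds] with t ht
    simp [ht.deriv_eq]
  rw [this.deriv_eq] at hpos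
  simp at hpos

theorem lap_coord_sq (i0 : Fin d) : lap (fun y : EuclideanSpace ℝ (Fin d) => y i0 * y i0) x = 2 := by
  have h : ∀ y : EuclideanSpace ℝ (Fin d), y i0 = ⟪EuclideanSpace.single i0 (1:ℝ), y⟫ := fun y => by
    simp [EuclideanSpace.inner_single_left]
  simp only [h]
  rw [lap_mul (contDiff_inner_right _).contDiffAt (contDiff_inner_right _).contDiffAt, lap_inner]
  simp [pd_inner, EuclideanSpace.single_apply]

/-- The weak maximum principle. -/
theorem le_of_lap_nonneg (hd : 0 < d) {D : Set (EuclideanSpace ℝ (Fin d))} (hD : IsOpen D)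
    (hDc : IsCompact (closure D)) (hfc : ContinuousOn f (closure D))
    (hf : ∀ x ∈ D, ContDiffAt ℝ 2 f x) (hlap : ∀ x ∈ D, 0 ≤ lap f x) {M : ℝ}
    (hbd : ∀ x ∈ frontier D, f x ≤ M) : ∀ x ∈ D, f x ≤ M := by
  intro x hx
  set i0 : Fin d := ⟨0, hd⟩
  obtain ⟨B, hB⟩ := hDc.exists_bound_of_continuousOn
    (f := fun y : EuclideanSpace ℝ (Fin d) => y i0 * y i0) (by fun_prop)
  have key : ∀ e : ℝ, 0 < e → f x ≤ M + e * B := by
    intro e he
    obtain ⟨y, hy, hmax⟩ := hDc.exists_isMaxOn ⟨x, subset_closure hx⟩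
      (hfc.add (continuousOn_const.mul (by fun_prop : ContinuousOn
        (fun y : EuclideanSpace ℝ (Fin d) => y i0 * y i0) (closure D))) (g := fun y => e * (y i0 * y i0)))
    have hxy : f x + e * (x i0 * x i0) ≤ f y + e * (y i0 * y i0) := hmax (subset_closure hx)
    have hx2 : 0 ≤ e * (x i0 * x i0) := mul_nonneg he.le (mul_self_nonneg _)
    by_cases hyD : y ∈ D
    · exfalso
      have hq : ContDiffAt ℝ 2 (fun y : EuclideanSpace ℝ (Fin d) => y i0 * y i0) y := by fun_prop
      have := lap_nonpos_of_max ((hf y hyD).add (contDiffAt_const.mul hq))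
        ((hmax.on_subset subset_closure).isLocalMax (hD.mem_nhds hyD))
      rw [lap_add (hf y hyD) (contDiffAt_const.mul hq), lap_const_mul e hq, lap_coord_sq] at this
      linarith [hlap y hyD]
    · have hyf : y ∈ frontier D := ⟨hy, fun h => hyD (hD.interior_eq ▸ h)⟩
      have := hB y hy
      rw [Real.norm_eq_abs] at this
      have := mul_le_mul_of_nonneg_left (le_of_abs_le this) he.le
      linarith [hbd y hyf]
  by_contra hcon
  rw [not_le] at hcon
  have he : 0 < (f x - M) / (2 * (|B| + 1)) := by have := sub_pos.2 hcon; positivity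
  have h := key _ he
  have : (f x - M) / (2 * (|B| + 1)) * B < f x - M := by
    rw [div_mul_eq_mul_div, div_lt_iff₀ (by positivity)]
    nlinarith [le_abs_self B, abs_nonneg B]
  linarith

theorem sum_sq_le {ι : Type*} (s : Finset ι) (a b : ι → ℝ) :
    |∑ i ∈ s, a i * b i| ≤ Real.sqrt (∑ i ∈ s, a i ^ 2) * Real.sqrt (∑ i ∈ s, b i ^ 2) := by
  rw [← Real.sqrt_mul (Finset.sum_nonneg fun _ _ => sq_nonneg _), ← Real.sqrt_sq_eq_abs]
  exact Real.sqrt_le_sqrt (Finset.sum_mul_sq_le_sq_mul_sq s a b)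

/-- Bernstein: a bounded harmonic function has a bounded gradient in the smaller ball. -/
theorem gradSq_le_of_harmonic (hd : 0 < d) {V : Set (EuclideanSpace ℝ (Fin d))} (hV : IsOpen V)
    {x0 : EuclideanSpace ℝ (Fin d)} {R M : ℝ} (hR : 0 < R) (hsub : Metric.closedBall x0 R ⊆ V)
    (hf : ContDiffOn ℝ ∞ f V) (hl : ∀ x ∈ V, lap f x = 0)
    (hM : ∀ x ∈ Metric.closedBall x0 R, |f x| ≤ M) :
    ∀ x ∈ Metric.ball x0 (R / 2), gradSq f x ≤ 4 * (6 + d) * M ^ 2 / R ^ 2 := by
  classical
  let η : EuclideanSpace ℝ (Fin d) → ℝ := fun y => R ^ 2 - ∑ i, (y i - x0 i) * (y i - x0 i)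
  let g : EuclideanSpace ℝ (Fin d) → ℝ := fun y => ∑ j, pd j f y * pd j f y
  let C : ℝ := (12 + 2 * d) * R ^ 2
  let F : EuclideanSpace ℝ (Fin d) → ℝ := fun y => η y * η y * g y + C * (f y * f y)
  have hη : ContDiff ℝ ∞ η := by simp only [η]; fun_prop
  have hpf : ∀ j, ContDiffOn ℝ ∞ (pd j f) V := fun j => contDiffOn_pd hV hf le_rfl
  have hg : ContDiffOn ℝ ∞ g V := ContDiffOn.sum fun j _ => (hpf j).mul (hpf j)
  have hF : ContDiffOn ℝ ∞ F V :=
    ((hη.contDiffOn.mul hη.contDiffOn).mul hg).add (contDiffOn_const.mul (hf.mul hf))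
  have at2 : ∀ {h : EuclideanSpace ℝ (Fin d) → ℝ}, ContDiffOn ℝ ∞ h V → ∀ y ∈ V,
      ContDiffAt ℝ 2 h y := fun h' y hy => (h'.contDiffAt (hV.mem_nhds hy)).of_le (by norm_cast)
  have hηd : ∀ y, ∀ i, pd i η y = -2 * (y i - x0 i) := fun y i => by
    have hd' : ∀ j, DifferentiableAt ℝ (fun z : EuclideanSpace ℝ (Fin d) => z j - x0 j) y :=
      fun j => by fun_prop
    simp only [η]
    rw [pd_sub (differentiableAt_const _) (DifferentiableAt.fun_sum fun j _ => (hd' j).fun_mul (hd' j)),
      pd_const, pd_sum _ fun j _ => (hd' j).fun_mul (hd' j)]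
    rw [Finset.sum_eq_single i (fun j _ hj => ?_) (by simp)]
    · rw [pd_mul (hd' i) (hd' i), pd_sub (by fun_prop) (differentiableAt_const _), pd_apply, pd_const]
      simp; ring
    · rw [pd_mul (hd' j) (hd' j), pd_sub (by fun_prop) (differentiableAt_const _), pd_apply, pd_const]
      simp [hj]
  have hηl : ∀ y, lap η y = -2 * d := fun y => by
    simp only [lap]
    rw [Finset.sum_congr rfl fun i _ => show pd i (pd i η) y = -2 by
      rw [show pd i η = fun z => -2 * (z i - x0 i) from funext fun z => hηd z i,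
        pd_const_mul _ (by fun_prop), pd_sub (by fun_prop) (differentiableAt_const _), pd_apply,
        pd_const]
      simp]
    simp; ring
  have hball : ∀ y ∈ Metric.closedBall x0 R, 0 ≤ η y ∧ η y ≤ R ^ 2 := fun y hy => by
    have h : ∑ i, (y i - x0 i) * (y i - x0 i) = ‖y - x0‖ ^ 2 := by
      rw [norm_sq_eq]; exact Finset.sum_congr rfl fun i _ => by simp [sq]
    have h2 : ‖y - x0‖ ^ 2 ≤ R ^ 2 :=
      pow_le_pow_left₀ (norm_nonneg _) (by rwa [← dist_eq_norm, ← Metric.mem_closedBall]) 2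
    simp only [η, h]
    exact ⟨by linarith, by linarith [sq_nonneg ‖y - x0‖]⟩
  have hlapF : ∀ y ∈ Metric.ball x0 R, 0 ≤ lap F y := by
    intro y hy
    have hyV := hsub (Metric.ball_subset_closedBall hy)
    have a2 : ContDiffAt ℝ 2 η y := hη.contDiffAt.of_le (by norm_cast)
    have f2 := at2 hf y hyV
    have p2 : ∀ j, ContDiffAt ℝ 2 (pd j f) y := fun j => at2 (hpf j) y hyV
    have g2 := at2 hg y hyV
    have hplap : ∀ j, lap (pd j f) y = 0 := fun j => by
      have e1 : ∀ i, pd i (pd i (pd j f)) y = pd j (pd i (pd i f)) y := fun i => by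
        rw [pd_congr (eventually_of_mem (hV.mem_nhds hyV) fun z hz =>
            (pd_comm hV hf hz (by norm_cast) : pd i (pd j f) z = pd j (pd i f) z)),
          pd_comm hV (hpf i) hyV (by norm_cast)]
      simp only [lap, e1]
      rw [← pd_sum _ fun i _ => (at2 (contDiffOn_pd hV (hpf i) le_rfl) y hyV).differentiableAt
          (by norm_num)]
      exact (pd_congr (f := lap f) (g := fun _ => (0:ℝ))
        (eventually_of_mem (hV.mem_nhds hyV) fun z hz => hl z hz)).trans (pd_const 0)
    have hgl : lap g y = 2 * ∑ j, ∑ i, pd i (pd j f) y ^ 2 := by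
      have hsum : lap g y = ∑ j, lap (fun z => pd j f z * pd j f z) y := by
        simp only [lap, g]
        rw [Finset.sum_comm]
        refine Finset.sum_congr rfl fun i _ => ?_
        rw [pd_congr (g := fun z => ∑ j, pd i (fun w => pd j f w * pd j f w) z)
          (eventually_of_mem (hV.mem_nhds hyV) fun z hz =>
            pd_sum _ fun j _ => ((at2 (hpf j) z hz).differentiableAt (by norm_num)).fun_mul
              ((at2 (hpf j) z hz).differentiableAt (by norm_num)))]
        rw [pd_sum _ fun j _ => (at2 (contDiffOn_pd hV ((hpf j).mul (hpf j)) le_rfl) y hyV).differentiableAt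
          (by norm_num)]
      rw [hsum, Finset.mul_sum]
      refine Finset.sum_congr rfl fun j _ => ?_
      rw [lap_mul (p2 j) (p2 j), hplap j]
      simp only [mul_zero, zero_mul, zero_add, add_zero]
      congr 1
      exact Finset.sum_congr rfl fun i _ => by ring
    have hgd : ∀ i, pd i g y = 2 * ∑ j, pd j f y * pd i (pd j f) y := fun i => by
      simp only [g]
      rw [pd_sum _ fun j _ => ((p2 j).differentiableAt (by norm_num)).fun_mul
        ((p2 j).differentiableAt (by norm_num)), Finset.mul_sum]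
      refine Finset.sum_congr rfl fun j _ => ?_
      rw [pd_mul ((p2 j).differentiableAt (by norm_num)) ((p2 j).differentiableAt (by norm_num))]
      ring
    have ηdiff : DifferentiableAt ℝ η y := a2.differentiableAt (by norm_num)
    have hFl : lap F y = η y * η y * lap g y + 4 * η y * ∑ i, pd i η y * pd i g y
        + (2 * ∑ i, pd i η y ^ 2 + 2 * η y * lap η y) * g y
        + C * (2 * g y) := by
      have hm : lap (fun z => η z * η z) y = 2 * η y * lap η y + 2 * ∑ i, pd i η y ^ 2 := by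
        rw [lap_mul a2 a2]
        have : ∑ i, pd i η y * pd i η y = ∑ i, pd i η y ^ 2 :=
          Finset.sum_congr rfl fun i _ => by ring
        rw [this]; ring
      have hmd : ∑ i, pd i (fun z => η z * η z) y * pd i g y
          = 2 * η y * ∑ i, pd i η y * pd i g y := by
        rw [Finset.mul_sum]
        exact Finset.sum_congr rfl fun i _ => by rw [pd_mul ηdiff ηdiff]; ring
      show lap (fun z => η z * η z * g z + C * (f z * f z)) y = _
      rw [lap_add ((a2.mul a2).mul g2) (contDiffAt_const.mul (f2.mul f2)), lap_mul (a2.mul a2) g2,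
        lap_const_mul C (f2.mul f2), lap_mul f2 f2, hl y hyV, hm, hmd]
      simp only [g]
      ring
    rw [hFl, hgl, hηl]
    have hη0 := hball y (Metric.ball_subset_closedBall hy)
    set S := ∑ j, ∑ i, pd i (pd j f) y ^ 2
    have hS : 0 ≤ S := Finset.sum_nonneg fun _ _ => Finset.sum_nonneg fun _ _ => sq_nonneg _
    have hG : g y = ∑ j, pd j f y ^ 2 := Finset.sum_congr rfl fun j _ => by ring
    have hG0 : 0 ≤ g y := by rw [hG]; exact Finset.sum_nonneg fun _ _ => sq_nonneg _
    have hP0 : 0 ≤ ∑ i, pd i η y ^ 2 := Finset.sum_nonneg fun _ _ => sq_nonneg _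
    have hP : ∑ i, pd i η y ^ 2 ≤ 4 * R ^ 2 := by
      have : ∑ i, pd i η y ^ 2 = 4 * (R ^ 2 - η y) := by
        simp only [hηd, η, sub_sub_cancel, Finset.mul_sum]
        exact Finset.sum_congr rfl fun i _ => by ring
      rw [this]; linarith
    have hX : |∑ i, pd i η y * pd i g y|
        ≤ 2 * (Real.sqrt (∑ i, pd i η y ^ 2) * (Real.sqrt (g y) * Real.sqrt S)) := by
      simp only [hgd]
      rw [show ∑ i, pd i η y * (2 * ∑ j, pd j f y * pd i (pd j f) y)
          = 2 * ∑ j, pd j f y * ∑ i, pd i η y * pd i (pd j f) y by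
        simp only [Finset.mul_sum]; rw [Finset.sum_comm]
        exact Finset.sum_congr rfl fun j _ => Finset.sum_congr rfl fun i _ => by ring,
        abs_mul, abs_two]
      refine mul_le_mul_of_nonneg_left ((sum_sq_le _ _ _).trans ?_) zero_le_two
      rw [← hG, mul_left_comm]
      refine mul_le_mul_of_nonneg_left ?_ (Real.sqrt_nonneg _)
      rw [← Real.sqrt_mul hP0]
      refine Real.sqrt_le_sqrt ?_
      simp only [S, Finset.mul_sum]
      refine Finset.sum_le_sum fun j _ => ?_
      rw [← Finset.mul_sum]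
      exact Finset.sum_mul_sq_le_sq_mul_sq _ _ _
    set p := Real.sqrt (∑ i, pd i η y ^ 2)
    set q := Real.sqrt (g y)
    set t := Real.sqrt S
    have ep : p ^ 2 = ∑ i, pd i η y ^ 2 := Real.sq_sqrt hP0
    have eq' : q ^ 2 = g y := Real.sq_sqrt hG0
    have et : t ^ 2 = S := Real.sq_sqrt hS
    have hX' : -(8 * η y * (p * (q * t))) ≤ 4 * η y * ∑ i, pd i η y * pd i g y := by
      nlinarith [mul_le_mul_of_nonneg_left (abs_le.1 hX).1 hη0.1]
    nlinarith [sq_nonneg (η y * t - 2 * (p * q)), hX', mul_le_mul_of_nonneg_right hP hG0,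
      mul_le_mul_of_nonneg_right hη0.2 (mul_nonneg (Nat.cast_nonneg (α := ℝ) d) hG0)]
  intro x hx
  have hclo : closure (Metric.ball x0 R) = Metric.closedBall x0 R := closure_ball x0 hR.ne'
  have hFx : F x ≤ C * M ^ 2 := by
    refine le_of_lap_nonneg hd Metric.isOpen_ball (by rw [hclo]; exact isCompact_closedBall _ _)
      (by rw [hclo]; exact (hF.continuousOn).mono hsub)
      (fun y hy => at2 hF y (hsub (Metric.ball_subset_closedBall hy))) hlapF ?_ x
      (Metric.ball_subset_ball (by linarith) hx)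
    intro y hy
    rw [frontier_ball x0 hR.ne'] at hy
    have h : ∑ i, (y i - x0 i) * (y i - x0 i) = R ^ 2 := by
      rw [show R = ‖y - x0‖ by rw [← dist_eq_norm]; exact (Metric.mem_sphere.1 hy).symm, norm_sq_eq]
      exact Finset.sum_congr rfl fun i _ => by simp [sq]
    have : η y = 0 := by simp [η, h]
    simp only [F, this, mul_zero, zero_mul, zero_add]
    refine mul_le_mul_of_nonneg_left ?_ (by positivity)
    rw [← sq, ← sq_abs]
    exact pow_le_pow_left₀ (abs_nonneg _) (hM y (Metric.sphere_subset_closedBall hy)) 2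
  have hη : 3 / 4 * R ^ 2 ≤ η x := by
    have h : ∑ i, (x i - x0 i) * (x i - x0 i) = ‖x - x0‖ ^ 2 := by
      rw [norm_sq_eq]; exact Finset.sum_congr rfl fun i _ => by simp [sq]
    have h2 : ‖x - x0‖ ^ 2 ≤ (R/2) ^ 2 :=
      pow_le_pow_left₀ (norm_nonneg _) (by
        rw [← dist_eq_norm]; exact (Metric.mem_ball.1 hx).le) 2
    simp only [η, h]
    nlinarith
  have hg' : gradSq f x = g x := Finset.sum_congr rfl fun j _ => by ring
  have hg0 : 0 ≤ g x := by rw [← hg']; exact gradSq_nonneg f x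
  have h1 : 9 / 16 * R ^ 4 * g x ≤ η x * η x * g x := by
    refine mul_le_mul_of_nonneg_right ?_ hg0
    nlinarith [mul_le_mul hη hη (by positivity) ((by positivity : (0:ℝ) ≤ 3/4 * R^2).trans hη)]
  have h2 : 0 ≤ C * (f x * f x) := mul_nonneg (by positivity) (mul_self_nonneg _)
  have h3 : 9 / 16 * R ^ 4 * g x ≤ (12 + 2 * d) * R ^ 2 * M ^ 2 := by
    simp only [F, C] at hFx h2 ⊢
    linarith
  rw [hg', le_div_iff₀ (by positivity)]
  have h4 : R ^ 2 * (9 / 16 * (g x * R ^ 2)) ≤ R ^ 2 * ((12 + 2 * d) * M ^ 2) := by nlinarith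
  have := le_of_mul_le_mul_left h4 (by positivity)
  nlinarith [mul_nonneg (show (0:ℝ) ≤ 12 + 2 * d by positivity) (sq_nonneg M)]

end Vale.Agent.P098.Reg.Eps
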