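import Vale.Agent.P098.Reg.Eps.Basic
import Vale.Agent.P098.Reg.Defs

/-! Comparison principles for Lipschitz minimisers, straight from minimality. -/

noncomputable section

namespace Vale.Agent.P098.Reg.Eps

open MeasureTheory Set Filter Topology
open scoped ContDiff RealInnerProductSpace NNReal

variable {d : ℕ}
variable {u z f w φ : EuclideanSpace ℝ (Fin d) → ℝ}

theorem abs_pd_le_lip {K : ℝ≥0} (hf : LipschitzWith K f) (i : Fin d)
    (x : EuclideanSpace ℝ (Fin d)) : |pd i f x| ≤ K := by
  have h := (fderiv ℝ f x).le_opNorm (EuclideanSpace.single i (1:ℝ))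
  rw [PiLp.norm_single, norm_one, mul_one, Real.norm_eq_abs] at h
  exact h.trans (norm_fderiv_le_of_lipschitz ℝ hf)

theorem measurable_pd (i : Fin d) (f : EuclideanSpace ℝ (Fin d) → ℝ) : Measurable (pd i f) :=
  measurable_fderiv_apply_const ℝ f (EuclideanSpace.single i (1:ℝ))

theorem measurable_gradSq (f : EuclideanSpace ℝ (Fin d) → ℝ) : Measurable (gradSq f) := by
  unfold gradSq
  exact Finset.measurable_sum _ fun i _ => (measurable_pd i f).pow_const 2

theorem gradSq_le_lip {K : ℝ≥0} (hf : LipschitzWith K f) (x : EuclideanSpace ℝ (Fin d)) :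
    gradSq f x ≤ d * (K : ℝ) ^ 2 := by
  calc gradSq f x ≤ ∑ _i : Fin d, (K : ℝ) ^ 2 := Finset.sum_le_sum fun i _ => by
        rw [← sq_abs]; exact pow_le_pow_left₀ (abs_nonneg _) (abs_pd_le_lip hf i x) 2
    _ = _ := by simp

theorem integrableOn_bdd {S : Set (EuclideanSpace ℝ (Fin d))} (hS : Bornology.IsBounded S)
    (hf : Measurable f) {C : ℝ} (hb : ∀ x, |f x| ≤ C) : IntegrableOn f S :=
  IntegrableOn.of_bound hS.measure_lt_top hf.aestronglyMeasurable C
    (Eventually.of_forall fun x => (Real.norm_eq_abs _).le.trans (hb x))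

/-- The energy density. -/
def eden (f : EuclideanSpace ℝ (Fin d) → ℝ) (x : EuclideanSpace ℝ (Fin d)) : ℝ :=
  gradSq f x + {y | 0 < f y}.indicator (fun _ => (1 : ℝ)) x

theorem eden_meas (hf : Continuous f) : Measurable (eden f) :=
  (measurable_gradSq f).add
    (measurable_const.indicator (isOpen_lt continuous_const hf).measurableSet)

theorem eden_bdd {K : ℝ≥0} (hf : LipschitzWith K f) (x : EuclideanSpace ℝ (Fin d)) :
    |eden f x| ≤ d * (K : ℝ) ^ 2 + 1 := by
  have h := gradSq_le_lip hf x
  have h0 := Finset.sum_nonneg (s := Finset.univ) fun i (_ : i ∈ Finset.univ) => sq_nonneg (pd i f x)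
  unfold eden
  by_cases hx : x ∈ {y | 0 < f y}
  · rw [indicator_of_mem hx, abs_of_nonneg (by unfold gradSq; linarith)]; linarith
  · rw [indicator_of_notMem hx, add_zero, abs_of_nonneg (by unfold gradSq; linarith)]; linarith

/-- The pointwise derivatives agree where two functions with ordered values agree. -/
theorem pd_eq_of_touch {x : EuclideanSpace ℝ (Fin d)} (h : (∀ y, u y ≤ z y) ∨ ∀ y, z y ≤ u y)
    (hx : z x = u x) (hu : DifferentiableAt ℝ u x) (hz : DifferentiableAt ℝ z x) (i : Fin d) :
    pd i z x = pd i u x := by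
  have h0 : fderiv ℝ (fun y => z y - u y) x = 0 := by
    rcases h with h | h
    · exact IsLocalMin.fderiv_eq_zero (Eventually.of_forall fun y => by
        show z x - u x ≤ z y - u y
        rw [hx, sub_self]; linarith [h y])
    · exact IsLocalMax.fderiv_eq_zero (Eventually.of_forall fun y => by
        show z y - u y ≤ z x - u x
        rw [hx, sub_self]; linarith [h y])
  rw [fderiv_fun_sub hz hu, sub_eq_zero] at h0
  simp [pd, h0]

theorem pd_eq_zero_of_min {x : EuclideanSpace ℝ (Fin d)} (h : ∀ y, 0 ≤ f y) (hx : f x = 0)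
    (i : Fin d) : pd i f x = 0 := by
  have : IsLocalMin f x := Eventually.of_forall fun y => hx ▸ h y
  simp [pd, this.fderiv_eq_zero]

/-- Minimality localised to the set where the competitor differs. -/
theorem min_local (hu : LMin u) {K : ℝ≥0} (hz : LipschitzWith K z) (hz0 : ∀ x, 0 ≤ z x)
    {A : Set (EuclideanSpace ℝ (Fin d))} (hA : IsOpen A) (hAb : Bornology.IsBounded A)
    (heq : ∀ x, x ∉ A → z x = u x) (hord : (∀ y, u y ≤ z y) ∨ ∀ y, z y ≤ u y) :
    0 ≤ ∫ x in A, (eden z x - eden u x) := by
  obtain ⟨L, hL⟩ := hu.lip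
  obtain ⟨R, hR⟩ := hAb.subset_closedBall (0 : EuclideanSpace ℝ (Fin d))
  set B := Metric.ball (0 : EuclideanSpace ℝ (Fin d)) (R + 1)
  have hsub : closure A ⊆ B := (closure_minimal hR Metric.isClosed_closedBall).trans
    (Metric.closedBall_subset_ball (by linarith))
  have hAB : A ⊆ B := subset_closure.trans hsub
  have hle := hu.le_energy 0 (R + 1) z ⟨K, hz⟩ hz0 (closure A) hAb.isCompact_closure hsub
    fun x hx => heq x fun h => hx (subset_closure h)
  have iu : IntegrableOn (eden u) B :=
    integrableOn_bdd Metric.isBounded_ball (eden_meas hL.continuous) (eden_bdd hL)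
  have iz : IntegrableOn (eden z) B :=
    integrableOn_bdd Metric.isBounded_ball (eden_meas hz.continuous) (eden_bdd hz)
  have h0 : 0 ≤ ∫ x in B, (eden z x - eden u x) := by
    rw [integral_sub iz iu]
    exact sub_nonneg.2 hle
  rwa [setIntegral_eq_of_subset_of_ae_sdiff_eq_zero measurableSet_ball.nullMeasurableSet hAB] at h0
  filter_upwards [hL.ae_differentiableAt, hz.ae_differentiableAt] with x hux hzx hx
  have he := heq x hx.2
  have hg : gradSq z x = gradSq u x :=
    Finset.sum_congr rfl fun i _ => by rw [pd_eq_of_touch hord he hux hzx i]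
  simp [eden, hg, indicator, he]

/-- Integration by parts against a Lipschitz function of compact support. -/
theorem ibp (hφ : ContDiff ℝ 2 φ) (hφc : HasCompactSupport φ) {K : ℝ≥0} (hw : LipschitzWith K w)
    (hwc : HasCompactSupport w) :
    ∫ x, (∑ i, pd i φ x * pd i w x) = -∫ x, lap φ x * w x := by
  have hdi : ∀ i, ContDiff ℝ 1 (pd i φ) := fun i => contDiff_pd hφ (by norm_num)
  have key : ∀ i, ∫ x, pd i φ x * pd i w x = -∫ x, pd i (pd i φ) x * w x := by
    intro i
    obtain ⟨D, hD⟩ : ∃ D, LipschitzWith D (pd i φ) :=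
      (hdi i).lipschitzWith_of_hasCompactSupport (hasCompactSupport_pd hφc) one_ne_zero
    have h := LipschitzWith.integral_lineDeriv_mul_eq (μ := volume) hD hw hwc
      (EuclideanSpace.single i (1:ℝ))
    have e1 : ∫ x, lineDeriv ℝ (pd i φ) x (EuclideanSpace.single i 1) * w x
        = ∫ x, pd i (pd i φ) x * w x :=
      integral_congr_ae (Eventually.of_forall fun x => by
        show lineDeriv ℝ (pd i φ) x (EuclideanSpace.single i 1) * w x = pd i (pd i φ) x * w x
        rw [((hdi i).differentiable one_ne_zero x).lineDeriv_eq_fderiv]; rfl)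
    have e2 : ∫ x, lineDeriv ℝ w x (-EuclideanSpace.single i 1) * pd i φ x
        = -∫ x, pd i φ x * pd i w x := by
      rw [← integral_neg]
      refine integral_congr_ae ?_
      filter_upwards [hw.ae_differentiableAt] with x hx
      rw [hx.lineDeriv_eq_fderiv, map_neg]
      show -pd i w x * pd i φ x = _
      ring
    rw [e1, e2] at h
    linarith
  have i1 : ∀ i, Integrable (fun x => pd i φ x * pd i w x) := fun i =>
    ((hdi i).continuous.integrable_of_hasCompactSupport (hasCompactSupport_pd hφc)).mul_bdd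
      (measurable_pd i w).aestronglyMeasurable
      (Eventually.of_forall fun x => (Real.norm_eq_abs _).le.trans (abs_pd_le_lip hw i x))
  have i2 : ∀ i, Integrable (fun x => pd i (pd i φ) x * w x) := fun i =>
    (((contDiff_pd (m := 0) (hdi i) le_rfl).continuous).mul hw.continuous).integrable_of_hasCompactSupport
      hwc.mul_left
  simp only [lap, Finset.sum_mul]
  rw [integral_finsetSum _ fun i _ => i1 i, integral_finsetSum _ fun i _ => i2 i,
    ← Finset.sum_neg_distrib]
  exact Finset.sum_congr rfl fun i _ => key i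

/-- A nonnegative compactly supported Lipschitz function with vanishing gradient is zero. -/
theorem eq_zero_of_grad (hd : 0 < d) {K : ℝ≥0} (hw : LipschitzWith K w) (hwc : HasCompactSupport w)
    (hw0 : ∀ x, 0 ≤ w x) (hg : ∀ᵐ x, ∀ i, pd i w x = 0) : ∀ x, w x = 0 := by
  obtain ⟨χ, hχ, hχc, -, -, hχ1⟩ := exists_cutoff hwc.isCompact isOpen_univ (subset_univ _)
  set i0 : Fin d := ⟨0, hd⟩
  let φ : EuclideanSpace ℝ (Fin d) → ℝ := fun x => x i0 * x i0 * χ x
  have hq : ContDiff ℝ 2 fun y : EuclideanSpace ℝ (Fin d) => y i0 * y i0 := by fun_prop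
  have hφ : ContDiff ℝ 2 φ := hq.mul (hχ.of_le (by norm_cast))
  have h := ibp hφ hχc.mul_left hw hwc
  have h0 : ∫ x, (∑ i, pd i φ x * pd i w x) = 0 := integral_eq_zero_of_ae <| by
    filter_upwards [hg] with x hx
    simp [hx]
  have h1 : ∫ x, lap φ x * w x = ∫ x, 2 * w x :=
    integral_congr_ae (Eventually.of_forall fun x => by
      show lap φ x * w x = 2 * w x
      by_cases hx : x ∈ tsupport w
      · rw [lap_congr (g := fun y => y i0 * y i0), lap_coord_sq']
        filter_upwards [hχ1.filter_mono (nhds_le_nhdsSet hx)] with y hy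
        simp [φ, hy]
      · simp [image_eq_zero_of_notMem_tsupport hx])
  rw [h0, h1, integral_const_mul] at h
  have hz : ∫ x, w x = 0 := by linarith
  intro x
  by_contra hx
  exact (hw.continuous.integral_pos_of_hasCompactSupport_nonneg_nonzero (μ := volume) hwc hw0
    (x := x) hx).ne' hz
where
  lap_coord_sq' {i0 : Fin d} {x : EuclideanSpace ℝ (Fin d)} :
      lap (fun y : EuclideanSpace ℝ (Fin d) => y i0 * y i0) x = 2 := by
    have h : ∀ y : EuclideanSpace ℝ (Fin d), y i0 = ⟪EuclideanSpace.single i0 (1:ℝ), y⟫ := fun y => by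
      simp [EuclideanSpace.inner_single_left]
    simp only [h]
    rw [lap_mul (contDiff_inner_right _).contDiffAt (contDiff_inner_right _).contDiffAt, lap_inner]
    simp [pd_inner, PiLp.single_apply]

/-- The test function made from a local barrier. -/
theorem extend_barrier {S D V : Set (EuclideanSpace ℝ (Fin d))} {v : EuclideanSpace ℝ (Fin d) → ℝ}
    (hD : IsOpen D) (hS : IsCompact S) (hSD : S ⊆ D) (hV : IsOpen V) (hDV : closure D ⊆ V)
    (hv : ContDiffOn ℝ 2 v V) :
    ∃ (g χ : EuclideanSpace ℝ (Fin d) → ℝ), ContDiff ℝ 2 g ∧ HasCompactSupport g ∧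
      (∀ x, χ x ∈ Icc (0:ℝ) 1) ∧ (∀ x, g x = χ x * v x) ∧ (∀ x, x ∉ D → g x = 0) ∧
      (∀ᶠ x in 𝓝ˢ S, χ x = 1) ∧ ∀ x ∈ S, g =ᶠ[𝓝 x] v := by
  obtain ⟨χ, hχ, hχc, hχs, hχ01, hχ1⟩ := exists_cutoff hS hD hSD
  refine ⟨fun x => χ x * v x, χ, ?_, hχc.mul_right, hχ01, fun x => rfl, fun x hx => ?_, hχ1,
    fun x hx => ?_⟩
  · refine contDiff_of_tsupport hV (((hχ.of_le (by norm_cast)).contDiffOn).mul hv) ?_
    exact ((tsupport_mul_subset_left (f := χ) (g := v)).trans hχs).trans (subset_closure.trans hDV)
  · show χ x * v x = 0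
    rw [image_eq_zero_of_notMem_tsupport fun h => hx (hχs h), zero_mul]
  · filter_upwards [hχ1.filter_mono (nhds_le_nhdsSet hx)] with y hy
    show χ y * v y = v y
    rw [hy, one_mul]

theorem cmp_sub (hd : 0 < d) (hu : LMin u) {D V : Set (EuclideanSpace ℝ (Fin d))}
    {v : EuclideanSpace ℝ (Fin d) → ℝ} (hD : IsOpen D) (hDc : IsCompact (closure D))
    (hV : IsOpen V) (hDV : closure D ⊆ V) (hv : ContDiffOn ℝ 2 v V)
    (h1 : ∀ x ∈ D, 0 < v x → 0 ≤ lap v x) (h2 : ∀ x ∈ D, u x = 0 → 0 < v x → 1 < gradSq v x)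
    (h3 : ∀ x ∈ frontier D, v x < u x) : ∀ x ∈ D, v x ≤ u x := by
  obtain ⟨L, hL⟩ := hu.lip
  set A := {x | x ∈ D ∧ u x < v x}
  have hA : IsOpen A := ((hL.continuous.continuousOn.prodMk (hv.continuousOn.mono
    (subset_closure.trans hDV))).isOpen_inter_preimage hD (isOpen_lt continuous_fst continuous_snd))
  have hS : IsCompact (closure A) :=
    hDc.of_isClosed_subset isClosed_closure (closure_mono fun x hx => hx.1)
  have hSD : closure A ⊆ D := fun x hx => by
    have hxD : x ∈ closure D := closure_mono (fun y hy => hy.1) hx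
    by_contra hxn
    have hle : u x ≤ v x := ContinuousWithinAt.closure_le hx hL.continuous.continuousWithinAt
      ((hv.continuousOn x (hDV hxD)).mono fun y hy => hDV (subset_closure hy.1)) fun y hy => hy.2.le
    exact (h3 x ⟨hxD, fun h => hxn (interior_subset h)⟩).not_ge hle
  obtain ⟨g, χ, hg, hgc, hχ01, hgv, hgD, -, hgS⟩ := extend_barrier hD hS hSD hV hDV hv
  obtain ⟨Kg, hKg⟩ : ∃ K, LipschitzWith K g :=
    hg.lipschitzWith_of_hasCompactSupport hgc two_ne_zero
  set z := fun x => max (u x) (g x)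
  have hzL : LipschitzWith (max L Kg) z := hL.max hKg
  have hzA : ∀ x ∈ A, z =ᶠ[𝓝 x] v := fun x hx => by
    filter_upwards [hgS x (subset_closure hx), hA.mem_nhds hx] with y hy hyA
    show max (u y) (g y) = v y
    rw [hy]; exact max_eq_right hyA.2.le
  have hznA : ∀ x, x ∉ A → z x = u x := fun x hx => max_eq_left <| by
    by_cases hxD : x ∈ D
    · rw [hgv]
      have hvu : v x ≤ u x := not_lt.1 fun h => hx ⟨hxD, h⟩
      exact (mul_le_mul_of_nonneg_left hvu (hχ01 x).1).trans
        (mul_le_of_le_one_left (hu.nonneg x) (hχ01 x).2)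
    · rw [hgD x hxD]; exact hu.nonneg x
  have hord : ∀ y, u y ≤ z y := fun y => le_max_left _ _
  have hAb : Bornology.IsBounded A := hS.isBounded.subset subset_closure
  have hmin := min_local hu hzL (fun x => (hu.nonneg x).trans (hord x)) hA hAb hznA (Or.inl hord)
  set w := fun x => z x - u x
  have hwL : LipschitzWith (max L Kg + L) w := hzL.sub hL
  have hwc : HasCompactSupport w := HasCompactSupport.intro hS fun x hx => by
    simp [w, hznA x fun h => hx (subset_closure h)]
  have hw0 : ∀ x, 0 ≤ w x := fun x => sub_nonneg.2 (hord x)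
  have hpw : ∀ i x, DifferentiableAt ℝ z x → DifferentiableAt ℝ u x →
      pd i w x = pd i z x - pd i u x := fun i x h h' => pd_sub h h'
  have hwA : ∀ i x, x ∉ A → pd i w x = 0 := fun i x hx =>
    pd_eq_zero_of_min hw0 (by simp [w, hznA x hx]) i
  let X : EuclideanSpace ℝ (Fin d) → ℝ := fun x => ∑ i, pd i g x * pd i w x
  let h : EuclideanSpace ℝ (Fin d) → ℝ := fun x =>
    {y | u y = 0}.indicator (fun _ => (1:ℝ)) x - gradSq w x
  have hXm : Measurable X := Finset.measurable_sum _ fun i _ => (measurable_pd i g).mul (measurable_pd i w)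
  have hXb : ∀ x, |X x| ≤ ∑ _i : Fin d, (Kg : ℝ) * (max L Kg + L : ℝ≥0) := fun x =>
    (Finset.abs_sum_le_sum_abs _ _).trans (Finset.sum_le_sum fun i _ => by
      rw [abs_mul]
      exact mul_le_mul (abs_pd_le_lip hKg i x) (abs_pd_le_lip hwL i x) (abs_nonneg _) Kg.coe_nonneg)
  have hid : ∀ᵐ x ∂volume.restrict A, eden z x - eden u x = 2 * X x + h x := by
    filter_upwards [ae_restrict_mem hA.measurableSet, ae_restrict_of_ae hL.ae_differentiableAt,
      ae_restrict_of_ae hzL.ae_differentiableAt] with x hx hux hzx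
    have hzv := hzA x hx
    have hgx : ∀ i, pd i g x = pd i z x := fun i =>
      pd_congr ((hgS x (subset_closure hx)).trans hzv.symm)
    have hzpos : 0 < z x := by rw [hzv.eq_of_nhds]; exact (hu.nonneg x).trans_lt hx.2
    have e : gradSq z x - gradSq u x = 2 * X x - gradSq w x := by
      simp only [gradSq, X, Finset.mul_sum, ← Finset.sum_sub_distrib]
      exact Finset.sum_congr rfl fun i _ => by rw [hgx, hpw i x hzx hux]; ring
    simp only [eden, h, indicator_of_mem (show x ∈ {y | 0 < z y} from hzpos)]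
    rcases (hu.nonneg x).lt_or_eq with hp | hp
    · rw [indicator_of_mem (show x ∈ {y | 0 < u y} from hp),
        indicator_of_notMem (show x ∉ {y | u y = 0} from hp.ne')]
      linarith
    · rw [indicator_of_notMem (show x ∉ {y | 0 < u y} from hp.ge.not_gt),
        indicator_of_mem (show x ∈ {y | u y = 0} from hp.symm)]
      linarith
  have hsign : ∀ᵐ x ∂volume.restrict A, h x ≤ 0 ∧ (h x = 0 → ∀ i, pd i w x = 0) := by
    filter_upwards [ae_restrict_mem hA.measurableSet, ae_restrict_of_ae hL.ae_differentiableAt,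
      ae_restrict_of_ae hzL.ae_differentiableAt] with x hx hux hzx
    simp only [h]
    rcases eq_or_ne (u x) 0 with hu0 | hu0
    · rw [indicator_of_mem (show x ∈ {y | u y = 0} from hu0)]
      have : gradSq w x = gradSq v x := Finset.sum_congr rfl fun i _ => by
        rw [hpw i x hzx hux, pd_eq_zero_of_min hu.nonneg hu0, sub_zero, pd_congr (hzA x hx)]
      have := h2 x hx.1 hu0 (hu0 ▸ hx.2)
      exact ⟨by linarith, fun he => by linarith⟩
    · rw [indicator_of_notMem (show x ∉ {y | u y = 0} from hu0)]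
      refine ⟨by linarith [gradSq_nonneg w x], fun he i => ?_⟩
      have hz' : gradSq w x = 0 := by linarith
      exact pow_eq_zero_iff two_ne_zero |>.1
        ((Finset.sum_eq_zero_iff_of_nonneg fun i _ => sq_nonneg (pd i w x)).1 hz' i (Finset.mem_univ i))
  have hXi : IntegrableOn X A := integrableOn_bdd hAb hXm hXb
  have hhi : IntegrableOn h A := integrableOn_bdd hAb
    ((measurable_const.indicator (isClosed_eq hL.continuous continuous_const).measurableSet).sub
      (measurable_gradSq w)) (C := 1 + d * ((max L Kg + L : ℝ≥0) : ℝ) ^ 2) fun x => by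
      have a := gradSq_le_lip hwL x
      have b := gradSq_nonneg w x
      simp only [h]
      by_cases hx : x ∈ {y | u y = 0}
      · rw [indicator_of_mem hx, abs_le]; constructor <;> linarith
      · rw [indicator_of_notMem hx, abs_le]; constructor <;> linarith
  rw [integral_congr_ae hid, integral_add (hXi.const_mul 2) hhi, integral_const_mul] at hmin
  have hXall : ∫ x in A, X x = -∫ x, lap g x * w x := by
    rw [← ibp hg hgc hwL hwc]
    refine setIntegral_eq_integral_of_forall_compl_eq_zero fun x hx => ?_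
    simp [X, hwA _ x hx]
  have hXneg : ∫ x in A, X x ≤ 0 := by
    rw [hXall, neg_nonpos]
    refine integral_nonneg fun x => ?_
    by_cases hx : x ∈ A
    · rw [lap_congr (hgS x (subset_closure hx))]
      exact mul_nonneg (h1 x hx.1 ((hu.nonneg x).trans_lt hx.2)) (hw0 x)
    · simp [w, hznA x hx]
  have hh0 : ∫ x in A, h x = 0 :=
    le_antisymm (integral_nonpos_of_ae (hsign.mono fun x hx => hx.1)) (by linarith)
  have hae : ∀ᵐ x ∂volume.restrict A, h x = 0 := by
    have := (integral_eq_zero_iff_of_nonneg_ae (f := fun x => -h x)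
      (hsign.mono fun x hx => neg_nonneg.2 hx.1) hhi.neg).1 (by rw [integral_neg, hh0, neg_zero])
    exact this.mono fun x hx => neg_eq_zero.1 hx
  have hgw : ∀ᵐ x, ∀ i, pd i w x = 0 := by
    have h' := (ae_restrict_iff' hA.measurableSet).1 (hae.and hsign)
    filter_upwards [h'] with x hx i
    by_cases hxA : x ∈ A
    · exact (hx hxA).2.2 (hx hxA).1 i
    · exact hwA i x hxA
  have hzero := eq_zero_of_grad hd hwL hwc hw0 hgw
  intro x hx
  by_contra hcon
  have hxA : x ∈ A := ⟨hx, not_le.1 hcon⟩
  have := hzero x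
  simp only [w, (hzA x hxA).eq_of_nhds] at this
  linarith [hxA.2]

theorem cmp_super (hd : 0 < d) (hu : LMin u) {D V : Set (EuclideanSpace ℝ (Fin d))}
    {v : EuclideanSpace ℝ (Fin d) → ℝ} (hD : IsOpen D) (hDc : IsCompact (closure D))
    (hV : IsOpen V) (hDV : closure D ⊆ V) (hv : ContDiffOn ℝ 2 v V)
    (h1 : ∀ x ∈ D, lap v x ≤ 0) (h2 : ∀ x ∈ D, 0 < u x → v x ≤ 0 → gradSq v x < 1)
    (h3 : ∀ x ∈ frontier D, x ∈ closure {y | 0 < u y} → u x < v x) :
    ∀ x ∈ D, 0 < u x → u x ≤ v x := by
  obtain ⟨L, hL⟩ := hu.lip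
  set A := {x | x ∈ D ∧ 0 < u x ∧ v x < u x}
  have hA : IsOpen A := ((hL.continuous.continuousOn.prodMk (hv.continuousOn.mono
    (subset_closure.trans hDV))).isOpen_inter_preimage hD
      ((isOpen_lt continuous_const continuous_fst).inter (isOpen_lt continuous_snd continuous_fst)))
  have hS : IsCompact (closure A) :=
    hDc.of_isClosed_subset isClosed_closure (closure_mono fun x hx => hx.1)
  have hSD : closure A ⊆ D := fun x hx => by
    have hxD : x ∈ closure D := closure_mono (fun y hy => hy.1) hx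
    by_contra hxn
    have hle : v x ≤ u x := ContinuousWithinAt.closure_le hx
      ((hv.continuousOn x (hDV hxD)).mono fun y hy => hDV (subset_closure hy.1))
      hL.continuous.continuousWithinAt fun y hy => hy.2.2.le
    exact (h3 x ⟨hxD, fun h => hxn (interior_subset h)⟩
      (closure_mono (fun y hy => hy.2.1) hx)).not_ge hle
  obtain ⟨g, χ, hg, hgc, hχ01, hgv, hgD, hχ1, hgS⟩ := extend_barrier hD hS hSD hV hDV hv
  obtain ⟨Kg, hKg⟩ : ∃ K, LipschitzWith K g :=
    hg.lipschitzWith_of_hasCompactSupport hgc two_ne_zero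
  rcases A.eq_empty_or_nonempty with hA0 | hAne
  · intro x hx hpos
    by_contra hcon
    exact (eq_empty_iff_forall_notMem.1 hA0) x ⟨hx, hpos, not_le.1 hcon⟩
  have hAb : Bornology.IsBounded A := hS.isBounded.subset subset_closure
  obtain ⟨η, hη, hηsub⟩ := hS.exists_thickening_subset_open
    (isOpen_interior.inter hD) (fun x hx => ⟨mem_interior_iff_mem_nhds.2
      (hχ1.filter_mono (nhds_le_nhdsSet hx) : {y | χ y = 1} ∈ 𝓝 x), hSD hx⟩)
  obtain ⟨R, hR⟩ := hS.isBounded.subset_closedBall (0 : EuclideanSpace ℝ (Fin d))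
  set P : ℝ≥0 := L + Real.toNNReal ((u 0 + L * |R|) / η)
  set cap := fun x => max (g x) 0 + (P : ℝ) * Metric.infDist x (closure A)
  obtain ⟨Kc, hKc⟩ : ∃ K, LipschitzWith K cap :=
    ⟨_, (hKg.max (LipschitzWith.const (0:ℝ))).add
      ((lipschitzWith_smul (P : ℝ)).comp (Metric.lipschitz_infDist_pt (closure A)))⟩
  set z := fun x => min (u x) (cap x)
  have hzL : LipschitzWith (max L Kc) z := hL.min hKc
  have hord : ∀ y, z y ≤ u y := fun y => min_le_left _ _
  have hcap0 : ∀ y, 0 ≤ cap y := fun y =>
    add_nonneg (le_max_right _ _) (mul_nonneg P.coe_nonneg Metric.infDist_nonneg)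
  have hzA : ∀ x ∈ A, z =ᶠ[𝓝 x] fun y => max (v y) 0 := fun x hx => by
    filter_upwards [hgS x (subset_closure hx), hA.mem_nhds hx] with y hy hyA
    show min (u y) (cap y) = max (v y) 0
    simp only [cap, hy, Metric.infDist_zero_of_mem (subset_closure hyA), mul_zero, add_zero]
    exact min_eq_right (max_le hyA.2.2.le hyA.2.1.le)
  have hznA : ∀ x, x ∉ A → z x = u x := fun x hx => min_eq_left <| by
    rcases (hu.nonneg x).lt_or_eq with hp | hp
    swap
    · rw [← hp]; exact hcap0 x
    by_cases hfar : η ≤ Metric.infDist x (closure A)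
    · obtain ⟨y, hy, hxy⟩ := hS.exists_infDist_eq_dist hAne.closure x
      have hux : u x ≤ u 0 + L * (Metric.infDist x (closure A) + |R|) := by
        have h' := hL.dist_le_mul x 0
        rw [Real.dist_eq] at h'
        have ht := dist_triangle x y 0
        have hy' := Metric.mem_closedBall.1 (hR hy)
        have := mul_le_mul_of_nonneg_left (show dist x 0 ≤ Metric.infDist x (closure A) + |R| by
          linarith [le_abs_self R]) L.coe_nonneg
        linarith [le_abs_self (u x - u 0)]
      have h0 : 0 ≤ (u 0 + L * |R|) / η := by have := hu.nonneg 0; positivity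
      have hP : (u 0 + L * |R|) ≤ (u 0 + L * |R|) / η * Metric.infDist x (closure A) := by
        rw [div_mul_eq_mul_div, le_div_iff₀ hη]
        exact mul_le_mul_of_nonneg_left hfar (by have := hu.nonneg 0; positivity)
      simp only [cap, P, NNReal.coe_add, Real.coe_toNNReal _ h0]
      linarith [le_max_right (g x) 0]
    · have hnear := hηsub (Metric.mem_thickening_iff_infDist_lt hAne.closure |>.2 (not_le.1 hfar))
      have hχx : χ x = 1 := (interior_subset hnear.1 : x ∈ {y | χ y = 1})
      have hvu : u x ≤ v x := not_lt.1 fun h => hx ⟨hnear.2, hp, h⟩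
      simp only [cap, hgv, hχx, one_mul]
      linarith [le_max_left (v x) 0, mul_nonneg P.coe_nonneg (Metric.infDist_nonneg (x := x) (s := closure A))]
  have hmin := min_local hu hzL (fun x => le_min (hu.nonneg x) (hcap0 x)) hA hAb hznA (Or.inr hord)
  set w := fun x => u x - z x
  have hwL : LipschitzWith (L + max L Kc) w := hL.sub hzL
  have hwc : HasCompactSupport w := HasCompactSupport.intro hS fun x hx => by
    simp [w, hznA x fun h => hx (subset_closure h)]
  have hw0 : ∀ x, 0 ≤ w x := fun x => sub_nonneg.2 (hord x)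
  have hpw : ∀ i x, DifferentiableAt ℝ z x → DifferentiableAt ℝ u x →
      pd i w x = pd i u x - pd i z x := fun i x h h' => pd_sub h' h
  have hwA : ∀ i x, x ∉ A → pd i w x = 0 := fun i x hx =>
    pd_eq_zero_of_min hw0 (by simp [w, hznA x hx]) i
  let X : EuclideanSpace ℝ (Fin d) → ℝ := fun x => ∑ i, pd i g x * pd i w x
  let h : EuclideanSpace ℝ (Fin d) → ℝ := fun x => eden z x - eden u x + 2 * X x
  have hXm : Measurable X := Finset.measurable_sum _ fun i _ => (measurable_pd i g).mul (measurable_pd i w)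
  have hXb : ∀ x, |X x| ≤ ∑ _i : Fin d, (Kg : ℝ) * (L + max L Kc : ℝ≥0) := fun x =>
    (Finset.abs_sum_le_sum_abs _ _).trans (Finset.sum_le_sum fun i _ => by
      rw [abs_mul]
      exact mul_le_mul (abs_pd_le_lip hKg i x) (abs_pd_le_lip hwL i x) (abs_nonneg _) Kg.coe_nonneg)
  have hsign : ∀ᵐ x ∂volume.restrict A, h x ≤ 0 ∧ (h x = 0 → ∀ i, pd i w x = 0) := by
    filter_upwards [ae_restrict_mem hA.measurableSet, ae_restrict_of_ae hL.ae_differentiableAt,
      ae_restrict_of_ae hzL.ae_differentiableAt] with x hx hux hzx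
    have hzv := hzA x hx
    have hgx : ∀ i, pd i g x = pd i v x := fun i => pd_congr (hgS x (subset_closure hx))
    simp only [h, eden, indicator_of_mem (show x ∈ {y | 0 < u y} from hx.2.1)]
    by_cases hvp : 0 < v x
    · have hev : z =ᶠ[𝓝 x] v := by
        have hc : ∀ᶠ y in 𝓝 x, 0 < v y :=
          (hv.continuousOn.continuousAt (hV.mem_nhds (hDV (subset_closure hx.1)))).tendsto.eventually
            (lt_mem_nhds hvp)
        filter_upwards [hzv, hc] with y hy hy'
        rw [hy, max_eq_left hy'.le]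
      rw [indicator_of_mem (show x ∈ {y | 0 < z y} by show 0 < z x; rw [hev.eq_of_nhds]; exact hvp)]
      have e : gradSq z x - gradSq u x + 2 * X x = -gradSq w x := by
        simp only [gradSq, X, Finset.mul_sum, ← Finset.sum_sub_distrib, ← Finset.sum_add_distrib,
          ← Finset.sum_neg_distrib]
        exact Finset.sum_congr rfl fun i _ => by
          rw [hgx, hpw i x hzx hux, pd_congr hev]; ring
      refine ⟨by linarith [gradSq_nonneg w x], fun he i => ?_⟩
      have hz' : gradSq w x = 0 := by linarith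
      exact pow_eq_zero_iff two_ne_zero |>.1
        ((Finset.sum_eq_zero_iff_of_nonneg fun i _ => sq_nonneg (pd i w x)).1 hz' i (Finset.mem_univ i))
    · rw [not_lt] at hvp
      have hz0 : z x = 0 := by rw [hzv.eq_of_nhds]; exact max_eq_right hvp
      have hzd : ∀ i, pd i z x = 0 :=
        pd_eq_zero_of_min (fun y => le_min (hu.nonneg y) (hcap0 y)) hz0
      rw [indicator_of_notMem (show x ∉ {y | 0 < z y} from hz0.le.not_gt)]
      have e : gradSq z x - gradSq u x + 2 * X x ≤ gradSq v x := by
        simp only [gradSq, X, Finset.mul_sum, ← Finset.sum_sub_distrib, ← Finset.sum_add_distrib]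
        refine Finset.sum_le_sum fun i _ => ?_
        rw [hgx, hpw i x hzx hux, hzd]
        nlinarith [sq_nonneg (pd i u x - pd i v x)]
      have := h2 x hx.1 hx.2.1 hvp
      exact ⟨by linarith, fun he => by linarith⟩
  have hXi : IntegrableOn X A := integrableOn_bdd hAb hXm hXb
  have hdi : IntegrableOn (fun x => eden z x - eden u x) A :=
    (integrableOn_bdd hAb (eden_meas hzL.continuous) (eden_bdd hzL)).sub
      (integrableOn_bdd hAb (eden_meas hL.continuous) (eden_bdd hL))
  have hhi : IntegrableOn h A := hdi.add (hXi.const_mul 2)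
  have hXall : ∫ x in A, X x = -∫ x, lap g x * w x := by
    rw [← ibp hg hgc hwL hwc]
    refine setIntegral_eq_integral_of_forall_compl_eq_zero fun x hx => ?_
    simp [X, hwA _ x hx]
  have hXpos : 0 ≤ ∫ x in A, X x := by
    rw [hXall, neg_nonneg]
    refine integral_nonpos fun x => ?_
    by_cases hx : x ∈ A
    · rw [lap_congr (hgS x (subset_closure hx))]
      exact mul_nonpos_of_nonpos_of_nonneg (h1 x hx.1) (hw0 x)
    · simp [w, hznA x hx]
  have hsum : ∫ x in A, h x = (∫ x in A, (eden z x - eden u x)) + 2 * ∫ x in A, X x := by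
    rw [← integral_const_mul, ← integral_add hdi (hXi.const_mul 2)]
  have hh0 : ∫ x in A, h x = 0 :=
    le_antisymm (integral_nonpos_of_ae (hsign.mono fun x hx => hx.1)) (by linarith)
  have hae : ∀ᵐ x ∂volume.restrict A, h x = 0 := by
    have := (integral_eq_zero_iff_of_nonneg_ae (f := fun x => -h x)
      (hsign.mono fun x hx => neg_nonneg.2 hx.1) hhi.neg).1 (by rw [integral_neg, hh0, neg_zero])
    exact this.mono fun x hx => neg_eq_zero.1 hx
  have hgw : ∀ᵐ x, ∀ i, pd i w x = 0 := by
    have h' := (ae_restrict_iff' hA.measurableSet).1 (hae.and hsign)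
    filter_upwards [h'] with x hx i
    by_cases hxA : x ∈ A
    · exact (hx hxA).2.2 (hx hxA).1 i
    · exact hwA i x hxA
  have hzero := eq_zero_of_grad hd hwL hwc hw0 hgw
  intro x hx hpos
  by_contra hcon
  have hxA : x ∈ A := ⟨hx, hpos, not_le.1 hcon⟩
  have := hzero x
  simp only [w, (hzA x hxA).eq_of_nhds] at this
  rcases le_total (v x) 0 with hle | hle
  · rw [max_eq_right hle] at this; linarith
  · rw [max_eq_left hle] at this; linarith [hxA.2.2]

/-- Lipschitz minimisers are solutions in the comparison sense. -/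
theorem sol_of_lmin (hd : 0 < d) (hu : LMin u) (hs : ContDiffOn ℝ ∞ u {x | 0 < u x})
    (hh : ∀ x, 0 < u x → ∑ i, pd i (pd i u) x = 0)
    {W : Set (EuclideanSpace ℝ (Fin d))} (hW : IsOpen W) : Sol u W := by
  obtain ⟨L, hL⟩ := hu.lip
  refine ⟨hW, hL.continuous.continuousOn, fun x _ => hu.nonneg x, hs.mono fun x hx => hx.2,
    fun x hx => hh x hx.2, ?_, ?_⟩
  · intro D V v hD hDc _ hV hDV hv h1 h2 h3 x hx
    refine le_of_forall_pos_le_add fun e he => ?_
    have ev : ∀ y ∈ V, ∀ i, pd i (fun z => v z - e) =ᶠ[𝓝 y] pd i v := fun y hy i => by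
      filter_upwards [hV.mem_nhds hy] with z hz
      rw [pd_sub ((hv.contDiffAt (hV.mem_nhds hz)).differentiableAt (by norm_num))
        (differentiableAt_const _), pd_const, sub_zero]
    have el : ∀ y ∈ V, lap (fun z => v z - e) y = lap v y := fun y hy =>
      Finset.sum_congr rfl fun i _ => pd_congr (ev y hy i)
    have eg : ∀ y ∈ V, gradSq (fun z => v z - e) y = gradSq v y := fun y hy =>
      Finset.sum_congr rfl fun i _ => by rw [(ev y hy i).eq_of_nhds]
    have := cmp_sub hd hu hD hDc hV hDV (hv.sub contDiffOn_const)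
      (fun y hy hp => (el y (hDV (subset_closure hy))).symm ▸ h1 y hy (by linarith))
      (fun y hy h0 hp => (eg y (hDV (subset_closure hy))).symm ▸ h2 y hy h0 (by linarith))
      (fun y hy => by linarith [h3 y hy]) x hx
    linarith
  · intro D V v hD hDc hDW hV hDV hv h1 h2 h3 x hx hpos
    refine le_of_forall_pos_le_add fun e he => ?_
    have ev : ∀ y ∈ V, ∀ i, pd i (fun z => v z + e) =ᶠ[𝓝 y] pd i v := fun y hy i => by
      filter_upwards [hV.mem_nhds hy] with z hz
      rw [pd_add ((hv.contDiffAt (hV.mem_nhds hz)).differentiableAt (by norm_num))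
        (differentiableAt_const _), pd_const, add_zero]
    have el : ∀ y ∈ V, lap (fun z => v z + e) y = lap v y := fun y hy =>
      Finset.sum_congr rfl fun i _ => pd_congr (ev y hy i)
    have eg : ∀ y ∈ V, gradSq (fun z => v z + e) y = gradSq v y := fun y hy =>
      Finset.sum_congr rfl fun i _ => by rw [(ev y hy i).eq_of_nhds]
    exact cmp_super hd hu hD hDc hV hDV (hv.add contDiffOn_const)
      (fun y hy => (el y (hDV (subset_closure hy))).symm ▸ h1 y hy)
      (fun y hy h0 hp => (eg y (hDV (subset_closure hy))).symm ▸ h2 y hy h0 (by linarith))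
      (fun y hy hyc => by
        have : y ∈ closure (pos u W) := closure_mono
          (show W ∩ {z | 0 < u z} ⊆ pos u W from fun z hz => ⟨hz.1, hz.2⟩)
          (hW.inter_closure ⟨hDW (frontier_subset_closure hy), hyc⟩)
        linarith [h3 y hy this]) x hx hpos

end Vale.Agent.P098.Reg.Eps
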