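import Vale.Agent.P098.Reg.Eps.Iterate
import Vale.Agent.P098.Reg.Eps.Compare
import Vale.Agent.P098.Reg.Iface

/-! Module D: flatness implies `C^{1,α}`, in the form of the interface. -/

noncomputable section

namespace Vale.Agent.P098.Reg.Eps

open Set Filter Topology
open scoped ContDiff RealInnerProductSpace

variable {d : ℕ}

theorem trapped_iff_band (u : Pt d → ℝ) (c : Pt d) (r ε : ℝ) (ν : Pt d) :
    Trapped u c r ε ν ↔ Band u (Metric.ball c r) ν (-⟪ν, c⟫ - ε * r) (-⟪ν, c⟫ + ε * r) := by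
  have e : ∀ y : Pt d, (∑ i, (y i - c i) * ν i) = ⟪ν, y⟫ - ⟪ν, c⟫ := fun y => by
    rw [inner_eq_sum, inner_eq_sum, ← Finset.sum_sub_distrib]
    exact Finset.sum_congr rfl fun i _ => by ring
  simp only [Trapped, Band, e]
  simp only [sub_eq_add_neg, add_assoc]

/-- Epsilon-regularity from the smoothness and harmonicity of minimisers where positive. -/
theorem epsReg_of_smooth
    (hs : ∀ u : Pt d → ℝ, LMin u → ContDiffOn ℝ ∞ u {x | 0 < u x})
    (hh : ∀ u : Pt d → ℝ, LMin u → ∀ x, 0 < u x → ∑ i, pd i (pd i u) x = 0) : EpsReg d := by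
  rcases Nat.eq_zero_or_pos d with rfl | hd
  · refine ⟨1 / 2, by norm_num, by norm_num, 1, one_pos, 1, one_pos, fun u ν ε _ hν => ?_⟩
    exfalso
    rw [Subsingleton.elim ν 0, norm_zero] at hν
    norm_num at hν
  obtain ⟨α, ε₀, C, hα, hα1, hε₀, hC, H⟩ := flat_regular hd
  refine ⟨α, hα, hα1, ε₀, hε₀, C, hC, fun u ν ε hu hν hε hε0 ht => ?_⟩
  have hb : Band u (Metric.ball 0 1) ν (-ε) ε := by
    simpa using (trapped_iff_band u 0 1 ε ν).1 ht
  obtain ⟨H1, H2⟩ := H u ν ε (sol_of_lmin hd hu (hs u hu) (hh u hu) Metric.isOpen_ball) hν hb hε hε0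
  obtain ⟨L, hL⟩ := hu.lip
  refine ⟨fun x hxf hxb => ?_, fun x hx hux => ?_⟩
  · rw [mem_ball_zero_iff] at hxb
    have hop : IsOpen {y | 0 < u y} := isOpen_lt continuous_const hL.continuous
    rw [free, frontier, hop.interior_eq] at hxf
    have hxc : x ∈ closure (pos u (Metric.ball 0 1)) :=
      closure_mono (show Metric.ball 0 1 ∩ {y | 0 < u y} ⊆ pos u (Metric.ball 0 1) from
        fun y hy => ⟨hy.1, hy.2⟩)
        (Metric.isOpen_ball.inter_closure ⟨mem_ball_zero_iff.2 (by linarith), hxf.1⟩)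
    obtain ⟨νx, h1, h2⟩ := H1 x hxb hxc (le_antisymm (not_lt.1 hxf.2) (hu.nonneg x))
    exact ⟨νx, h1, fun r hr hr4 => (trapped_iff_band u x r _ νx).2 (h2 r hr hr4)⟩
  · obtain ⟨k1, k2⟩ := H2 x (mem_ball_zero_iff.1 hx) hux
    exact ⟨k1, fun y hy huy => k2 y (mem_ball_zero_iff.1 hy) huy⟩

/-- Module D of the regularity chain. -/
theorem epsReg (hB : Basics d) : EpsReg d := epsReg_of_smooth hB.smooth hB.harmonic

end Vale.Agent.P098.Reg.Eps
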