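import Vale.Agent.P098.Cone

/-! Epsilon-regularity, basic notions: Laplacian, solutions by comparison, flatness bands, scaling. -/

noncomputable section

namespace Vale.Agent.P098.Reg.Eps

open Set Filter Topology
open scoped ContDiff RealInnerProductSpace

variable {d : ℕ}

/-- The Laplacian. -/
def lap (f : EuclideanSpace ℝ (Fin d) → ℝ) (x : EuclideanSpace ℝ (Fin d)) : ℝ :=
  ∑ i, pd i (pd i f) x

/-- The positivity set inside `W`. -/
def pos (u : EuclideanSpace ℝ (Fin d) → ℝ) (W : Set (EuclideanSpace ℝ (Fin d))) :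
    Set (EuclideanSpace ℝ (Fin d)) :=
  {x | x ∈ W ∧ 0 < u x}

/-- A solution of the one-phase problem on `W`: harmonic where positive and obeying the two
comparison principles with strict classical sub- and supersolutions. -/
structure Sol (u : EuclideanSpace ℝ (Fin d) → ℝ) (W : Set (EuclideanSpace ℝ (Fin d))) : Prop where
  isOpen : IsOpen W
  cont : ContinuousOn u W
  nonneg : ∀ x ∈ W, 0 ≤ u x
  smooth : ContDiffOn ℝ ∞ u (pos u W)
  harm : ∀ x ∈ pos u W, lap u x = 0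
  sub : ∀ D V : Set (EuclideanSpace ℝ (Fin d)), ∀ v : EuclideanSpace ℝ (Fin d) → ℝ,
    IsOpen D → IsCompact (closure D) → closure D ⊆ W → IsOpen V → closure D ⊆ V →
    ContDiffOn ℝ 2 v V → (∀ x ∈ D, 0 < v x → 0 ≤ lap v x) →
    (∀ x ∈ D, u x = 0 → 0 < v x → 1 < gradSq v x) →
    (∀ x ∈ frontier D, v x ≤ u x) → ∀ x ∈ D, v x ≤ u x
  super : ∀ D V : Set (EuclideanSpace ℝ (Fin d)), ∀ v : EuclideanSpace ℝ (Fin d) → ℝ,
    IsOpen D → IsCompact (closure D) → closure D ⊆ W → IsOpen V → closure D ⊆ V →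
    ContDiffOn ℝ 2 v V → (∀ x ∈ D, lap v x ≤ 0) →
    (∀ x ∈ D, 0 < u x → v x ≤ 0 → gradSq v x < 1) →
    (∀ x ∈ frontier D, x ∈ closure (pos u W) → u x ≤ v x) → ∀ x ∈ D, 0 < u x → u x ≤ v x

/-- `u` lies between the two translated half-space solutions on `W`. -/
def Band (u : EuclideanSpace ℝ (Fin d) → ℝ) (W : Set (EuclideanSpace ℝ (Fin d)))
    (ν : EuclideanSpace ℝ (Fin d)) (a b : ℝ) : Prop :=
  ∀ x ∈ W, max (⟪ν, x⟫ + a) 0 ≤ u x ∧ u x ≤ max (⟪ν, x⟫ + b) 0

variable {u f g : EuclideanSpace ℝ (Fin d) → ℝ} {W : Set (EuclideanSpace ℝ (Fin d))}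
  {ν x : EuclideanSpace ℝ (Fin d)} {a b : ℝ}

theorem Sol.isOpen_pos (h : Sol u W) : IsOpen (pos u W) :=
  h.cont.isOpen_inter_preimage h.isOpen isOpen_Ioi

theorem Sol.diffAt (h : Sol u W) (hx : x ∈ pos u W) : DifferentiableAt ℝ u x :=
  (h.smooth.contDiffAt (h.isOpen_pos.mem_nhds hx)).differentiableAt (by simp)

theorem Band.mono_set (h : Band u W ν a b) {W' : Set (EuclideanSpace ℝ (Fin d))} (hW : W' ⊆ W) :
    Band u W' ν a b :=
  fun x hx => h x (hW hx)

theorem Band.mono (h : Band u W ν a b) {a' b' : ℝ} (ha : a' ≤ a) (hb : b ≤ b') :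
    Band u W ν a' b' := fun x hx =>
  ⟨(max_le_max (by linarith) le_rfl).trans (h x hx).1,
    (h x hx).2.trans (max_le_max (by linarith) le_rfl)⟩

theorem Band.mem_pos (h : Band u W ν a b) (hx : x ∈ W) (h0 : 0 < ⟪ν, x⟫ + a) : x ∈ pos u W :=
  ⟨hx, h0.trans_le ((le_max_left _ _).trans (h x hx).1)⟩

theorem Band.upper (h : Band u W ν a b) (hx : x ∈ pos u W) : u x ≤ ⟪ν, x⟫ + b := by
  have h1 := (h x hx.1).2
  rcases le_max_iff.1 h1 with h2 | h2
  · exact h2
  · exact absurd hx.2 (not_lt.2 h2)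

theorem Band.lower (h : Band u W ν a b) (hx : x ∈ W) : ⟪ν, x⟫ + a ≤ u x :=
  (le_max_left _ _).trans (h x hx).1

/-- Closure points of the positivity set lie above the upper plane. -/
theorem Band.closure_pos (h : Band u W ν a b) (hx : x ∈ closure (pos u W)) : 0 ≤ ⟪ν, x⟫ + b := by
  have : closure (pos u W) ⊆ {y | 0 ≤ ⟪ν, y⟫ + b} :=
    closure_minimal (fun y hy => by
      have := h.upper hy; have := hy.2
      show 0 ≤ ⟪ν, y⟫ + b
      linarith) (isClosed_le continuous_const (by fun_prop))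
  exact this hx

theorem inner_eq_sum (ν x : EuclideanSpace ℝ (Fin d)) : ⟪ν, x⟫ = ∑ i, ν i * x i := by
  simp [PiLp.inner_apply, mul_comm]

theorem norm_sq_eq (x : EuclideanSpace ℝ (Fin d)) : ‖x‖ ^ 2 = ∑ i, x i ^ 2 :=
  EuclideanSpace.real_norm_sq_eq x

theorem pd_inner (i : Fin d) (ν x : EuclideanSpace ℝ (Fin d)) :
    pd i (fun y => ⟪ν, y⟫) x = ν i := by
  have : HasFDerivAt (fun y => ⟪ν, y⟫) (innerSL ℝ ν) x := (innerSL ℝ ν).hasFDerivAt
  simp [pd, this.fderiv, EuclideanSpace.inner_single_right]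

theorem contDiff_inner_right {n : ℕ∞ω} (ν : EuclideanSpace ℝ (Fin d)) :
    ContDiff ℝ n fun y : EuclideanSpace ℝ (Fin d) => ⟪ν, y⟫ :=
  (innerSL ℝ ν).contDiff

theorem lap_inner (ν x : EuclideanSpace ℝ (Fin d)) : lap (fun y => ⟪ν, y⟫) x = 0 := by
  refine Finset.sum_eq_zero fun i _ => ?_
  rw [show pd i (fun y => ⟪ν, y⟫) = fun _ => ν i from funext fun y => pd_inner i ν y, pd_const]

theorem lap_congr (h : f =ᶠ[𝓝 x] g) : lap f x = lap g x := by
  refine Finset.sum_congr rfl fun i _ => pd_congr ?_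
  filter_upwards [h.eventuallyEq_nhds] with y hy using pd_congr hy

theorem gradSq_congr' (h : f =ᶠ[𝓝 x] g) : gradSq f x = gradSq g x :=
  Finset.sum_congr rfl fun i _ => by rw [pd_congr h]

theorem pd_eventually (i : Fin d) (hf : ContDiffAt ℝ 2 f x) :
    DifferentiableAt ℝ (pd i f) x :=
  (((hf.fderiv_right (m := 1) (by norm_num)).clm_apply contDiffAt_const)).differentiableAt (by norm_num)

theorem eventually_diff (hf : ContDiffAt ℝ 2 f x) : ∀ᶠ y in 𝓝 x, DifferentiableAt ℝ f y := by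
  filter_upwards [hf.eventually (by simp)] with y hy using hy.differentiableAt (by norm_num)

theorem pd_add' (i : Fin d) (hf : ContDiffAt ℝ 2 f x) (hg : ContDiffAt ℝ 2 g x) :
    pd i (fun y => f y + g y) =ᶠ[𝓝 x] fun y => pd i f y + pd i g y := by
  filter_upwards [eventually_diff hf, eventually_diff hg] with y h1 h2 using pd_add h1 h2

theorem lap_add (hf : ContDiffAt ℝ 2 f x) (hg : ContDiffAt ℝ 2 g x) :
    lap (fun y => f y + g y) x = lap f x + lap g x := by
  simp only [lap, ← Finset.sum_add_distrib]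
  refine Finset.sum_congr rfl fun i _ => ?_
  rw [pd_congr (pd_add' i hf hg), pd_add (pd_eventually i hf) (pd_eventually i hg)]

theorem lap_const (c : ℝ) : lap (fun _ : EuclideanSpace ℝ (Fin d) => c) x = 0 :=
  Finset.sum_eq_zero fun i _ => by
    rw [show pd i (fun _ : EuclideanSpace ℝ (Fin d) => c) = fun _ => (0:ℝ) from
      funext fun y => pd_const c, pd_const]

theorem lap_const_mul (c : ℝ) (hf : ContDiffAt ℝ 2 f x) :
    lap (fun y => c * f y) x = c * lap f x := by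
  simp only [lap, Finset.mul_sum]
  refine Finset.sum_congr rfl fun i _ => ?_
  have : pd i (fun y => c * f y) =ᶠ[𝓝 x] fun y => c * pd i f y := by
    filter_upwards [eventually_diff hf] with y hy using pd_const_mul c hy
  rw [pd_congr this, pd_const_mul c (pd_eventually i hf)]

theorem lap_mul (hf : ContDiffAt ℝ 2 f x) (hg : ContDiffAt ℝ 2 g x) :
    lap (fun y => f y * g y) x
      = f x * lap g x + 2 * ∑ i, pd i f x * pd i g x + lap f x * g x := by
  have hfd : DifferentiableAt ℝ f x := hf.differentiableAt (by norm_num)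
  have hgd : DifferentiableAt ℝ g x := hg.differentiableAt (by norm_num)
  simp only [lap, Finset.mul_sum, Finset.sum_mul, ← Finset.sum_add_distrib]
  refine Finset.sum_congr rfl fun i _ => ?_
  have : pd i (fun y => f y * g y) =ᶠ[𝓝 x] fun y => f y * pd i g y + pd i f y * g y := by
    filter_upwards [eventually_diff hf, eventually_diff hg] with y h1 h2 using pd_mul h1 h2
  rw [pd_congr this, pd_add (hfd.fun_mul (pd_eventually i hg)) ((pd_eventually i hf).fun_mul hgd),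
    pd_mul hfd (pd_eventually i hg), pd_mul (pd_eventually i hf) hgd]
  ring

theorem gradSq_nonneg (f : EuclideanSpace ℝ (Fin d) → ℝ) (x : EuclideanSpace ℝ (Fin d)) :
    0 ≤ gradSq f x :=
  Finset.sum_nonneg fun _ _ => sq_nonneg _

/-- Squared gradient of a perturbed half-space solution. -/
theorem gradSq_plane (hν : ‖ν‖ = 1) (e : ℝ) {w : EuclideanSpace ℝ (Fin d) → ℝ}
    (hw : DifferentiableAt ℝ w x) (c : ℝ) :
    gradSq (fun y => ⟪ν, y⟫ + c + e * w y) x
      = 1 + 2 * e * fderiv ℝ w x ν + e ^ 2 * gradSq w x := by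
  have hp : DifferentiableAt ℝ (fun y => ⟪ν, y⟫ + c) x :=
    ((contDiff_inner_right (n := 1) ν).differentiable one_ne_zero x).add_const c
  have h : ∀ i, pd i (fun y => ⟪ν, y⟫ + c + e * w y) x = ν i + e * pd i w x := fun i => by
    rw [pd_add hp (hw.const_mul e), pd_const_mul e hw,
      pd_add ((contDiff_inner_right (n := 1) ν).differentiable one_ne_zero x)
        (differentiableAt_const c), pd_inner, pd_const, add_zero]
  have h1 : ∑ i, ν i ^ 2 = 1 := by rw [← norm_sq_eq, hν, one_pow]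
  simp only [gradSq, h, fderiv_eq_sum_pd, Finset.mul_sum]
  rw [← h1, ← Finset.sum_add_distrib, ← Finset.sum_add_distrib]
  exact Finset.sum_congr rfl fun i _ => by ring

theorem lap_plane (e : ℝ) {w : EuclideanSpace ℝ (Fin d) → ℝ}
    (hw : ContDiffAt ℝ 2 w x) (c : ℝ) :
    lap (fun y => ⟪ν, y⟫ + c + e * w y) x = e * lap w x := by
  have hp : ContDiffAt ℝ 2 (fun y => ⟪ν, y⟫) x := (contDiff_inner_right ν).contDiffAt
  rw [lap_add (hp.add contDiffAt_const) (contDiffAt_const.mul hw), lap_const_mul e hw,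
    lap_add hp contDiffAt_const, lap_inner, lap_const]
  ring

/-! ### Scaling -/

/-- Blow-up of `u` at `x0` by the factor `r`. -/
def resc (u : EuclideanSpace ℝ (Fin d) → ℝ) (x0 : EuclideanSpace ℝ (Fin d)) (r : ℝ)
    (y : EuclideanSpace ℝ (Fin d)) : ℝ :=
  r⁻¹ * u (x0 + r • y)

/-- The affine change of variables of `resc`. -/
def aff (x0 : EuclideanSpace ℝ (Fin d)) {r : ℝ} (hr : r ≠ 0) :
    EuclideanSpace ℝ (Fin d) ≃ₜ EuclideanSpace ℝ (Fin d) :=
  (Homeomorph.smulOfNeZero r hr).trans (Homeomorph.addLeft x0)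

theorem aff_apply (x0 : EuclideanSpace ℝ (Fin d)) {r : ℝ} (hr : r ≠ 0)
    (y : EuclideanSpace ℝ (Fin d)) : aff x0 hr y = x0 + r • y := rfl

theorem pd_affine (i : Fin d) (c r : ℝ) (x0 : EuclideanSpace ℝ (Fin d))
    {y : EuclideanSpace ℝ (Fin d)} (hf : DifferentiableAt ℝ f (x0 + r • y)) :
    pd i (fun z => c * f (x0 + r • z)) y = c * r * pd i f (x0 + r • y) := by
  have h1 : HasFDerivAt (fun z : EuclideanSpace ℝ (Fin d) => x0 + r • z)
      (r • ContinuousLinearMap.id ℝ (EuclideanSpace ℝ (Fin d))) y :=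
    (((hasFDerivAt_id y).const_smul r).const_add x0)
  have h2 := (hf.hasFDerivAt.comp y h1).const_mul c
  rw [pd, show (fun z => c * f (x0 + r • z)) = fun z => c * (f ∘ fun z => x0 + r • z) z from rfl,
    h2.fderiv]
  simp [pd, mul_assoc]

theorem lap_affine (c r : ℝ) (x0 : EuclideanSpace ℝ (Fin d)) {y : EuclideanSpace ℝ (Fin d)}
    (hf : ContDiffAt ℝ 2 f (x0 + r • y)) :
    lap (fun z => c * f (x0 + r • z)) y = c * r ^ 2 * lap f (x0 + r • y) := by
  simp only [lap, Finset.mul_sum]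
  refine Finset.sum_congr rfl fun i _ => ?_
  have ht : Tendsto (fun z : EuclideanSpace ℝ (Fin d) => x0 + r • z) (𝓝 y) (𝓝 (x0 + r • y)) :=
    ((by fun_prop : Continuous fun z : EuclideanSpace ℝ (Fin d) => x0 + r • z)).tendsto y
  have : pd i (fun z => c * f (x0 + r • z)) =ᶠ[𝓝 y] fun z => c * r * pd i f (x0 + r • z) := by
    filter_upwards [ht.eventually (eventually_diff hf)] with z hz using pd_affine i c r x0 hz
  rw [pd_congr this, pd_affine i (c * r) r x0 (pd_eventually i hf)]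
  ring

theorem gradSq_affine (c r : ℝ) (x0 : EuclideanSpace ℝ (Fin d)) {y : EuclideanSpace ℝ (Fin d)}
    (hf : DifferentiableAt ℝ f (x0 + r • y)) :
    gradSq (fun z => c * f (x0 + r • z)) y = (c * r) ^ 2 * gradSq f (x0 + r • y) := by
  simp only [gradSq, Finset.mul_sum]
  exact Finset.sum_congr rfl fun i _ => by rw [pd_affine i c r x0 hf, mul_pow]

theorem pos_resc (x0 : EuclideanSpace ℝ (Fin d)) {r : ℝ} (hr : 0 < r) :
    pos (resc u x0 r) (aff x0 hr.ne' ⁻¹' W) = aff x0 hr.ne' ⁻¹' pos u W := by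
  ext y
  simp [pos, resc, aff_apply, hr]

theorem Sol.rescale (h : Sol u W) (x0 : EuclideanSpace ℝ (Fin d)) {r : ℝ} (hr : 0 < r) :
    Sol (resc u x0 r) (aff x0 hr.ne' ⁻¹' W) := by
  set A := aff x0 hr.ne' with hA
  have hAc : ContDiff ℝ ∞ fun y : EuclideanSpace ℝ (Fin d) => x0 + r • y := by fun_prop
  -- transport of test functions
  have key : ∀ D V : Set (EuclideanSpace ℝ (Fin d)), ∀ v : EuclideanSpace ℝ (Fin d) → ℝ,
      IsOpen D → IsCompact (closure D) → closure D ⊆ A ⁻¹' W → IsOpen V → closure D ⊆ V →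
      ContDiffOn ℝ 2 v V →
      let w := fun x => r * v ((-(r⁻¹ • x0)) + r⁻¹ • x)
      IsOpen (A '' D) ∧ IsCompact (closure (A '' D)) ∧ closure (A '' D) ⊆ W ∧ IsOpen (A '' V) ∧
        closure (A '' D) ⊆ A '' V ∧ ContDiffOn ℝ 2 w (A '' V) ∧
        (∀ y ∈ V, r * v ((-(r⁻¹ • x0)) + r⁻¹ • A y) = r * v y) ∧
        (∀ y ∈ V, lap w (A y) = r⁻¹ * lap v y ∧ gradSq w (A y) = gradSq v y) := by
    intro D V v hD hDc hDW hV hDV hv w
    have hinv : ∀ y, (-(r⁻¹ • x0)) + r⁻¹ • A y = y := fun y => by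
      rw [hA, aff_apply, smul_add, smul_smul, inv_mul_cancel₀ hr.ne', one_smul]; abel
    refine ⟨A.isOpenMap D hD, ?_, ?_, A.isOpenMap V hV, ?_, ?_, fun y _ => by rw [hinv],
      fun y hy => ⟨?_, ?_⟩⟩
    · rw [← A.image_closure]; exact hDc.image A.continuous
    · rw [← A.image_closure]; exact image_subset_iff.2 hDW
    · rw [← A.image_closure]; exact image_mono hDV
    · refine contDiffOn_const.mul (hv.comp (by fun_prop) ?_)
      rintro _ ⟨y, hy, rfl⟩
      show -(r⁻¹ • x0) + r⁻¹ • A y ∈ V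
      rwa [hinv]
    · have := lap_affine (f := v) r r⁻¹ (-(r⁻¹ • x0)) (y := A y)
        (by rw [hinv]; exact hv.contDiffAt (hV.mem_nhds hy))
      rw [hinv] at this
      rw [show lap w (A y) = _ from this]
      field_simp
    · have := gradSq_affine (f := v) r r⁻¹ (-(r⁻¹ • x0)) (y := A y)
        (by rw [hinv]; exact (hv.contDiffAt (hV.mem_nhds hy)).differentiableAt (by norm_num))
      rw [hinv] at this
      rw [show gradSq w (A y) = _ from this, mul_inv_cancel₀ hr.ne', one_pow, one_mul]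
  have hu : ∀ y, u (A y) = r * resc u x0 r y := fun y => by
    simp [resc, hA, aff_apply, hr.ne']
  refine ⟨A.continuous.isOpen_preimage _ h.isOpen, ?_, fun y hy => ?_, ?_, fun y hy => ?_, ?_, ?_⟩
  · exact continuousOn_const.mul (h.cont.comp A.continuous.continuousOn fun y hy => hy)
  · exact mul_nonneg (inv_nonneg.2 hr.le) (h.nonneg _ hy)
  · rw [pos_resc x0 hr]
    exact contDiffOn_const.mul (h.smooth.comp hAc.contDiffOn fun y hy => hy)
  · rw [pos_resc x0 hr] at hy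
    rw [show resc u x0 r = fun z => r⁻¹ * u (x0 + r • z) from rfl,
      lap_affine r⁻¹ r x0 (((h.smooth.contDiffAt (h.isOpen_pos.mem_nhds hy))).of_le (by norm_cast)),
      h.harm (x0 + r • y) hy, mul_zero]
  · intro D V v hD hDc hDW hV hDV hv h1 h2 h3 y hy
    obtain ⟨k1, k2, k3, k4, k5, k6, k7, k8⟩ := key D V v hD hDc hDW hV hDV hv
    have := h.sub _ _ _ k1 k2 k3 k4 k5 k6 ?_ ?_ ?_ (A y) (mem_image_of_mem A hy)
    · rw [k7 y (hDV (subset_closure hy)), hu] at this
      exact le_of_mul_le_mul_left this hr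
    · rintro _ ⟨z, hz, rfl⟩ hp
      have hzV := hDV (subset_closure hz)
      rw [k7 z hzV] at hp
      rw [(k8 z hzV).1]
      exact mul_nonneg (inv_nonneg.2 hr.le) (h1 z hz (pos_of_mul_pos_right hp hr.le))
    · rintro _ ⟨z, hz, rfl⟩ hu0 hp
      have hzV := hDV (subset_closure hz)
      rw [k7 z hzV] at hp
      rw [(k8 z hzV).2]
      exact h2 z hz (by simpa [hu, hr.ne'] using hu0) (pos_of_mul_pos_right hp hr.le)
    · intro z hz
      rw [← A.image_frontier] at hz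
      obtain ⟨z, hz, rfl⟩ := hz
      rw [k7 z (hDV (frontier_subset_closure hz)), hu]
      exact mul_le_mul_of_nonneg_left (h3 z hz) hr.le
  · intro D V v hD hDc hDW hV hDV hv h1 h2 h3 y hy hy0
    obtain ⟨k1, k2, k3, k4, k5, k6, k7, k8⟩ := key D V v hD hDc hDW hV hDV hv
    have := h.super _ _ _ k1 k2 k3 k4 k5 k6 ?_ ?_ ?_ (A y) (mem_image_of_mem A hy)
      (by rw [hu]; positivity)
    · rw [k7 y (hDV (subset_closure hy)), hu] at this
      exact le_of_mul_le_mul_left this hr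
    · rintro _ ⟨z, hz, rfl⟩
      rw [(k8 z (hDV (subset_closure hz))).1]
      exact mul_nonpos_of_nonneg_of_nonpos (inv_nonneg.2 hr.le) (h1 z hz)
    · rintro _ ⟨z, hz, rfl⟩ hu0 hp
      have hzV := hDV (subset_closure hz)
      rw [k7 z hzV] at hp
      rw [(k8 z hzV).2]
      exact h2 z hz (by rw [hu] at hu0; exact pos_of_mul_pos_right hu0 hr.le)
        (nonpos_of_mul_nonpos_right hp hr)
    · intro z hz hzc
      rw [← A.image_frontier] at hz
      obtain ⟨z, hz, rfl⟩ := hz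
      rw [k7 z (hDV (frontier_subset_closure hz)), hu]
      refine mul_le_mul_of_nonneg_left (h3 z hz ?_) hr.le
      rw [pos_resc x0 hr, ← A.preimage_closure]
      exact hzc

theorem preimage_ball (x0 : EuclideanSpace ℝ (Fin d)) {r : ℝ} (hr : 0 < r)
    (y : EuclideanSpace ℝ (Fin d)) (s : ℝ) :
    aff x0 hr.ne' ⁻¹' Metric.ball (x0 + r • y) (r * s) = Metric.ball y s := by
  ext z
  simp only [mem_preimage, aff_apply, Metric.mem_ball, dist_eq_norm, add_sub_add_left_eq_sub,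
    ← smul_sub, norm_smul, Real.norm_eq_abs, abs_of_pos hr]
  exact mul_lt_mul_iff_of_pos_left hr

theorem Sol.rescale_ball {x0 : EuclideanSpace ℝ (Fin d)} {r : ℝ}
    (h : Sol u (Metric.ball x0 r)) (hr : 0 < r) : Sol (resc u x0 r) (Metric.ball 0 1) := by
  have := h.rescale x0 hr
  rwa [show Metric.ball x0 r = Metric.ball (x0 + r • (0 : EuclideanSpace ℝ (Fin d))) (r * 1) by simp,
    preimage_ball x0 hr] at this

theorem Sol.restrict (h : Sol u W) {W' : Set (EuclideanSpace ℝ (Fin d))} (hW : IsOpen W')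
    (hsub : W' ⊆ W) : Sol u W' := by
  have hp : pos u W' ⊆ pos u W := fun x hx => ⟨hsub hx.1, hx.2⟩
  refine ⟨hW, h.cont.mono hsub, fun x hx => h.nonneg x (hsub hx), h.smooth.mono hp,
    fun x hx => h.harm x (hp hx), ?_, ?_⟩
  · intro D V v hD hDc hDW hV hDV hv h1 h2 h3
    exact h.sub D V v hD hDc (hDW.trans hsub) hV hDV hv h1 h2 h3
  · intro D V v hD hDc hDW hV hDV hv h1 h2 h3
    refine h.super D V v hD hDc (hDW.trans hsub) hV hDV hv h1 h2 fun x hx hxc => h3 x hx ?_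
    have hxW : x ∈ W' := hDW (frontier_subset_closure hx)
    refine closure_mono ?_ (hW.inter_closure ⟨hxW, hxc⟩)
    exact fun y hy => ⟨hy.1, hy.2.2⟩

theorem Band.rescale {x0 : EuclideanSpace ℝ (Fin d)} {r : ℝ} (hr : 0 < r)
    (h : Band u W ν a b) {W' : Set (EuclideanSpace ℝ (Fin d))}
    (hW : ∀ y ∈ W', x0 + r • y ∈ W) :
    Band (resc u x0 r) W' ν ((a + ⟪ν, x0⟫) / r) ((b + ⟪ν, x0⟫) / r) := fun y hy => by
  have e : ∀ c, ⟪ν, y⟫ + (c + ⟪ν, x0⟫) / r = r⁻¹ * (⟪ν, x0 + r • y⟫ + c) := fun c => by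
    rw [inner_add_right, real_inner_smul_right]; field_simp; ring
  have h0 : ∀ t, max (r⁻¹ * t) 0 = r⁻¹ * max t 0 := fun t => by
    rw [mul_max_of_nonneg _ _ (inv_nonneg.2 hr.le), mul_zero]
  rw [e, e, h0, h0]
  exact ⟨mul_le_mul_of_nonneg_left (h _ (hW y hy)).1 (inv_nonneg.2 hr.le),
    mul_le_mul_of_nonneg_left (h _ (hW y hy)).2 (inv_nonneg.2 hr.le)⟩

theorem Band.unscale {x0 : EuclideanSpace ℝ (Fin d)} {r : ℝ} (hr : 0 < r)
    {W' : Set (EuclideanSpace ℝ (Fin d))} (h : Band (resc u x0 r) W' ν a b)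
    (hW : ∀ x ∈ W, r⁻¹ • (x - x0) ∈ W') :
    Band u W ν (r * a - ⟪ν, x0⟫) (r * b - ⟪ν, x0⟫) := fun x hx => by
  have he : x0 + r • (r⁻¹ • (x - x0)) = x := by
    rw [smul_smul, mul_inv_cancel₀ hr.ne', one_smul]; abel
  have e : ∀ c, ⟪ν, x⟫ + (r * c - ⟪ν, x0⟫) = r * (⟪ν, r⁻¹ • (x - x0)⟫ + c) := fun c => by
    rw [real_inner_smul_right, inner_sub_right]; field_simp; ring
  have h0 : ∀ t, max (r * t) 0 = r * max t 0 := fun t => by
    rw [mul_max_of_nonneg _ _ hr.le, mul_zero]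
  have hu : u x = r * resc u x0 r (r⁻¹ • (x - x0)) := by simp [resc, hr.ne', smul_smul]
  rw [e, e, h0, h0, hu]
  exact ⟨mul_le_mul_of_nonneg_left (h _ (hW x hx)).1 hr.le,
    mul_le_mul_of_nonneg_left (h _ (hW x hx)).2 hr.le⟩

end Vale.Agent.P098.Reg.Eps
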