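import Vale.Agent.P098.Reg.Eps.Max

/-! The partial Harnack inequality for flat solutions and the resulting modulus of continuity. -/

noncomputable section

namespace Vale.Agent.P098.Reg.Eps

open Set Filter Topology
open scoped ContDiff RealInnerProductSpace

variable {d : ℕ}
variable {u f : EuclideanSpace ℝ (Fin d) → ℝ} {W : Set (EuclideanSpace ℝ (Fin d))}
  {ν x : EuclideanSpace ℝ (Fin d)} {a b : ℝ}

theorem norm_fderiv_le (f : EuclideanSpace ℝ (Fin d) → ℝ) (x : EuclideanSpace ℝ (Fin d)) :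
    ‖fderiv ℝ f x‖ ≤ Real.sqrt (gradSq f x) := by
  refine ContinuousLinearMap.opNorm_le_bound _ (Real.sqrt_nonneg _) fun v => ?_
  rw [Real.norm_eq_abs, fderiv_eq_sum_pd, mul_comm, EuclideanSpace.norm_eq]
  simp only [Real.norm_eq_abs, sq_abs]
  exact sum_sq_le _ _ _

/-- Interior Lipschitz bound for a bounded harmonic function. -/
theorem abs_sub_le_of_harmonic (hd : 0 < d) {V : Set (EuclideanSpace ℝ (Fin d))} (hV : IsOpen V)
    {x0 : EuclideanSpace ℝ (Fin d)} {R M : ℝ} (hR : 0 < R) (hM0 : 0 ≤ M)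
    (hsub : Metric.closedBall x0 R ⊆ V) (hf : ContDiffOn ℝ ∞ f V) (hl : ∀ x ∈ V, lap f x = 0)
    (hM : ∀ x ∈ Metric.closedBall x0 R, |f x| ≤ M) :
    ∀ x ∈ Metric.ball x0 (R / 2), ∀ y ∈ Metric.ball x0 (R / 2),
      |f x - f y| ≤ 2 * (6 + d) * M / R * dist x y := by
  intro x hx y hy
  have hsub' : Metric.ball x0 (R / 2) ⊆ V :=
    fun z hz => hsub (Metric.ball_subset_closedBall (Metric.ball_subset_ball (by linarith) hz))
  have := (convex_ball x0 (R / 2)).norm_image_sub_le_of_norm_fderiv_le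
    (C := 2 * (6 + d) * M / R)
    (fun z hz => (hf.contDiffAt (hV.mem_nhds (hsub' hz))).differentiableAt (by simp))
    (fun z hz => (norm_fderiv_le f z).trans (Real.sqrt_le_iff.2 ⟨by positivity,
      (gradSq_le_of_harmonic hd hV hR hsub hf hl hM z hz).trans (by
        rw [div_pow, div_le_div_iff_of_pos_right (by positivity), mul_pow, mul_pow]
        refine mul_le_mul_of_nonneg_right ?_ (sq_nonneg M)
        have : (0:ℝ) ≤ d := Nat.cast_nonneg d
        nlinarith)⟩)) hy hx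
  rwa [Real.norm_eq_abs, ← dist_eq_norm] at this

theorem Sol.smooth_sub (h : Sol u W) (ν : EuclideanSpace ℝ (Fin d)) :
    ContDiffOn ℝ ∞ (fun z => u z - ⟪ν, z⟫) (pos u W) :=
  h.smooth.sub (contDiff_inner_right ν).contDiffOn

theorem Sol.harm_sub (h : Sol u W) (ν : EuclideanSpace ℝ (Fin d)) (hx : x ∈ pos u W) :
    lap (fun z => u z - ⟪ν, z⟫) x = 0 := by
  rw [show (fun z => u z - ⟪ν, z⟫) = fun z => u z + (-1) * ⟪ν, z⟫ from funext fun z => by ring,
    lap_add ((h.smooth.contDiffAt (h.isOpen_pos.mem_nhds hx)).of_le (by norm_cast))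
      (contDiffAt_const.mul (contDiff_inner_right ν).contDiffAt),
    lap_const_mul _ (contDiff_inner_right ν).contDiffAt, h.harm x hx, lap_inner]
  ring

theorem Band.closure_between (h : Band u W ν a b) (hx : x ∈ W) (hc : x ∈ closure (pos u W)) :
    ⟪ν, x⟫ + a ≤ u x ∧ u x ≤ ⟪ν, x⟫ + b :=
  ⟨h.lower hx, (h x hx).2.trans (max_le le_rfl (h.closure_pos hc))⟩

theorem lap_radial (m : ℕ) (c : EuclideanSpace ℝ (Fin d)) {x : EuclideanSpace ℝ (Fin d)}
    (hx : x ≠ c) :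
    let q := fun y : EuclideanSpace ℝ (Fin d) => ∑ j, (y j - c j) * (y j - c j)
    (∀ i, pd i (fun y => (q y)⁻¹ ^ m) x = -2 * m * ((q x)⁻¹ ^ (m + 1) * (x i - c i))) ∧
    lap (fun y => (q y)⁻¹ ^ m) x = 2 * m * (2 * m + 2 - d) * (q x)⁻¹ ^ (m + 1) := by
  intro q
  have hqne : ∀ y, y ≠ c → q y ≠ 0 := fun y hy h0 => hy <| by
    ext j
    have := (Finset.sum_eq_zero_iff_of_nonneg fun j _ => mul_self_nonneg (y j - c j)).1 h0 j
      (Finset.mem_univ j)
    exact sub_eq_zero.1 (mul_self_eq_zero.1 this)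
  have hqd : ∀ y i, DifferentiableAt ℝ q y ∧ pd i q y = 2 * (y i - c i) := fun y i => by
    have hd' : ∀ j, DifferentiableAt ℝ (fun z : EuclideanSpace ℝ (Fin d) => z j - c j) y :=
      fun j => by fun_prop
    refine ⟨DifferentiableAt.fun_sum fun j _ => (hd' j).fun_mul (hd' j), ?_⟩
    rw [pd_sum _ fun j _ => (hd' j).fun_mul (hd' j)]
    rw [Finset.sum_eq_single i (fun j _ hj => ?_) (by simp)]
    · rw [pd_mul (hd' i) (hd' i), pd_sub (by fun_prop) (differentiableAt_const _), pd_apply, pd_const]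
      simp; ring
    · rw [pd_mul (hd' j) (hd' j), pd_sub (by fun_prop) (differentiableAt_const _), pd_apply, pd_const]
      simp [hj]
  have hder : ∀ (k : ℕ) y, y ≠ c → ∀ i,
      pd i (fun z => (q z)⁻¹ ^ k) y = -2 * k * ((q y)⁻¹ ^ (k + 1) * (y i - c i)) := by
    intro k y hy i
    have h := (hasDerivAt_inv (hqne y hy)).pow k
    rw [pd_comp (φ := fun t => t⁻¹ ^ k) h.differentiableAt (hqd y i).1,
      show deriv (fun t : ℝ => t⁻¹ ^ k) (q y) = _ from h.deriv, (hqd y i).2]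
    rcases k with _ | k
    · simp
    · simp only [Nat.succ_sub_one, pow_succ, inv_pow]
      field_simp
  refine ⟨hder m x hx, ?_⟩
  simp only [lap]
  have hev : ∀ i, pd i (pd i fun y => (q y)⁻¹ ^ m) x
      = -2 * m * ((q x)⁻¹ ^ (m + 1) + (-2 * (m + 1 : ℕ) * ((q x)⁻¹ ^ (m + 2) * (x i - c i))) * (x i - c i)) := by
    intro i
    rw [pd_congr (g := fun y => -2 * m * ((q y)⁻¹ ^ (m + 1) * (y i - c i)))
      (eventually_of_mem (isOpen_ne.mem_nhds hx) fun y hy => hder m y hy i)]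
    have h1 : DifferentiableAt ℝ (fun y => (q y)⁻¹ ^ (m + 1)) x :=
      DifferentiableAt.comp (g := fun t : ℝ => t⁻¹ ^ (m + 1)) x
        ((hasDerivAt_inv (hqne x hx)).pow (m + 1)).differentiableAt (hqd x i).1
    have h2 : DifferentiableAt ℝ (fun y : EuclideanSpace ℝ (Fin d) => y i - c i) x := by fun_prop
    rw [pd_const_mul _ (h1.fun_mul h2), pd_mul h1 h2, hder (m + 1) x hx i,
      pd_sub (by fun_prop) (differentiableAt_const _), pd_apply, pd_const]
    simp
  simp only [hev, ← Finset.mul_sum, Finset.sum_add_distrib, Finset.sum_const, Finset.card_univ,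
    Fintype.card_fin, nsmul_eq_mul, mul_assoc]
  have : (q x)⁻¹ ^ (m + 2) * ∑ i, (x i - c i) * (x i - c i) = (q x)⁻¹ ^ (m + 1) := by
    show (q x)⁻¹ ^ (m + 2) * q x = _
    rw [pow_succ, mul_assoc, inv_mul_cancel₀ (hqne x hx), mul_one]
  rw [this]
  push_cast
  ring

/-- The radial barrier. -/
theorem barrier (c : EuclideanSpace ℝ (Fin d)) {ρ : ℝ} (hρ0 : 0 < ρ) (K : ℝ)
    (hcν : ⟪ν, c⟫ = 1 / 5) :
    let Q : EuclideanSpace ℝ (Fin d) → ℝ := fun y => ∑ j, (y j - c j) * (y j - c j)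
    let w : EuclideanSpace ℝ (Fin d) → ℝ := fun y => (ρ ^ 2) ^ d * (Q y)⁻¹ ^ d - K
    let V : Set (EuclideanSpace ℝ (Fin d)) := {y | y ≠ c}
    (∀ y, Q y = ‖y - c‖ ^ 2) ∧ (∀ y, w y = (ρ ^ 2 / ‖y - c‖ ^ 2) ^ d - K) ∧
    ContDiffOn ℝ 2 w V ∧ (∀ y ∈ V, DifferentiableAt ℝ w y ∧
      lap w y = 2 * d * (d + 2) * ((ρ ^ 2) ^ d * (Q y)⁻¹ ^ (d + 1)) ∧
      fderiv ℝ w y ν = 2 * d * ((ρ ^ 2) ^ d * (Q y)⁻¹ ^ (d + 1)) * (1 / 5 - ⟪ν, y⟫) ∧
      gradSq w y = 4 * d ^ 2 * ((ρ ^ 2) ^ d * (Q y)⁻¹ ^ (d + 1)) ^ 2 * Q y) ∧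
    (∀ y ∈ V, 0 < (ρ ^ 2) ^ d * (Q y)⁻¹ ^ (d + 1)) := by
  intro Q w V
  have hQn : ∀ y, Q y = ‖y - c‖ ^ 2 := fun y => by
    rw [norm_sq_eq]; exact Finset.sum_congr rfl fun j _ => by simp [sq]
  have hwn : ∀ y, w y = (ρ ^ 2 / ‖y - c‖ ^ 2) ^ d - K := fun y => by
    simp [w, hQn, div_eq_mul_inv, mul_pow]
  have hV : IsOpen V := isOpen_ne
  have hQC : ContDiffOn ℝ 2 (fun y => (Q y)⁻¹ ^ d) V := by
    refine (ContDiffOn.inv ?_ fun y hy => ?_).pow d
    · exact (by fun_prop : ContDiff ℝ 2 Q).contDiffOn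
    · rw [hQn]; exact pow_ne_zero 2 (norm_ne_zero_iff.2 (sub_ne_zero.2 hy))
  have hwC : ContDiffOn ℝ 2 w V := (contDiffOn_const.mul hQC).sub contDiffOn_const
  have hwd : ∀ y ∈ V, DifferentiableAt ℝ w y ∧
      lap w y = 2 * d * (d + 2) * ((ρ ^ 2) ^ d * (Q y)⁻¹ ^ (d + 1)) ∧
      fderiv ℝ w y ν = 2 * d * ((ρ ^ 2) ^ d * (Q y)⁻¹ ^ (d + 1)) * (1 / 5 - ⟪ν, y⟫) ∧
      gradSq w y = 4 * d ^ 2 * ((ρ ^ 2) ^ d * (Q y)⁻¹ ^ (d + 1)) ^ 2 * Q y := by
    intro y hy
    obtain ⟨hp, hl⟩ := lap_radial d c (x := y) hy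
    have hc2 : ContDiffAt ℝ 2 (fun z => (Q z)⁻¹ ^ d) y := hQC.contDiffAt (hV.mem_nhds hy)
    have hdQ := hc2.differentiableAt (by norm_num)
    have hpw : ∀ i, pd i w y = -2 * d * ((ρ ^ 2) ^ d * (Q y)⁻¹ ^ (d + 1)) * (y i - c i) :=
      fun i => by
        simp only [w]
        rw [pd_sub (hdQ.const_mul _) (differentiableAt_const _), pd_const_mul _ hdQ, hp, pd_const]
        ring
    refine ⟨(hwC.contDiffAt (hV.mem_nhds hy)).differentiableAt (by norm_num), ?_, ?_, ?_⟩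
    · rw [show w = fun z => (ρ ^ 2) ^ d * (Q z)⁻¹ ^ d + (-K) from funext fun z => by simp [w]; ring,
        lap_add (contDiffAt_const.mul hc2) contDiffAt_const, lap_const_mul _ hc2, hl, lap_const]
      ring
    · rw [fderiv_eq_sum_pd]
      simp only [hpw]
      rw [show (1 / 5 : ℝ) - ⟪ν, y⟫ = -⟪ν, y - c⟫ by rw [inner_sub_right, hcν]; ring, inner_eq_sum,
        ← Finset.sum_neg_distrib, Finset.mul_sum]
      exact Finset.sum_congr rfl fun i _ => by simp; ring
    · simp only [gradSq, hpw, Q, Finset.mul_sum]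
      exact Finset.sum_congr rfl fun i _ => by ring
  have hTpos : ∀ y ∈ V, 0 < (ρ ^ 2) ^ d * (Q y)⁻¹ ^ (d + 1) := fun y hy => by
    have : 0 < Q y := by rw [hQn]; exact pow_pos (norm_pos_iff.2 (sub_ne_zero.2 hy)) 2
    positivity
  exact ⟨hQn, hwn, hwC, hwd, hTpos⟩

/-- The partial Harnack inequality, normalised. -/
theorem harnack_one (hd : 0 < d) : ∃ η ε₁ : ℝ, 0 < η ∧ η < 1 ∧ 0 < ε₁ ∧ ε₁ ≤ 1 / 40 ∧
    ∀ (u : EuclideanSpace ℝ (Fin d) → ℝ) (ν : EuclideanSpace ℝ (Fin d)) (a b : ℝ),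
      Sol u (Metric.ball 0 1) → ‖ν‖ = 1 → Band u (Metric.ball 0 1) ν a b → a ≤ b → |a| ≤ 1 / 20 →
      b - a ≤ ε₁ → ∃ a' b', a ≤ a' ∧ a' ≤ b' ∧ b' ≤ b ∧ b' - a' ≤ (1 - η) * (b - a) ∧
        Band u (Metric.ball 0 (1 / 20)) ν a' b' := by
  have hd1 : (1:ℝ) ≤ d := by exact_mod_cast hd
  set L : ℝ := 20 * (6 + d) with hL
  set ρ : ℝ := 1 / (4 * L) with hρ
  have hL0 : 0 < L := by positivity
  have hρ0 : 0 < ρ := by positivity
  have hρ40 : ρ ≤ 1 / 40 := by
    rw [hρ, div_le_div_iff₀ (by positivity) (by norm_num)]; linarith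
  set K : ℝ := (ρ ^ 2 * (16 / 9)) ^ d with hK
  have hK0 : 0 ≤ K := by positivity
  set η : ℝ := ((ρ ^ 2 * 16) ^ d - K) / 4 with hη
  have hη0 : 0 < η := by
    have : K < (ρ ^ 2 * 16) ^ d := pow_lt_pow_left₀ (by nlinarith) (by positivity) hd.ne'
    rw [hη]; linarith
  have hη1 : η < 1 := by
    have : (ρ ^ 2 * 16) ^ d ≤ 1 := pow_le_one₀ (by positivity) (by nlinarith)
    rw [hη]; linarith
  refine ⟨η, min (1 / 40) (1 / (5 * d)), hη0, hη1, by positivity, min_le_left _ _, ?_⟩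
  intro u ν a b hu hν hb hab ha hε
  have hε40 : b - a ≤ 1 / 40 := hε.trans (min_le_left _ _)
  have hεd : (b - a) * (5 * d) ≤ 1 := by
    have := hε.trans (min_le_right _ _)
    rwa [le_div_iff₀ (by positivity)] at this
  have hsmall : Metric.ball (0 : EuclideanSpace ℝ (Fin d)) (1 / 20) ⊆ Metric.ball 0 1 :=
    Metric.ball_subset_ball (by norm_num)
  rcases hab.eq_or_lt with rfl | hlt
  · exact ⟨a, a, le_rfl, le_rfl, le_rfl, by simp, hb.mono_set hsmall⟩
  set e := b - a with he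
  have he0 : 0 < e := by rw [he]; linarith
  set c := (1 / 5 : ℝ) • ν with hc
  have hνν : ⟪ν, ν⟫ = 1 := by rw [real_inner_self_eq_norm_sq, hν, one_pow]
  have hcν : ⟪ν, c⟫ = 1 / 5 := by rw [hc, real_inner_smul_right, hνν, mul_one]
  have hcn : ‖c‖ = 1 / 5 := by rw [hc, norm_smul, hν, mul_one, Real.norm_eq_abs]; norm_num
  have hnear : ∀ {r : ℝ}, r < 4 / 5 → Metric.closedBall c r ⊆ Metric.ball 0 1 := fun hr x hx => by
    rw [mem_ball_zero_iff]
    have := mem_closedBall_iff_norm.1 hx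
    linarith [norm_le_norm_add_norm_sub' x c]
  have hip : ∀ x, |⟪ν, x⟫ - 1 / 5| ≤ ‖x - c‖ := fun x => by
    rw [← hcν, ← inner_sub_right]
    exact (abs_real_inner_le_norm _ _).trans_eq (by rw [hν, one_mul])
  have hab' := abs_le.1 ha
  -- interior: the deviation from the lower plane has small oscillation near `c`
  have hin : Metric.closedBall c (1 / 10) ⊆ pos u (Metric.ball 0 1) := fun x hx => by
    refine hb.mem_pos (hnear (by norm_num) hx) ?_
    have := mem_closedBall_iff_norm.1 hx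
    have := abs_le.1 (hip x)
    linarith
  let q : EuclideanSpace ℝ (Fin d) → ℝ := fun z => u z - ⟪ν, z⟫ - a
  have hqs : ContDiffOn ℝ ∞ q (pos u (Metric.ball 0 1)) := (hu.smooth_sub ν).sub contDiffOn_const
  have hql : ∀ x ∈ pos u (Metric.ball 0 1), lap q x = 0 := fun x hx => by
    rw [show q = fun z => (u z - ⟪ν, z⟫) + (-a) from funext fun z => by simp [q]; ring,
      lap_add (((hu.smooth_sub ν).contDiffAt (hu.isOpen_pos.mem_nhds hx)).of_le (by norm_cast))
        contDiffAt_const, hu.harm_sub ν hx, lap_const, add_zero]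
  have hqb : ∀ x ∈ Metric.closedBall c (1 / 10), |q x| ≤ e := fun x hx => by
    have h1 := hb.upper (hin hx)
    have h2 := hb.lower (hin hx).1
    rw [abs_le]; simp only [q, he]; constructor <;> linarith
  have hqosc : ∀ x, ‖x - c‖ ≤ ρ → |q x - q c| ≤ e / 4 := fun x hx => by
    have hxb : x ∈ Metric.ball c (1 / 10 / 2) := by rw [mem_ball_iff_norm]; linarith
    refine (abs_sub_le_of_harmonic hd hu.isOpen_pos (by norm_num) he0.le hin hqs hql hqb x hxb c
      (Metric.mem_ball_self (by norm_num))).trans ?_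
    rw [dist_eq_norm]
    calc 2 * (6 + d) * e / (1 / 10) * ‖x - c‖ ≤ 2 * (6 + d) * e / (1 / 10) * ρ := by gcongr
      _ = e / 4 := by rw [hρ, hL]; field_simp; ring
  -- the barrier
  let Q : EuclideanSpace ℝ (Fin d) → ℝ := fun y => ∑ j, (y j - c j) * (y j - c j)
  let w : EuclideanSpace ℝ (Fin d) → ℝ := fun y => (ρ ^ 2) ^ d * (Q y)⁻¹ ^ d - K
  set V : Set (EuclideanSpace ℝ (Fin d)) := {y | y ≠ c}
  have hV : IsOpen V := isOpen_ne
  have hB : (∀ y, Q y = ‖y - c‖ ^ 2) ∧ (∀ y, w y = (ρ ^ 2 / ‖y - c‖ ^ 2) ^ d - K) ∧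
      ContDiffOn ℝ 2 w V ∧ (∀ y ∈ V, DifferentiableAt ℝ w y ∧
        lap w y = 2 * d * (d + 2) * ((ρ ^ 2) ^ d * (Q y)⁻¹ ^ (d + 1)) ∧
        fderiv ℝ w y ν = 2 * d * ((ρ ^ 2) ^ d * (Q y)⁻¹ ^ (d + 1)) * (1 / 5 - ⟪ν, y⟫) ∧
        gradSq w y = 4 * d ^ 2 * ((ρ ^ 2) ^ d * (Q y)⁻¹ ^ (d + 1)) ^ 2 * Q y) ∧
      (∀ y ∈ V, 0 < (ρ ^ 2) ^ d * (Q y)⁻¹ ^ (d + 1)) := barrier c hρ0 K hcν
  obtain ⟨hQn, hwn, hwC, hwd, hTpos⟩ := hB
  -- the annulus
  set D := Metric.ball c (3 / 4) \ Metric.closedBall c ρ with hD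
  have hDo : IsOpen D := Metric.isOpen_ball.sdiff Metric.isClosed_closedBall
  have hclD : closure D ⊆ {y | ρ ≤ ‖y - c‖ ∧ ‖y - c‖ ≤ 3 / 4} := by
    have hn : Continuous fun y : EuclideanSpace ℝ (Fin d) => ‖y - c‖ := by fun_prop
    refine closure_minimal ?_ ((isClosed_le continuous_const hn).inter
      (isClosed_le hn continuous_const))
    intro y hy
    exact ⟨(not_le.1 fun h => hy.2 (mem_closedBall_iff_norm.2 h)).le,
      (mem_ball_iff_norm.1 hy.1).le⟩
  have hclW : closure D ⊆ Metric.ball 0 1 := fun y hy =>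
    hnear (by norm_num : (3/4:ℝ) < 4/5) (mem_closedBall_iff_norm.2 (hclD hy).2)
  have hDc : IsCompact (closure D) :=
    (isCompact_closedBall c (3/4)).of_isClosed_subset isClosed_closure
      fun y hy => mem_closedBall_iff_norm.2 (hclD hy).2
  have hclV : closure D ⊆ V := fun y hy h => by
    have := (hclD hy).1; rw [h, sub_self, norm_zero] at this; linarith
  have hfr : ∀ y ∈ frontier D, ‖y - c‖ = ρ ∨ ‖y - c‖ = 3 / 4 := fun y hy => by
    obtain ⟨h1, h2⟩ := hclD (frontier_subset_closure hy)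
    by_contra h
    rw [not_or] at h
    have hyD : y ∈ D := ⟨mem_ball_iff_norm.2 (lt_of_le_of_ne h2 h.2),
      fun h' => h.1 (le_antisymm (mem_closedBall_iff_norm.1 h') h1)⟩
    exact hy.2 (hDo.interior_eq.symm ▸ hyD)
  have hw1 : ∀ y, ρ ≤ ‖y - c‖ → w y ≤ 1 := fun y hy => by
    rw [hwn]
    have : (ρ ^ 2 / ‖y - c‖ ^ 2) ^ d ≤ 1 := pow_le_one₀ (by positivity)
      (div_le_one_of_le₀ (pow_le_pow_left₀ hρ0.le hy 2) (sq_nonneg _))
    linarith
  have hw0 : ∀ y, ‖y - c‖ = 3 / 4 → w y = 0 := fun y hy => by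
    rw [hwn, hy, hK]; norm_num [div_eq_mul_inv]
  have hwη : ∀ y ∈ Metric.ball (0 : EuclideanSpace ℝ (Fin d)) (1 / 20), y ∈ D ∧ 4 * η ≤ w y := by
    intro y hy
    rw [mem_ball_zero_iff] at hy
    have h1 : ‖y - c‖ ≤ 1 / 4 := (norm_sub_le _ _).trans (by rw [hcn]; linarith)
    have h2 : 3 / 20 ≤ ‖y - c‖ := by
      linarith [norm_le_norm_add_norm_sub' c y, norm_sub_rev c y]
    refine ⟨⟨mem_ball_iff_norm.2 (by linarith), fun h' => by
      have := mem_closedBall_iff_norm.1 h'; linarith⟩, ?_⟩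
    rw [hwn, hη]
    have : (ρ ^ 2 * 16) ^ d ≤ (ρ ^ 2 / ‖y - c‖ ^ 2) ^ d := by
      refine pow_le_pow_left₀ (by positivity) ?_ d
      rw [le_div_iff₀ (by nlinarith), mul_assoc]
      refine mul_le_of_le_one_right (sq_nonneg _) ?_
      nlinarith
    linarith
  by_cases hcase : e / 2 ≤ q c
  · -- the lower plane moves up
    refine ⟨a + e * η, b, le_add_of_nonneg_right (by positivity), ?_, le_rfl,
      le_of_eq (by rw [he]; ring), ?_⟩
    · have : e * η ≤ e * 1 := mul_le_mul_of_nonneg_left hη1.le he0.le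
      rw [he] at this ⊢; linarith
    intro y hy
    refine ⟨?_, (hb y (hsmall hy)).2⟩
    obtain ⟨hyD, hyw⟩ := hwη y hy
    have := hu.sub D V (fun z => ⟪ν, z⟫ + a + e / 4 * w z) hDo hDc hclW hV hclV
      (((contDiff_inner_right ν).contDiffOn.add contDiffOn_const).add
        (contDiffOn_const.mul hwC)) ?_ ?_ ?_ y hyD
    · refine max_le ?_ (hu.nonneg y (hsmall hy))
      have := mul_le_mul_of_nonneg_left hyw (by linarith : (0:ℝ) ≤ e / 4)
      linarith
    · intro z hz _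
      have hzV := hclV (subset_closure hz)
      rw [lap_plane (e / 4) (hwC.contDiffAt (hV.mem_nhds hzV)) a, (hwd z hzV).2.1]
      have := hTpos z hzV; positivity
    · intro z hz hz0 _
      have hzV := hclV (subset_closure hz)
      rw [gradSq_plane hν (e / 4) (hwd z hzV).1 a, (hwd z hzV).2.2.1]
      have hle := hb.lower (hclW (subset_closure hz))
      rw [hz0] at hle
      have := mul_pos (mul_pos (by positivity : (0:ℝ) < 2 * (e / 4) * (2 * d))
        (hTpos z hzV)) (by linarith : (0:ℝ) < 1 / 5 - ⟪ν, z⟫)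
      have := mul_nonneg (sq_nonneg (e / 4)) (gradSq_nonneg w z)
      linarith
    · intro z hz
      rcases hfr z hz with h | h
      · have h1 := abs_le.1 (hqosc z h.le)
        have h2 := mul_le_mul_of_nonneg_left (hw1 z h.ge) (by linarith : (0:ℝ) ≤ e / 4)
        simp only [q] at h1 hcase
        linarith
      · rw [hw0 z h, mul_zero, add_zero]
        exact hb.lower (hclW (frontier_subset_closure hz))
  · -- the upper plane moves down
    rw [not_le] at hcase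
    refine ⟨a, b - e * η, le_rfl, ?_, sub_le_self _ (by positivity),
      le_of_eq (by rw [he]; ring), ?_⟩
    · have : e * η ≤ e * 1 := mul_le_mul_of_nonneg_left hη1.le he0.le
      rw [he] at this ⊢; linarith
    intro y hy
    refine ⟨(hb y (hsmall hy)).1, ?_⟩
    obtain ⟨hyD, hyw⟩ := hwη y hy
    rcases (hu.nonneg y (hsmall hy)).lt_or_eq with hpos | h0
    swap
    · rw [← h0]; exact le_max_right _ _
    have := hu.super D V (fun z => ⟪ν, z⟫ + b + -(e / 4) * w z) hDo hDc hclW hV hclV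
      (((contDiff_inner_right ν).contDiffOn.add contDiffOn_const).add
        (contDiffOn_const.mul hwC)) ?_ ?_ ?_ y hyD hpos
    · refine le_max_of_le_left ?_
      have := mul_le_mul_of_nonneg_left hyw (by linarith : (0:ℝ) ≤ e / 4)
      linarith
    · intro z hz
      have hzV := hclV (subset_closure hz)
      rw [lap_plane (-(e / 4)) (hwC.contDiffAt (hV.mem_nhds hzV)) b, (hwd z hzV).2.1]
      exact mul_nonpos_of_nonpos_of_nonneg (by linarith)
        (by have := hTpos z hzV; positivity)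
    · intro z hz hz0 hv0
      have hzV := hclV (subset_closure hz)
      rw [gradSq_plane hν (-(e / 4)) (hwd z hzV).1 b, (hwd z hzV).2.2.1, (hwd z hzV).2.2.2]
      have hzρ := (hclD (subset_closure hz)).1
      have hup := hb.upper (⟨hclW (subset_closure hz), hz0⟩ : z ∈ pos u (Metric.ball 0 1))
      have hw' := mul_le_mul_of_nonneg_left (hw1 z hzρ) (by linarith : (0:ℝ) ≤ e / 4)
      set T := (ρ ^ 2) ^ d * (Q z)⁻¹ ^ (d + 1)
      have hT : 0 < T := hTpos z hzV
      have hTQ : T * Q z ≤ 1 := by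
        have hQ : 0 < Q z := by rw [hQn]; exact pow_pos (hρ0.trans_le hzρ) 2
        calc T * Q z = (ρ ^ 2 * (Q z)⁻¹) ^ d := by
              simp only [T, pow_succ, mul_pow]; field_simp
          _ ≤ 1 := pow_le_one₀ (by positivity) (by
              rw [hQn, ← div_eq_mul_inv]
              exact div_le_one_of_le₀ (pow_le_pow_left₀ hρ0.le hzρ 2) (sq_nonneg _))
      have hang : 1 / 10 ≤ 1 / 5 - ⟪ν, z⟫ := by rw [he] at hw' hv0; linarith
      have k1 : e * d * T / 10 ≤ e * d * T * (1 / 5 - ⟪ν, z⟫) := by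
        have := mul_le_mul_of_nonneg_left hang (by positivity : 0 ≤ e * d * T)
        linarith
      have k2 : e ^ 2 * d ^ 2 * T * (T * Q z) ≤ e ^ 2 * d ^ 2 * T := by
        have := mul_le_mul_of_nonneg_left hTQ (by positivity : 0 ≤ e ^ 2 * d ^ 2 * T)
        linarith
      have k3 : e * d * T * (e * (5 * d)) ≤ e * d * T * 1 :=
        mul_le_mul_of_nonneg_left hεd (by positivity)
      have k4 := mul_pos (mul_pos he0 (by linarith : (0:ℝ) < d)) hT
      linear_combination k1 + (1 / 4 : ℝ) * k2 + (1 / 20 : ℝ) * k3 + (1 / 20 : ℝ) * k4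
    · intro z hz hzc
      rcases hfr z hz with h | h
      · have h1 := abs_le.1 (hqosc z h.le)
        have h2 := mul_le_mul_of_nonneg_left (hw1 z h.ge) (by linarith : (0:ℝ) ≤ e / 4)
        simp only [q] at h1 hcase
        rw [he] at h1 h2 hcase ⊢
        linarith
      · rw [hw0 z h, mul_zero, add_zero]
        exact (hb.closure_between (hclW (frontier_subset_closure hz)) hzc).2

/-- Iterated partial Harnack inequality around a centre on the plane through the origin. -/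
theorem harnack_iter (hd : 0 < d) : ∃ η ε₁ : ℝ, 0 < η ∧ η < 1 ∧ 0 < ε₁ ∧
    ∀ (k : ℕ) (u : EuclideanSpace ℝ (Fin d) → ℝ) (ν x0 : EuclideanSpace ℝ (Fin d)) (r a b : ℝ),
      0 < r → Sol u (Metric.ball x0 r) → ‖ν‖ = 1 → ⟪ν, x0⟫ = 0 →
      Band u (Metric.ball x0 r) ν a b → a ≤ b → |a| + (b - a) ≤ ε₁ * (r / 20 ^ k) →
      ∃ a' b', a ≤ a' ∧ a' ≤ b' ∧ b' ≤ b ∧ b' - a' ≤ (1 - η) ^ k * (b - a) ∧
        Band u (Metric.ball x0 (r / 20 ^ k)) ν a' b' := by
  obtain ⟨η, ε₁, hη, hη1, hε, hε40, H⟩ := harnack_one hd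
  refine ⟨η, ε₁, hη, hη1, hε, fun k => ?_⟩
  induction k with
  | zero =>
    intro u ν x0 r a b _ _ _ _ hb hab _
    exact ⟨a, b, le_rfl, hab, le_rfl, by simp, by simpa using hb⟩
  | succ k ih =>
    intro u ν x0 r a b hr hu hν hx0 hb hab hsm
    have hmono : ε₁ * (r / 20 ^ (k + 1)) ≤ ε₁ * (r / 20 ^ k) := by
      refine mul_le_mul_of_nonneg_left ?_ hε.le
      exact div_le_div_of_nonneg_left hr.le (by positivity)
        (pow_le_pow_right₀ (by norm_num) (Nat.le_succ k))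
    obtain ⟨a1, b1, h1, h2, h3, h4, h5⟩ := ih u ν x0 r a b hr hu hν hx0 hb hab (hsm.trans hmono)
    set s := r / 20 ^ k with hs
    have hs0 : 0 < s := by positivity
    have hrs : r / 20 ^ (k + 1) = s / 20 := by rw [hs, pow_succ]; field_simp
    rw [hrs] at hsm
    have hu' : Sol u (Metric.ball x0 s) := hu.restrict Metric.isOpen_ball
      (Metric.ball_subset_ball (div_le_self hr.le (one_le_pow₀ (by norm_num))))
    have hb' : Band (resc u x0 s) (Metric.ball 0 1) ν (a1 / s) (b1 / s) := by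
      have := h5.rescale (x0 := x0) hs0 (W' := Metric.ball 0 1) fun y hy => by
        rw [mem_ball_iff_norm, add_sub_cancel_left, norm_smul, Real.norm_eq_abs, abs_of_pos hs0]
        exact mul_lt_of_lt_one_right hs0 (mem_ball_zero_iff.1 hy)
      simpa [hx0] using this
    have habs : |a1| + (b1 - a1) ≤ 2 * (|a| + (b - a)) := by
      have : |a1| ≤ |a| + (b - a) :=
        abs_le.2 ⟨by linarith [neg_abs_le a], by linarith [le_abs_self a]⟩
      linarith [abs_nonneg a]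
    have hse : ε₁ * (s / 20) * 2 ≤ s / 20 * 1 ∧ ε₁ * (s / 20) * 2 ≤ ε₁ * s :=
      ⟨by nlinarith, by nlinarith⟩
    obtain ⟨a2, b2, k1, k2, k3, k4, k5⟩ := H (resc u x0 s) ν (a1 / s) (b1 / s)
      (hu'.rescale_ball hs0) hν hb' (div_le_div_of_nonneg_right h2 hs0.le)
      (by rw [abs_div, abs_of_pos hs0, div_le_iff₀ hs0]; linarith [hse.1])
      (by rw [← sub_div, div_le_iff₀ hs0]; linarith [hse.2, abs_nonneg a1])
    refine ⟨s * a2, s * b2, h1.trans ?_, mul_le_mul_of_nonneg_left k2 hs0.le, le_trans ?_ h3, ?_, ?_⟩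
    · rw [div_le_iff₀ hs0] at k1; linarith
    · rw [le_div_iff₀ hs0] at k3; linarith
    · calc s * b2 - s * a2 = s * (b2 - a2) := by ring
        _ ≤ s * ((1 - η) * (b1 / s - a1 / s)) := mul_le_mul_of_nonneg_left k4 hs0.le
        _ = (1 - η) * (b1 - a1) := by field_simp
        _ ≤ (1 - η) * ((1 - η) ^ k * (b - a)) := mul_le_mul_of_nonneg_left h4 (by linarith)
        _ = (1 - η) ^ (k + 1) * (b - a) := by ring
    · rw [hrs]
      have := Band.unscale (W := Metric.ball x0 (s / 20)) hs0 k5 fun x hx => by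
        rw [mem_ball_zero_iff, norm_smul, Real.norm_eq_abs, abs_of_pos (inv_pos.2 hs0),
          inv_mul_lt_iff₀ hs0]
        linarith [mem_ball_iff_norm.1 hx]
      simpa [hx0] using this

/-- Equicontinuity of the normalised deviation from the plane. -/
theorem modulus (hd : 0 < d) {δ : ℝ} (hδ : 0 < δ) : ∃ θ ε₀ : ℝ, 0 < θ ∧ 0 < ε₀ ∧
    ∀ (u : EuclideanSpace ℝ (Fin d) → ℝ) (ν : EuclideanSpace ℝ (Fin d)) (ε : ℝ),
      Sol u (Metric.ball 0 1) → ‖ν‖ = 1 → Band u (Metric.ball 0 1) ν (-ε) ε → 0 < ε → ε ≤ ε₀ →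
      ∀ x y, x ∈ closure (pos u (Metric.ball 0 1)) → y ∈ closure (pos u (Metric.ball 0 1)) →
        ‖x‖ ≤ 3 / 4 → ‖y‖ ≤ 3 / 4 → dist x y ≤ θ →
        |(u x - ⟪ν, x⟫) - (u y - ⟪ν, y⟫)| ≤ δ * ε := by
  obtain ⟨η, ε₁, hη, hη1, hε₁, H⟩ := harnack_iter hd
  obtain ⟨k, hk⟩ := exists_pow_lt_of_lt_one (show 0 < δ / 2 by positivity) (by linarith : 1 - η < 1)
  set s : ℝ := (1 / 8) / 20 ^ k with hs
  have hs0 : 0 < s := by positivity
  have hs8 : s ≤ 1 / 8 := div_le_self (by norm_num) (one_le_pow₀ (by norm_num))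
  set R : ℝ := s / 8
  refine ⟨min (s / 4) (min (R / 4) (δ * R / (2 * (6 + d)))), min (ε₁ * s / 3) (s / 16),
    by positivity, by positivity, ?_⟩
  intro u ν ε hu hν hb hε hε0 x y hx hy hxn hyn hxy
  have hW : ∀ {z : EuclideanSpace ℝ (Fin d)}, ‖z‖ ≤ 3 / 4 → z ∈ Metric.ball (0:EuclideanSpace ℝ (Fin d)) 1 :=
    fun h => mem_ball_zero_iff.2 (by linarith)
  have hxy1 : dist x y ≤ s / 4 := hxy.trans (min_le_left _ _)
  by_cases hplane : |⟪ν, x⟫| ≤ s / 4
  · set x' := x - ⟪ν, x⟫ • ν with hx'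
    have hνν : ⟪ν, ν⟫ = 1 := by rw [real_inner_self_eq_norm_sq, hν, one_pow]
    have hx'0 : ⟪ν, x'⟫ = 0 := by rw [hx', inner_sub_right, real_inner_smul_right, hνν]; ring
    have hxd : ‖x - x'‖ ≤ s / 4 := by
      rw [hx', sub_sub_cancel, norm_smul, hν, mul_one, Real.norm_eq_abs]; exact hplane
    have hx'n : ‖x'‖ + 1 / 8 < 1 := by
      linarith [norm_le_norm_add_norm_sub' x' x, norm_sub_rev x' x]
    have hsub : Metric.ball x' (1 / 8) ⊆ Metric.ball 0 1 :=
      Metric.ball_subset_ball' (by rw [dist_zero_right]; linarith)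
    obtain ⟨a', b', h1, h2, h3, h4, h5⟩ := H k u ν x' (1 / 8) (-ε) ε (by norm_num)
      (hu.restrict Metric.isOpen_ball hsub) hν hx'0 (hb.mono_set hsub) (by linarith)
      (by rw [abs_neg, abs_of_pos hε]; linarith [hε0.trans (min_le_left _ _)])
    have hmem : ∀ z ∈ closure (pos u (Metric.ball 0 1)), ‖z - x'‖ < s →
        a' ≤ u z - ⟪ν, z⟫ ∧ u z - ⟪ν, z⟫ ≤ b' := by
      intro z hz hzs
      have hzW : z ∈ Metric.ball x' s := mem_ball_iff_norm.2 hzs
      have hzc : z ∈ closure (pos u (Metric.ball x' s)) :=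
        closure_mono (show Metric.ball x' s ∩ pos u (Metric.ball 0 1) ⊆ pos u (Metric.ball x' s)
          from fun w hw => ⟨hw.1, hw.2.2⟩) (Metric.isOpen_ball.inter_closure ⟨hzW, hz⟩)
      have := h5.closure_between hzW hzc
      constructor <;> linarith [this.1, this.2]
    obtain ⟨hx1, hx2⟩ := hmem x hx (by linarith)
    obtain ⟨hy1, hy2⟩ := hmem y hy (by
      have := norm_sub_le_norm_sub_add_norm_sub y x x'
      rw [dist_comm, dist_eq_norm] at hxy1
      linarith)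
    have : (1 - η) ^ k * (ε - -ε) ≤ δ / 2 * (ε - -ε) :=
      mul_le_mul_of_nonneg_right hk.le (by linarith)
    rw [abs_le]
    constructor <;> linarith
  · rw [not_le] at hplane
    have hxpos : s / 4 < ⟪ν, x⟫ := by
      rcases lt_abs.1 hplane with h | h
      · exact h
      · linarith [hb.closure_pos hx, hε0.trans (min_le_right _ _)]
    have hR : 0 < R := by positivity
    have hRs : R = s / 8 := rfl
    have hin : Metric.closedBall x R ⊆ pos u (Metric.ball 0 1) := fun z hz => by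
      have hzd := mem_closedBall_iff_norm.1 hz
      refine hb.mem_pos (mem_ball_zero_iff.2 (by
        linarith [norm_le_norm_add_norm_sub' z x, (show R ≤ 1 / 64 by linarith)])) ?_
      have : |⟪ν, z⟫ - ⟪ν, x⟫| ≤ R := by
        rw [← inner_sub_right]
        exact (abs_real_inner_le_norm _ _).trans (by rw [hν, one_mul]; exact hzd)
      linarith [(abs_le.1 this).1, hε0.trans (min_le_right _ _)]
    have hbd : ∀ z ∈ Metric.closedBall x R, |u z - ⟪ν, z⟫| ≤ ε := fun z hz => by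
      have h1 := hb.lower (hin hz).1
      have h2 := hb.upper (hin hz)
      rw [abs_le]; constructor <;> linarith
    have hyb : y ∈ Metric.ball x (R / 2) := by
      rw [Metric.mem_ball, dist_comm]
      linarith [hxy.trans ((min_le_right _ _).trans (min_le_left _ _))]
    refine (abs_sub_le_of_harmonic hd hu.isOpen_pos hR hε.le hin (hu.smooth_sub ν)
      (fun z hz => hu.harm_sub ν hz) hbd x (Metric.mem_ball_self (by positivity)) y hyb).trans ?_
    calc 2 * (6 + d) * ε / R * dist x y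
        ≤ 2 * (6 + d) * ε / R * (δ * R / (2 * (6 + d))) := by
          gcongr; exact hxy.trans ((min_le_right _ _).trans (min_le_right _ _))
      _ = δ * ε := by field_simp

end Vale.Agent.P098.Reg.Eps
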