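import Vale.Agent.P098.Reg.Eps.Max

/-! Even harmonic polynomials approximating prescribed data on a hemisphere, uniformly in the axis. -/

noncomputable section

namespace Vale.Agent.P098.Reg.Eps

open Set Filter Topology
open scoped ContDiff RealInnerProductSpace

variable {d : ℕ}

/-- Evaluation of a polynomial on Euclidean space. -/
def evalE (p : (MvPolynomial (Fin d) ℝ)) (x : EuclideanSpace ℝ (Fin d)) : ℝ := MvPolynomial.eval (fun i => x i) p

/-- The Laplacian on polynomials. -/
def lapP : (MvPolynomial (Fin d) ℝ) →ₗ[ℝ] (MvPolynomial (Fin d) ℝ) :=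
  ∑ i : Fin d, (MvPolynomial.pderiv i).toLinearMap ∘ₗ (MvPolynomial.pderiv i).toLinearMap

/-- The polynomial `R^2 - |x|^2`. -/
def sphereP (R : ℝ) : (MvPolynomial (Fin d) ℝ) :=
  MvPolynomial.C (R ^ 2) - ∑ i : Fin d, MvPolynomial.X i * MvPolynomial.X i

theorem contDiff_evalE (p : (MvPolynomial (Fin d) ℝ)) : ContDiff ℝ ∞ (evalE p) := by
  unfold evalE
  induction p using MvPolynomial.induction_on with
  | C a => simpa using contDiff_const
  | add p q hp hq => simpa using hp.add hq
  | mul_X p i hp =>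
    simp only [map_mul, MvPolynomial.eval_X]
    exact hp.mul (by fun_prop)

theorem pd_evalE (p : (MvPolynomial (Fin d) ℝ)) (i : Fin d) :
    pd i (evalE p) = evalE (MvPolynomial.pderiv i p) := by
  induction p using MvPolynomial.induction_on with
  | C a =>
    funext x
    rw [show evalE (MvPolynomial.C a : (MvPolynomial (Fin d) ℝ)) = fun _ => a from funext fun y => by simp [evalE],
      pd_const]
    simp [evalE]
  | add p q hp hq =>
    funext x
    rw [show evalE (p + q) = fun y => evalE p y + evalE q y from funext fun y => by simp [evalE],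
      pd_add ((contDiff_evalE p).differentiable (by simp) x)
        ((contDiff_evalE q).differentiable (by simp) x), hp, hq]
    simp [evalE]
  | mul_X p j hp =>
    funext x
    rw [show evalE (p * MvPolynomial.X j) = fun y => evalE p y * y j from
        funext fun y => by simp [evalE],
      pd_mul ((contDiff_evalE p).differentiable (by simp) x) (by fun_prop), hp, pd_apply]
    simp only [evalE, MvPolynomial.pderiv_mul, MvPolynomial.pderiv_X, map_add, map_mul,
      MvPolynomial.eval_X]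
    by_cases h : j = i
    · subst h; simp; ring
    · simp [h, Ne.symm h]

theorem lap_evalE (p : (MvPolynomial (Fin d) ℝ)) (x : EuclideanSpace ℝ (Fin d)) :
    lap (evalE p) x = evalE (lapP p) x := by
  simp [lap, lapP, pd_evalE, evalE]

theorem evalE_sphereP (R : ℝ) (x : EuclideanSpace ℝ (Fin d)) :
    evalE (sphereP R) x = R ^ 2 - ‖x‖ ^ 2 := by
  rw [norm_sq_eq]; simp [evalE, sphereP, sq]

theorem totalDegree_pderiv_le (p : (MvPolynomial (Fin d) ℝ)) (i : Fin d) :
    (MvPolynomial.pderiv i p).totalDegree ≤ p.totalDegree - 1 := by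
  classical
  rw [MvPolynomial.totalDegree, Finset.sup_le_iff]
  intro m hm
  rw [MvPolynomial.mem_support_iff, MvPolynomial.coeff_pderiv] at hm
  have h := MvPolynomial.le_totalDegree (MvPolynomial.mem_support_iff.2 (left_ne_zero_of_mul hm))
  rw [Finsupp.sum_add_index (fun _ _ => rfl) (fun _ _ _ _ => rfl), Finsupp.sum_single_index rfl] at h
  omega

theorem totalDegree_lapP_le (p : (MvPolynomial (Fin d) ℝ)) : (lapP p).totalDegree ≤ p.totalDegree - 2 := by
  simp only [lapP, LinearMap.coe_sum, Finset.sum_apply, LinearMap.comp_apply]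
  refine MvPolynomial.totalDegree_finsetSum_le fun i _ => ?_
  show (MvPolynomial.pderiv i (MvPolynomial.pderiv i p)).totalDegree ≤ _
  have := totalDegree_pderiv_le p i
  have := totalDegree_pderiv_le (MvPolynomial.pderiv i p) i
  omega

theorem totalDegree_sphereP (R : ℝ) : (sphereP R : (MvPolynomial (Fin d) ℝ)).totalDegree ≤ 2 := by
  unfold sphereP
  refine (MvPolynomial.totalDegree_sub _ _).trans (max_le ((MvPolynomial.totalDegree_C _).le.trans (Nat.zero_le 2)) ?_)
  refine MvPolynomial.totalDegree_finsetSum_le fun i _ => ?_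
  exact (MvPolynomial.totalDegree_mul _ _).trans (by simp)

/-- Dirichlet problem on a ball with polynomial data. -/
theorem exists_harmonic_poly (hd : 0 < d) {R : ℝ} (hR : 0 < R) (p : (MvPolynomial (Fin d) ℝ)) :
    ∃ h : EuclideanSpace ℝ (Fin d) → ℝ, ContDiff ℝ ∞ h ∧ (∀ x, lap h x = 0) ∧
      ∀ x, ‖x‖ = R → h x = evalE p x := by
  classical
  set k := p.totalDegree
  set P := MvPolynomial.restrictTotalDegree (Fin d) ℝ k with hP
  let L : (MvPolynomial (Fin d) ℝ) →ₗ[ℝ] (MvPolynomial (Fin d) ℝ) := lapP ∘ₗ LinearMap.mulLeft ℝ (sphereP R)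
  have hmap : ∀ q ∈ P, L q ∈ P := fun q hq => by
    rw [hP, MvPolynomial.mem_restrictTotalDegree] at hq ⊢
    refine (totalDegree_lapP_le _).trans ?_
    have := MvPolynomial.totalDegree_mul (sphereP R) q
    have := totalDegree_sphereP (d := d) R
    simp only [LinearMap.mulLeft_apply]
    omega
  let T : P →ₗ[ℝ] P := L.restrict hmap
  have hinj : Function.Injective T := by
    rw [injective_iff_map_eq_zero]
    intro q hq
    have h0 : L (q : (MvPolynomial (Fin d) ℝ)) = 0 := by simpa [T] using congrArg Subtype.val hq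
    set w := evalE (sphereP R * (q : (MvPolynomial (Fin d) ℝ))) with hw
    have hwl : ∀ x, lap w x = 0 := fun x => by
      rw [hw, lap_evalE]
      simp only [L, LinearMap.comp_apply, LinearMap.mulLeft_apply] at h0
      simp [h0, evalE]
    have hw0 : ∀ x, w x = (R ^ 2 - ‖x‖ ^ 2) * evalE (q : (MvPolynomial (Fin d) ℝ)) x := fun x => by
      rw [← evalE_sphereP]; simp [hw, evalE]
    have hcl := closure_ball (0 : EuclideanSpace ℝ (Fin d)) hR.ne'
    have hmaxp : ∀ s : ℝ, ∀ x ∈ Metric.ball (0 : EuclideanSpace ℝ (Fin d)) R, s * w x ≤ 0 := by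
      intro s x hx
      refine le_of_lap_nonneg hd Metric.isOpen_ball (by rw [hcl]; exact isCompact_closedBall _ _)
        ((contDiff_evalE _).continuous.const_mul s).continuousOn
        (fun y _ => (contDiffAt_const.mul ((contDiff_evalE _).contDiffAt.of_le (by norm_cast))))
        (fun y _ => by
          rw [lap_const_mul s ((contDiff_evalE _).contDiffAt.of_le (by norm_cast)), hwl, mul_zero])
        (fun y hy => ?_) x hx
      rw [frontier_ball _ hR.ne', mem_sphere_zero_iff_norm] at hy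
      show s * w y ≤ 0
      rw [hw0, hy]; simp
    have hzero : ∀ x ∈ Metric.ball (0 : EuclideanSpace ℝ (Fin d)) R, evalE (q : (MvPolynomial (Fin d) ℝ)) x = 0 := by
      intro x hx
      have h1 := hmaxp 1 x hx; have h2 := hmaxp (-1) x hx
      have hwx : w x = 0 := by linarith
      rw [hw0] at hwx
      refine (mul_eq_zero.1 hwx).resolve_left ?_
      have := pow_lt_pow_left₀ (mem_ball_zero_iff.1 hx) (norm_nonneg _) two_ne_zero
      linarith
    have hd' : (0:ℝ) < d := by exact_mod_cast hd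
    refine Subtype.ext (MvPolynomial.funext_set (fun _ : Fin d => Ioo (-(R / (2 * d))) (R / (2 * d)))
      (fun _ => Ioo_infinite (by have : 0 < R / (2 * d) := by positivity
                                 linarith)) fun y hy => ?_)
    rw [ZeroMemClass.coe_zero, map_zero]
    refine hzero (WithLp.toLp 2 y) (mem_ball_zero_iff.2 ?_)
    have hy' : ∀ i, |y i| ≤ R / (2 * d) := fun i =>
      abs_le.2 ⟨(hy i (mem_univ i)).1.le, (hy i (mem_univ i)).2.le⟩
    refine lt_of_le_of_lt (b := R / 2) ?_ (by linarith)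
    refine le_of_pow_le_pow_left₀ two_ne_zero (by positivity) ?_
    rw [norm_sq_eq]
    calc ∑ i, y i ^ 2 ≤ ∑ _i : Fin d, (R / (2 * d)) ^ 2 := Finset.sum_le_sum fun i _ => by
          rw [← sq_abs]; exact pow_le_pow_left₀ (abs_nonneg _) (hy' i) 2
      _ ≤ (R / 2) ^ 2 := by
          rw [Finset.sum_const, Finset.card_univ, Fintype.card_fin, nsmul_eq_mul, div_pow, div_pow]
          have h1 : (1:ℝ) ≤ d := by exact_mod_cast hd
          field_simp
          nlinarith
  haveI : Module.Finite ℝ P := by rw [hP]; infer_instance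
  have hsur : Function.Surjective T := LinearMap.injective_iff_surjective.1 hinj
  obtain ⟨q, hq⟩ := hsur ⟨lapP p, by
    rw [hP, MvPolynomial.mem_restrictTotalDegree]
    exact (totalDegree_lapP_le p).trans (Nat.sub_le _ _)⟩
  have hq' : L (q : (MvPolynomial (Fin d) ℝ)) = lapP p := by simpa [T] using congrArg Subtype.val hq
  simp only [L, LinearMap.comp_apply, LinearMap.mulLeft_apply] at hq'
  refine ⟨evalE (p - sphereP R * (q : (MvPolynomial (Fin d) ℝ))), contDiff_evalE _, fun x => ?_, fun x hx => ?_⟩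
  · rw [lap_evalE, map_sub, hq', sub_self]; simp [evalE]
  · have h := evalE_sphereP R x
    simp only [evalE] at h ⊢
    simp [h, hx]

/-- Continuous data on a sphere are uniformly approximated by harmonic functions. -/
theorem exists_harmonic_near (hd : 0 < d) {R : ℝ} (hR : 0 < R)
    {f : EuclideanSpace ℝ (Fin d) → ℝ} (hf : Continuous f) {δ : ℝ} (hδ : 0 < δ) :
    ∃ h : EuclideanSpace ℝ (Fin d) → ℝ, ContDiff ℝ ∞ h ∧ (∀ x, lap h x = 0) ∧
      ∀ x, ‖x‖ = R → |h x - f x| ≤ δ := by
  let coord : Fin d → C(EuclideanSpace ℝ (Fin d), ℝ) := fun i => ⟨fun x => x i, by fun_prop⟩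
  set A := (MvPolynomial.aeval (R := ℝ) coord).range with hA
  have hsep : A.SeparatesPoints := by
    intro x y hxy
    obtain ⟨i, hi⟩ : ∃ i, x i ≠ y i := by
      by_contra h; push Not at h; exact hxy (by ext i; exact h i)
    exact ⟨coord i, ⟨coord i, ⟨MvPolynomial.X i, by simp⟩, rfl⟩, hi⟩
  obtain ⟨g, ⟨p, hp⟩, hg⟩ :=
    ContinuousMap.exists_mem_subalgebra_near_continuous_of_isCompact_of_separatesPoints hsep
      ⟨f, hf⟩ (isCompact_sphere (0 : EuclideanSpace ℝ (Fin d)) R) hδ
  obtain ⟨h, h1, h2, h3⟩ := exists_harmonic_poly hd hR p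
  refine ⟨h, h1, h2, fun x hx => ?_⟩
  have hev : evalE p x = g x := by
    rw [← hp]
    clear hp hg h3
    induction p using MvPolynomial.induction_on with
    | C a => simp [evalE]
    | add p q hp hq => simp only [evalE, map_add] at hp hq ⊢; rw [hp, hq]; rfl
    | mul_X p i hp => simp only [evalE, map_mul, MvPolynomial.eval_X] at hp ⊢; rw [hp]; simp [coord]
  rw [h3 x hx, hev, ← Real.norm_eq_abs]
  exact (hg x (mem_sphere_zero_iff_norm.2 hx)).le

/-- Harmonicity is invariant under linear isometries. -/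
theorem lap_comp_isometry {h : EuclideanSpace ℝ (Fin d) → ℝ} (hh : ContDiff ℝ 2 h)
    (O : EuclideanSpace ℝ (Fin d) ≃ₗᵢ[ℝ] EuclideanSpace ℝ (Fin d))
    (x : EuclideanSpace ℝ (Fin d)) : lap (fun y => h (O y)) x = lap h (O x) := by
  set m : Fin d → Fin d → ℝ := fun i j => O (EuclideanSpace.single i 1) j
  have key : ∀ {f : EuclideanSpace ℝ (Fin d) → ℝ}, ContDiff ℝ 1 f → ∀ i y,
      pd i (fun z => f (O z)) y = ∑ j, m i j * pd j f (O y) := by
    intro f hf i y
    have h1 : HasFDerivAt (fun z => f (O z)) ((fderiv ℝ f (O y)).comp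
        (O.toContinuousLinearEquiv : EuclideanSpace ℝ (Fin d) →L[ℝ] EuclideanSpace ℝ (Fin d))) y :=
      (hf.differentiable one_ne_zero (O y)).hasFDerivAt.comp y O.toContinuousLinearEquiv.hasFDerivAt
    show fderiv ℝ _ y _ = _
    rw [h1.fderiv, ContinuousLinearMap.comp_apply, fderiv_eq_sum_pd]
    rfl
  have hm : ∀ j k, ∑ i, m i j * m i k = if j = k then 1 else 0 := by
    intro j k
    have hi : ∀ i j, m i j = ⟪O.symm (EuclideanSpace.single j 1), EuclideanSpace.single i (1:ℝ)⟫ :=
      fun i j => by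
        rw [← O.inner_map_map, O.apply_symm_apply]
        simp [m, EuclideanSpace.inner_single_left]
    have hs := (EuclideanSpace.basisFun (Fin d) ℝ).sum_inner_mul_inner
      (O.symm (EuclideanSpace.single j 1)) (O.symm (EuclideanSpace.single k 1))
    rw [O.symm.inner_map_map] at hs
    rw [show ∑ i, m i j * m i k = _ from Finset.sum_congr rfl fun i _ => by
      rw [hi, hi, real_inner_comm (EuclideanSpace.single i (1:ℝ)) (O.symm (EuclideanSpace.single k 1))]]
    simpa [EuclideanSpace.basisFun_apply, EuclideanSpace.inner_single_left,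
      EuclideanSpace.single_apply] using hs
  have hp : ∀ j, ContDiff ℝ 1 (pd j h) := fun j => contDiff_pd hh (by norm_num)
  calc lap (fun y => h (O y)) x
      = ∑ i, ∑ j, m i j * ∑ k, m i k * pd k (pd j h) (O x) := by
        refine Finset.sum_congr rfl fun i _ => ?_
        rw [show pd i (fun y => h (O y)) = fun y => ∑ j, m i j * pd j h (O y) from
          funext fun y => key (hh.of_le (by norm_num)) i y]
        have hd' : ∀ j, DifferentiableAt ℝ (fun y => pd j h (O y)) x := fun j =>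
          ((hp j).differentiable one_ne_zero (O x)).comp x O.toContinuousLinearEquiv.differentiableAt
        rw [pd_sum _ fun j _ => (hd' j).const_mul _]
        exact Finset.sum_congr rfl fun j _ => by rw [pd_const_mul _ (hd' j), key (hp j)]
    _ = ∑ j, ∑ k, (∑ i, m i j * m i k) * pd k (pd j h) (O x) := by
        simp only [Finset.mul_sum, Finset.sum_mul]
        rw [Finset.sum_comm]
        refine Finset.sum_congr rfl fun j _ => ?_
        rw [Finset.sum_comm]
        exact Finset.sum_congr rfl fun k _ => Finset.sum_congr rfl fun i _ => by ring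
    _ = lap h (O x) := by simp [hm, lap]

/-- The point of the upper half space with the same tangential part. -/
def up (ν x : EuclideanSpace ℝ (Fin d)) : EuclideanSpace ℝ (Fin d) :=
  x + (|⟪ν, x⟫| - ⟪ν, x⟫) • ν

/-- The reflection in the hyperplane orthogonal to `ν`. -/
def refl (ν x : EuclideanSpace ℝ (Fin d)) : EuclideanSpace ℝ (Fin d) := x - (2 * ⟪ν, x⟫) • ν

theorem norm_sq_add_smul {ν : EuclideanSpace ℝ (Fin d)} (hν : ‖ν‖ = 1)
    (x : EuclideanSpace ℝ (Fin d)) (t : ℝ) :
    ‖x + t • ν‖ ^ 2 = ‖x‖ ^ 2 + 2 * t * ⟪ν, x⟫ + t ^ 2 := by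
  rw [norm_add_sq_real, real_inner_smul_right, real_inner_comm, norm_smul, hν, mul_one,
    Real.norm_eq_abs, sq_abs]
  ring

theorem norm_up {ν : EuclideanSpace ℝ (Fin d)} (hν : ‖ν‖ = 1) (x : EuclideanSpace ℝ (Fin d)) :
    ‖up ν x‖ = ‖x‖ ∧ ⟪ν, up ν x⟫ = |⟪ν, x⟫| ∧ ‖refl ν x‖ = ‖x‖ ∧ ⟪ν, refl ν x⟫ = -⟪ν, x⟫ := by
  have hνν : ⟪ν, ν⟫ = 1 := by rw [real_inner_self_eq_norm_sq, hν, one_pow]
  refine ⟨(pow_left_inj₀ (norm_nonneg _) (norm_nonneg _) two_ne_zero).1 ?_, ?_,
    (pow_left_inj₀ (norm_nonneg _) (norm_nonneg _) two_ne_zero).1 ?_, ?_⟩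
  · rw [up, norm_sq_add_smul hν]; nlinarith [sq_abs ⟪ν, x⟫]
  · rw [up, inner_add_right, real_inner_smul_right, hνν]; ring
  · rw [refl, sub_eq_add_neg, ← neg_smul, norm_sq_add_smul hν]; ring
  · rw [refl, inner_sub_right, real_inner_smul_right, hνν]; ring

theorem up_refl {ν : EuclideanSpace ℝ (Fin d)} (hν : ‖ν‖ = 1) (x : EuclideanSpace ℝ (Fin d)) :
    up ν (refl ν x) = up ν x := by
  simp only [up, (norm_up hν x).2.2.2, abs_neg]
  simp only [refl, sub_smul, two_mul, add_smul, neg_smul]
  abel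

theorem refl_refl {ν : EuclideanSpace ℝ (Fin d)} (hν : ‖ν‖ = 1) (x : EuclideanSpace ℝ (Fin d)) :
    refl ν (refl ν x) = x := by
  rw [show refl ν (refl ν x) = refl ν x - (2 * ⟪ν, refl ν x⟫) • ν from rfl, (norm_up hν x).2.2.2]
  simp [refl]

/-- The reflection as a linear isometry. -/
def reflE {ν : EuclideanSpace ℝ (Fin d)} (hν : ‖ν‖ = 1) :
    EuclideanSpace ℝ (Fin d) ≃ₗᵢ[ℝ] EuclideanSpace ℝ (Fin d) where
  toFun := refl ν
  invFun := refl ν
  left_inv := refl_refl hν
  right_inv := refl_refl hν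
  map_add' x y := by simp only [refl, inner_add_right, mul_add, add_smul]; abel
  map_smul' c x := by
    simp only [refl, real_inner_smul_right, smul_sub, smul_smul, RingHom.id_apply, mul_left_comm 2 c]
  norm_map' x := (norm_up hν x).2.2.1

theorem exists_isometry_to {ν e : EuclideanSpace ℝ (Fin d)} (hν : ‖ν‖ = 1) (he : ‖e‖ = 1) :
    ∃ O : EuclideanSpace ℝ (Fin d) ≃ₗᵢ[ℝ] EuclideanSpace ℝ (Fin d), O ν = e :=
  ⟨(ℝ ∙ (ν - e))ᗮ.reflection, Submodule.reflection_sub (hν.trans he.symm)⟩

/-- Even harmonic approximations of data on the upper hemisphere, uniformly in the axis. -/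
theorem approx_even (hd : 0 < d) {θ δ : ℝ} (hθ : 0 < θ) (hδ : 0 < δ) : ∃ M : ℝ, 0 ≤ M ∧
    ∀ (ν : EuclideanSpace ℝ (Fin d)), ‖ν‖ = 1 → ∀ c : EuclideanSpace ℝ (Fin d) → ℝ,
      (∀ x, ‖x‖ = 1 / 2 → 0 ≤ ⟪ν, x⟫ → |c x| ≤ 1) →
      (∀ x y, ‖x‖ = 1 / 2 → 0 ≤ ⟪ν, x⟫ → ‖y‖ = 1 / 2 → 0 ≤ ⟪ν, y⟫ → dist x y ≤ θ →
        |c x - c y| ≤ δ) →
      ∃ H : EuclideanSpace ℝ (Fin d) → ℝ, ContDiff ℝ ∞ H ∧ (∀ x, lap H x = 0) ∧
        (∀ x, H (refl ν x) = H x) ∧ (∀ x, ‖x‖ ≤ 4 → |H x| ≤ M) ∧
        ∀ x, ‖x‖ = 1 / 2 → |H x - c (up ν x)| ≤ 2 * δ := by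
  classical
  set e : EuclideanSpace ℝ (Fin d) := EuclideanSpace.single ⟨0, hd⟩ 1
  have he : ‖e‖ = 1 := by simp [e]
  set S := Metric.sphere (0 : EuclideanSpace ℝ (Fin d)) (1 / 2) ∩ {x | 0 ≤ ⟪e, x⟫}
  have hS : IsCompact S :=
    (isCompact_sphere _ _).inter_right (isClosed_le continuous_const (by fun_prop))
  obtain ⟨t, htS, htf, hcov⟩ := hS.finite_cover_balls (half_pos hθ)
  let ψ : EuclideanSpace ℝ (Fin d) → EuclideanSpace ℝ (Fin d) → ℝ := fun z x =>
    max (θ - dist (up e x) z) 0
  let Φ : EuclideanSpace ℝ (Fin d) → EuclideanSpace ℝ (Fin d) → ℝ := fun z x =>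
    ψ z x / max (∑ w ∈ htf.toFinset, ψ w x) (θ / 2)
  have hupc : Continuous fun x => up e x := by unfold up; fun_prop
  have hψc : ∀ z, Continuous (ψ z) := fun z => by simp only [ψ]; fun_prop
  have hΦc : ∀ z, Continuous (Φ z) := fun z =>
    (hψc z).div ((continuous_finsetSum _ fun w _ => hψc w).max continuous_const)
      fun x => (lt_max_of_lt_right (half_pos hθ)).ne'
  set δ' := δ / (htf.toFinset.card + 1)
  have hδ' : 0 < δ' := by positivity
  choose h0 hh1 hh2 hh3 using fun z => exists_harmonic_near hd (half_pos one_pos) (hΦc z) hδ'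
  let Hz : EuclideanSpace ℝ (Fin d) → EuclideanSpace ℝ (Fin d) → ℝ := fun z x =>
    1 / 2 * h0 z x + 1 / 2 * h0 z (refl e x)
  have hHc : ∀ z, ContDiff ℝ ∞ (Hz z) := fun z => by
    simp only [Hz]
    exact (contDiff_const.mul (hh1 z)).add
      (contDiff_const.mul ((hh1 z).comp (reflE he).toContinuousLinearEquiv.contDiff))
  have hHl : ∀ z x, lap (Hz z) x = 0 := fun z x => by
    have h2 : ContDiff ℝ 2 (h0 z) := (hh1 z).of_le (by norm_cast)
    have h2' : ContDiff ℝ 2 (fun y => h0 z (refl e y)) :=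
      h2.comp (reflE he).toContinuousLinearEquiv.contDiff
    have hl : lap (fun y => h0 z (refl e y)) x = 0 :=
      (lap_comp_isometry h2 (reflE he) x).trans (hh2 z _)
    simp only [Hz]
    rw [lap_add (contDiffAt_const.mul h2.contDiffAt) (contDiffAt_const.mul h2'.contDiffAt),
      lap_const_mul _ h2.contDiffAt, lap_const_mul _ h2'.contDiffAt, hh2, hl]
    ring
  have hΦe : ∀ z x, Φ z (refl e x) = Φ z x := fun z x => by simp [Φ, ψ, up_refl he]
  have hHn : ∀ z x, ‖x‖ = 1 / 2 → |Hz z x - Φ z x| ≤ δ' := fun z x hx => by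
    have h1 := abs_le.1 (hh3 z x hx)
    have h2 := abs_le.1 (hh3 z (refl e x) ((norm_up he x).2.2.1.trans hx))
    rw [hΦe] at h2
    rw [abs_le]; simp only [Hz]; constructor <;> linarith
  choose B hB using fun z => (isCompact_closedBall (0 : EuclideanSpace ℝ (Fin d)) 4)
    |>.exists_bound_of_continuousOn (hHc z).continuous.continuousOn
  refine ⟨∑ z ∈ htf.toFinset, |B z|, Finset.sum_nonneg fun _ _ => abs_nonneg _, fun ν hν c hc1 hc2 => ?_⟩
  obtain ⟨O, hO⟩ := exists_isometry_to hν he
  let c' : EuclideanSpace ℝ (Fin d) → ℝ := fun z => c (O.symm z)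
  let H : EuclideanSpace ℝ (Fin d) → ℝ := fun x => ∑ z ∈ htf.toFinset, c' z * Hz z (O x)
  have hip : ∀ x, ⟪e, O x⟫ = ⟪ν, x⟫ := fun x => by rw [← hO, O.inner_map_map]
  have hOup : ∀ x, up e (O x) = O (up ν x) := fun x => by
    simp only [up, hip, map_add, map_smul, hO]
  have hOrefl : ∀ x, O (refl ν x) = refl e (O x) := fun x => by
    simp only [refl, hip, map_sub, map_smul, hO]
  have hmem : ∀ {z}, z ∈ htf.toFinset → ‖O.symm z‖ = 1 / 2 ∧ 0 ≤ ⟪ν, O.symm z⟫ := fun {z} hz => by
    have := htS (htf.mem_toFinset.1 hz)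
    exact ⟨(O.symm.norm_map z).trans (mem_sphere_zero_iff_norm.1 this.1), by
      rw [← hip, O.apply_symm_apply]; exact this.2⟩
  have hOc : ContDiff ℝ ∞ fun x => O x := O.toContinuousLinearEquiv.contDiff
  refine ⟨H, ContDiff.sum fun z _ => contDiff_const.mul ((hHc z).comp hOc), fun x => ?_,
    fun x => ?_, fun x hx => ?_, fun x hx => ?_⟩
  · have : ∀ s : Finset (EuclideanSpace ℝ (Fin d)),
        lap (fun y => ∑ z ∈ s, c' z * Hz z (O y)) x = 0 := by
      intro s
      induction s using Finset.induction with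
      | empty => simpa using lap_const (x := x) (0:ℝ)
      | insert a s ha ih =>
        have h2 : ∀ z, ContDiff ℝ 2 fun y => Hz z (O y) := fun z =>
          ((hHc z).comp hOc).of_le (by norm_cast)
        simp only [Finset.sum_insert ha]
        rw [lap_add (contDiffAt_const.mul (h2 a).contDiffAt)
            (ContDiffAt.sum fun z _ => contDiffAt_const.mul (h2 z).contDiffAt),
          lap_const_mul _ (h2 a).contDiffAt, lap_comp_isometry ((hHc a).of_le (by norm_cast)) O,
          hHl, ih]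
        ring
    exact this _
  · refine Finset.sum_congr rfl fun z _ => ?_
    simp only [Hz, hOrefl, refl_refl he]
    ring
  · refine (Finset.abs_sum_le_sum_abs _ _).trans (Finset.sum_le_sum fun z hz => ?_)
    rw [abs_mul]
    refine (mul_le_of_le_one_left (abs_nonneg _) (hc1 _ (hmem hz).1 (hmem hz).2)).trans ?_
    exact ((Real.norm_eq_abs _).symm.le.trans (hB z (O x) (by
      rw [mem_closedBall_zero_iff, O.norm_map]; exact hx))).trans (le_abs_self _)
  · have hxn : ‖O x‖ = 1 / 2 := (O.norm_map x).trans hx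
    have hupS : up e (O x) ∈ S :=
      ⟨mem_sphere_zero_iff_norm.2 ((norm_up he _).1.trans hxn),
        show 0 ≤ ⟪e, up e (O x)⟫ by rw [(norm_up he _).2.1]; exact abs_nonneg _⟩
    obtain ⟨z0, hz0, hz0d⟩ := mem_iUnion₂.1 (hcov hupS)
    have hden : θ / 2 ≤ ∑ w ∈ htf.toFinset, ψ w (O x) :=
      (le_max_of_le_left (by linarith [Metric.mem_ball.1 hz0d])).trans
        (Finset.single_le_sum (f := fun w => ψ w (O x)) (fun w _ => le_max_right _ _)
          (htf.mem_toFinset.2 hz0))
    have hΦ0 : ∀ z, 0 ≤ Φ z (O x) := fun z =>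
      div_nonneg (le_max_right _ _) ((half_pos hθ).le.trans (le_max_right _ _))
    have hsum : ∑ z ∈ htf.toFinset, Φ z (O x) = 1 := by
      simp only [Φ, max_eq_left hden, ← Finset.sum_div]
      exact div_self (by linarith)
    have hterm : ∀ z ∈ htf.toFinset,
        |c' z * Hz z (O x) - Φ z (O x) * c (up ν x)| ≤ δ' + Φ z (O x) * δ := fun z hz => by
      have e1 : c' z * Hz z (O x) - Φ z (O x) * c (up ν x)
          = c' z * (Hz z (O x) - Φ z (O x)) + Φ z (O x) * (c' z - c (up ν x)) := by ring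
      rw [e1]
      refine (abs_add_le _ _).trans (add_le_add ?_ ?_)
      · rw [abs_mul]
        exact (mul_le_of_le_one_left (abs_nonneg _) (hc1 _ (hmem hz).1 (hmem hz).2)).trans
          (hHn z _ hxn)
      · rw [abs_mul, abs_of_nonneg (hΦ0 z)]
        by_cases hdist : dist (up e (O x)) z < θ
        · refine mul_le_mul_of_nonneg_left ?_ (hΦ0 z)
          refine hc2 _ _ (hmem hz).1 (hmem hz).2 ((norm_up hν x).1.trans hx)
            ((norm_up hν x).2.1 ▸ abs_nonneg _) ?_
          rw [dist_comm, ← O.symm_apply_apply (up ν x), O.symm.dist_map, ← hOup]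
          exact hdist.le
        · have : Φ z (O x) = 0 := by
            simp [Φ, ψ, max_eq_right (show θ - dist (up e (O x)) z ≤ 0 by linarith)]
          simp [this]
    have e2 : H x - c (up ν x)
        = ∑ z ∈ htf.toFinset, (c' z * Hz z (O x) - Φ z (O x) * c (up ν x)) := by
      rw [Finset.sum_sub_distrib, ← Finset.sum_mul, hsum, one_mul]
    rw [e2]
    refine (Finset.abs_sum_le_sum_abs _ _).trans ((Finset.sum_le_sum hterm).trans ?_)
    rw [Finset.sum_add_distrib, ← Finset.sum_mul, hsum, one_mul, Finset.sum_const, nsmul_eq_mul]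
    have : (htf.toFinset.card : ℝ) * δ' ≤ δ := by
      simp only [δ']
      rw [mul_div_assoc', div_le_iff₀ (by positivity)]
      linarith
    linarith

end Vale.Agent.P098.Reg.Eps
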