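import Vale.Agent.P098.Reg.Eps.Harnack
import Vale.Agent.P098.Reg.Eps.Poly

/-! Improvement of flatness by comparison with even harmonic functions. -/

noncomputable section

namespace Vale.Agent.P098.Reg.Eps

open Set Filter Topology
open scoped ContDiff RealInnerProductSpace

variable {d : ℕ}
variable {u H : EuclideanSpace ℝ (Fin d) → ℝ} {ν x : EuclideanSpace ℝ (Fin d)}

theorem lap_pd (hH : ContDiff ℝ ∞ H) (hl : ∀ x, lap H x = 0) (j : Fin d) :
    ∀ x, lap (pd j H) x = 0 := fun x => by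
  have hp : ∀ i, ContDiff ℝ ∞ (pd i H) := fun i => contDiff_pd hH le_rfl
  have e1 : ∀ i, pd i (pd i (pd j H)) x = pd j (pd i (pd i H)) x := fun i => by
    rw [pd_congr (eventually_of_mem univ_mem fun z _ =>
        (pd_comm isOpen_univ hH.contDiffOn (mem_univ z) (by norm_cast) :
          pd i (pd j H) z = pd j (pd i H) z)),
      pd_comm isOpen_univ (hp i).contDiffOn (mem_univ x) (by norm_cast)]
  simp only [lap, e1]
  rw [← pd_sum _ fun i _ => (contDiff_pd (m := 1) (hp i) (by norm_cast)).differentiable one_ne_zero x]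
  exact (pd_congr (f := lap H) (g := fun _ => (0:ℝ))
    (eventually_of_mem univ_mem fun z _ => hl z)).trans (pd_const 0)

theorem gradSq_le_sq (hd : 0 < d) (hH : ContDiff ℝ ∞ H) (hl : ∀ x, lap H x = 0) {R B : ℝ}
    (hR : 0 < R) (hB : 0 ≤ B) (hb : ∀ x, ‖x‖ ≤ R → |H x| ≤ B) :
    ∀ x, ‖x‖ < R / 2 → gradSq H x ≤ (2 * (6 + d) * B / R) ^ 2 := fun x hx => by
  refine (gradSq_le_of_harmonic hd isOpen_univ hR (subset_univ _) hH.contDiffOn (fun y _ => hl y)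
    (fun y hy => hb y (mem_closedBall_zero_iff.1 hy)) x (mem_ball_zero_iff.2 hx)).trans ?_
  rw [div_pow, div_le_div_iff_of_pos_right (by positivity), mul_pow, mul_pow]
  refine mul_le_mul_of_nonneg_right ?_ (sq_nonneg B)
  have : (0:ℝ) ≤ d := Nat.cast_nonneg d
  nlinarith

theorem abs_pd_le (j : Fin d) {B : ℝ} (hB : 0 ≤ B) (h : gradSq H x ≤ B ^ 2) : |pd j H x| ≤ B := by
  refine abs_le_of_sq_le_sq ?_ hB
  exact (Finset.single_le_sum (f := fun i => pd i H x ^ 2) (fun _ _ => sq_nonneg _)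
    (Finset.mem_univ j)).trans h

/-- Second order Taylor bound for bounded harmonic functions. -/
theorem taylor (hd : 0 < d) : ∃ A CT : ℝ, 0 < A ∧ 0 < CT ∧
    ∀ H : EuclideanSpace ℝ (Fin d) → ℝ, ContDiff ℝ ∞ H → (∀ x, lap H x = 0) →
      (∀ x, ‖x‖ ≤ 1 / 2 → |H x| ≤ 2) → gradSq H 0 ≤ A ^ 2 ∧
      ∀ x, ‖x‖ < 1 / 10 → |H x - H 0 - fderiv ℝ H 0 x| ≤ CT * ‖x‖ ^ 2 := by
  set A : ℝ := 2 * (6 + d) * 2 / (1 / 2)
  set L : ℝ := 2 * (6 + d) * A / (1 / 5)
  refine ⟨A, d * L, by positivity, by have : (0:ℝ) < d := by exact_mod_cast hd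
                                      positivity, fun H hH hl hb => ?_⟩
  have hA := gradSq_le_sq hd hH hl (by norm_num : (0:ℝ) < 1 / 2) zero_le_two hb
  refine ⟨hA 0 (by norm_num), fun x hx => ?_⟩
  have hL : ∀ j, ∀ y, ‖y‖ < 1 / 10 → |pd j H y - pd j H 0| ≤ L * ‖y‖ := fun j y hy => by
    have := abs_sub_le_of_harmonic hd isOpen_univ (x0 := 0) (by norm_num : (0:ℝ) < 1 / 5)
      (by positivity : (0:ℝ) ≤ A) (subset_univ _) (contDiff_pd hH le_rfl).contDiffOn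
      (fun z _ => lap_pd hH hl j z) (fun z hz => abs_pd_le j (by positivity) (hA z (by
        have := mem_closedBall_zero_iff.1 hz; linarith))) y (mem_ball_zero_iff.2 (by linarith))
      0 (Metric.mem_ball_self (by norm_num))
    rwa [dist_zero_right] at this
  let g : EuclideanSpace ℝ (Fin d) → ℝ := fun y => H y - fderiv ℝ H 0 y
  have hg : ∀ y, HasFDerivAt g (fderiv ℝ H y - fderiv ℝ H 0) y := fun y =>
    ((hH.differentiable (by simp) y).hasFDerivAt).sub (fderiv ℝ H 0).hasFDerivAt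
  have hnorm : ∀ y ∈ Metric.closedBall (0 : EuclideanSpace ℝ (Fin d)) ‖x‖,
      ‖fderiv ℝ H y - fderiv ℝ H 0‖ ≤ d * L * ‖x‖ := by
    intro y hy
    rw [mem_closedBall_zero_iff] at hy
    refine ContinuousLinearMap.opNorm_le_bound _ (by positivity) fun v => ?_
    rw [FunLike.coe_sub, Pi.sub_apply, Real.norm_eq_abs, fderiv_eq_sum_pd, fderiv_eq_sum_pd,
      ← Finset.sum_sub_distrib]
    calc |∑ i, (v i * pd i H y - v i * pd i H 0)|
        ≤ ∑ i, |v i * pd i H y - v i * pd i H 0| := Finset.abs_sum_le_sum_abs _ _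
      _ ≤ ∑ _i : Fin d, ‖v‖ * (L * ‖x‖) := Finset.sum_le_sum fun i _ => by
          rw [← mul_sub, abs_mul]
          refine mul_le_mul ?_ ((hL i y (by linarith)).trans
            (mul_le_mul_of_nonneg_left hy (by positivity))) (abs_nonneg _) (norm_nonneg _)
          exact (Real.norm_eq_abs _).symm.le.trans (PiLp.norm_apply_le v i)
      _ = _ := by simp; ring
  have := (convex_closedBall (0 : EuclideanSpace ℝ (Fin d)) ‖x‖).norm_image_sub_le_of_norm_hasFDerivWithin_le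
    (fun y _ => (hg y).hasFDerivWithinAt) hnorm (Metric.mem_closedBall_self (norm_nonneg x))
    (mem_closedBall_zero_iff.2 le_rfl)
  rw [Real.norm_eq_abs, sub_zero] at this
  simp only [g, map_zero, sub_zero] at this
  rw [show H x - H 0 - fderiv ℝ H 0 x = H x - fderiv ℝ H 0 x - H 0 by ring]
  exact this.trans_eq (by ring)

/-- An even function has vanishing normal derivative on the plane. -/
theorem fderiv_even (hν : ‖ν‖ = 1) (hH : Differentiable ℝ H) (he : ∀ x, H (refl ν x) = H x)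
    (hx : ⟪ν, x⟫ = 0) : fderiv ℝ H x ν = 0 := by
  have h1 : HasFDerivAt H ((fderiv ℝ H x).comp ((reflE hν).toContinuousLinearEquiv :
      EuclideanSpace ℝ (Fin d) →L[ℝ] EuclideanSpace ℝ (Fin d))) x := by
    have hfix : reflE hν x = x := by simp [reflE, refl, hx]
    have h := (hH (reflE hν x)).hasFDerivAt.comp x
      (reflE hν).toContinuousLinearEquiv.hasFDerivAt
    rw [hfix] at h
    exact h.congr_of_eventuallyEq (Eventually.of_forall fun y => (he y).symm)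
  have h2 := congrArg (fun T : EuclideanSpace ℝ (Fin d) →L[ℝ] ℝ => T ν) h1.fderiv
  have hrν : (reflE hν) ν = -ν := by
    show ν - (2 * ⟪ν, ν⟫) • ν = -ν
    rw [real_inner_self_eq_norm_sq, hν]; simp [two_smul]
  simp only [ContinuousLinearMap.comp_apply] at h2
  rw [show ((reflE hν).toContinuousLinearEquiv :
      EuclideanSpace ℝ (Fin d) →L[ℝ] EuclideanSpace ℝ (Fin d)) ν = -ν from hrν, map_neg] at h2
  linarith

/-- Normal derivative of an even harmonic function near the plane. -/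
theorem normal_small (hd : 0 < d) {M : ℝ} (hM : 0 ≤ M) (hν : ‖ν‖ = 1) (hH : ContDiff ℝ ∞ H)
    (hl : ∀ x, lap H x = 0) (he : ∀ x, H (refl ν x) = H x) (hb : ∀ x, ‖x‖ ≤ 4 → |H x| ≤ M) :
    ∀ x, ‖x‖ < 3 / 4 → gradSq H x ≤ (2 * (6 + d) * M / 4) ^ 2 ∧
      |fderiv ℝ H x ν| ≤ 2 * (6 + d) * (2 * (6 + d) * M / 4) / (3 / 2) * |⟪ν, x⟫| := by
  intro x hx
  have hG := gradSq_le_sq hd hH hl (by norm_num : (0:ℝ) < 4) hM hb
  refine ⟨hG x (by linarith), ?_⟩
  set g : EuclideanSpace ℝ (Fin d) → ℝ := fun y => fderiv ℝ H y ν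
  have hgeq : g = fun y => ∑ j, ν j * pd j H y := funext fun y => fderiv_eq_sum_pd H y ν
  have hgs : ContDiff ℝ ∞ g := by
    rw [hgeq]; exact ContDiff.sum fun j _ => contDiff_const.mul (contDiff_pd hH le_rfl)
  have hgl : ∀ y, lap g y = 0 := fun y => by
    have h2 : ∀ j, ContDiff ℝ 2 (pd j H) := fun j => (contDiff_pd (m := ∞) hH le_rfl).of_le (by norm_cast)
    have : ∀ s : Finset (Fin d), lap (fun z => ∑ j ∈ s, ν j * pd j H z) y = 0 := by
      intro s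
      induction s using Finset.induction with
      | empty => simpa using lap_const (x := y) (0:ℝ)
      | insert a s ha ih =>
        simp only [Finset.sum_insert ha]
        rw [lap_add (contDiffAt_const.mul (h2 a).contDiffAt)
          (ContDiffAt.sum fun z _ => contDiffAt_const.mul (h2 z).contDiffAt),
          lap_const_mul _ (h2 a).contDiffAt, lap_pd hH hl, ih]
        ring
    rw [hgeq]; exact this _
  have hgb : ∀ y ∈ Metric.closedBall (0 : EuclideanSpace ℝ (Fin d)) (3 / 2),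
      |g y| ≤ 2 * (6 + d) * M / 4 := fun y hy => by
    refine ((fderiv ℝ H y).le_opNorm ν).trans ?_
    rw [hν, mul_one]
    exact (norm_fderiv_le H y).trans (Real.sqrt_le_iff.2 ⟨by positivity,
      hG y (by have := mem_closedBall_zero_iff.1 hy; linarith)⟩)
  set x' := x + (-⟪ν, x⟫) • ν with hx'
  have hx'0 : ⟪ν, x'⟫ = 0 := by
    rw [hx', inner_add_right, real_inner_smul_right, real_inner_self_eq_norm_sq, hν]; ring
  have hx'n : ‖x'‖ ≤ ‖x‖ := by
    refine le_of_pow_le_pow_left₀ two_ne_zero (norm_nonneg _) ?_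
    rw [hx', norm_sq_add_smul hν]; nlinarith [sq_nonneg ⟪ν, x⟫]
  have := abs_sub_le_of_harmonic hd isOpen_univ (x0 := 0) (by norm_num : (0:ℝ) < 3 / 2)
    (by positivity) (subset_univ _) hgs.contDiffOn (fun y _ => hgl y) hgb x
    (mem_ball_zero_iff.2 (by linarith)) x' (mem_ball_zero_iff.2 (by linarith))
  rw [show g x' = 0 from fderiv_even hν (hH.differentiable (by simp)) he hx'0, sub_zero,
    dist_eq_norm, hx', sub_add_eq_sub_sub, sub_self, zero_sub, norm_neg, norm_smul, hν, mul_one,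
    norm_neg, Real.norm_eq_abs] at this
  exact this

/-- The perturbation of a half-space solution used as a strict sub- or supersolution. -/
theorem perturb (hν : ‖ν‖ = 1) (hH : ContDiff ℝ ∞ H) (hl : ∀ x, lap H x = 0) (s δ : ℝ) :
    let w := fun y => H y + s * (3 * δ + δ * (1 - ⟪ν, y⟫ - ⟪ν, y⟫ * ⟪ν, y⟫))
    ContDiff ℝ 2 w ∧ (∀ x, lap w x = -(2 * s * δ)) ∧
      (∀ x, fderiv ℝ w x ν = fderiv ℝ H x ν - s * δ * (1 + 2 * ⟪ν, x⟫)) ∧
      ∀ x, gradSq w x ≤ 2 * gradSq H x + 2 * (s * δ * (1 + 2 * ⟪ν, x⟫)) ^ 2 := by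
  intro w
  have hp : ContDiff ℝ 2 fun y : EuclideanSpace ℝ (Fin d) => ⟪ν, y⟫ := contDiff_inner_right ν
  have hH2 : ContDiff ℝ 2 H := hH.of_le (by norm_cast)
  have hw : w = fun y => H y + (s * (4 * δ) + (-(s * δ)) * ⟪ν, y⟫ + (-(s * δ)) * (⟪ν, y⟫ * ⟪ν, y⟫)) :=
    funext fun y => by simp only [w]; ring
  have hwC : ContDiff ℝ 2 w := by
    rw [hw]
    exact hH2.add ((contDiff_const.add (contDiff_const.mul hp)).add (contDiff_const.mul (hp.mul hp)))
  have hpd : ∀ i x, pd i w x = pd i H x - s * δ * (1 + 2 * ⟪ν, x⟫) * ν i := fun i x => by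
    have dp := hp.differentiable (by norm_num) x
    have d1 : DifferentiableAt ℝ (fun y => s * (4 * δ) + (-(s * δ)) * ⟪ν, y⟫) x :=
      (differentiableAt_const _).add (dp.const_mul _)
    rw [hw, pd_add (hH2.differentiable (by norm_num) x) (d1.fun_add ((dp.fun_mul dp).const_mul _)),
      pd_add d1 ((dp.fun_mul dp).const_mul _), pd_add (differentiableAt_const _) (dp.const_mul _),
      pd_const, pd_const_mul _ dp, pd_const_mul _ (dp.fun_mul dp), pd_mul dp dp, pd_inner]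
    ring
  have hν1 : ∑ i, ν i ^ 2 = 1 := by rw [← norm_sq_eq, hν, one_pow]
  refine ⟨hwC, fun x => ?_, fun x => ?_, fun x => ?_⟩
  · rw [hw, lap_add hH2.contDiffAt
      ((contDiff_const.add (contDiff_const.mul hp)).add (contDiff_const.mul (hp.mul hp))).contDiffAt,
      lap_add (contDiff_const.add (contDiff_const.mul hp)).contDiffAt
        (contDiff_const.mul (hp.mul hp)).contDiffAt,
      lap_add contDiffAt_const (contDiff_const.mul hp).contDiffAt, lap_const,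
      lap_const_mul _ hp.contDiffAt, lap_const_mul _ (hp.mul hp).contDiffAt,
      lap_mul hp.contDiffAt hp.contDiffAt, lap_inner, hl]
    simp only [pd_inner, ← sq, hν1]
    ring
  · rw [fderiv_eq_sum_pd, fderiv_eq_sum_pd]
    simp only [hpd]
    have key : ∀ c : ℝ, ∑ i, ν i * (c * ν i) = c := fun c => by
      rw [show ∑ i, ν i * (c * ν i) = c * ∑ i, ν i ^ 2 by
        rw [Finset.mul_sum]; exact Finset.sum_congr rfl fun i _ => by ring, hν1, mul_one]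
    simp only [mul_sub, Finset.sum_sub_distrib, key]
  · simp only [gradSq, hpd]
    calc ∑ i, (pd i H x - s * δ * (1 + 2 * ⟪ν, x⟫) * ν i) ^ 2
        ≤ ∑ i, (2 * pd i H x ^ 2 + 2 * (s * δ * (1 + 2 * ⟪ν, x⟫)) ^ 2 * ν i ^ 2) :=
          Finset.sum_le_sum fun i _ => by
            nlinarith [sq_nonneg (pd i H x + s * δ * (1 + 2 * ⟪ν, x⟫) * ν i)]
      _ = _ := by rw [Finset.sum_add_distrib, ← Finset.mul_sum, ← Finset.mul_sum, hν1, mul_one]

theorem hP_bound (hν : ‖ν‖ = 1) {δ : ℝ} (hδ0 : 0 < δ) :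
    ∀ y : EuclideanSpace ℝ (Fin d), ‖y‖ ≤ 1 / 2 →
      0 ≤ δ * (1 - ⟪ν, y⟫ - ⟪ν, y⟫ * ⟪ν, y⟫) ∧
        δ * (1 - ⟪ν, y⟫ - ⟪ν, y⟫ * ⟪ν, y⟫) ≤ 2 * δ := by
  intro y hy
  have := abs_le.1 (((abs_real_inner_le_norm ν y).trans_eq (by rw [hν, one_mul])).trans hy)
  exact ⟨mul_nonneg hδ0.le (by nlinarith),
    (mul_le_mul_of_nonneg_left (by nlinarith : 1 - ⟪ν, y⟫ - ⟪ν, y⟫ * ⟪ν, y⟫ ≤ 2) hδ0.le).trans_eq
      (mul_comm _ _)⟩

theorem hnear_bound (hν : ‖ν‖ = 1) {ε θ : ℝ} (hεθ : ε ≤ θ / 10) :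
    ∀ y y' : EuclideanSpace ℝ (Fin d), ∀ t, y' = y + t • ν → |t| ≤ 4 * ε →
      |⟪ν, y⟫| - ⟪ν, y⟫ ≤ 4 * ε → dist (up ν y + (2 * ε) • ν) y' ≤ θ := by
  intro y y' t hy' ht hp
  rw [dist_eq_norm, hy', up, add_assoc, ← add_smul, add_sub_add_left_eq_sub, ← sub_smul, norm_smul,
    hν, mul_one, Real.norm_eq_abs, abs_le]
  have := abs_le.1 ht
  constructor <;> linarith [le_abs_self ⟪ν, y⟫]

theorem upper_barrier (hν : ‖ν‖ = 1) {ε δ : ℝ} (hε : 0 < ε) (hε100 : ε ≤ 1 / 100) (hδ0 : 0 < δ)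
    (hb : Band u (Metric.ball 0 1) ν (-ε) ε) (hu : Sol u (Metric.ball 0 1))
    (hH : ContDiff ℝ ∞ H) (hHl : ∀ x, lap H x = 0) (hbd2 : ∀ y, ‖y‖ ≤ 1 / 2 → |H y| ≤ 2)
    (hgrad : ∀ y : EuclideanSpace ℝ (Fin d), ‖y‖ < 1 / 2 → |⟪ν, y⟫| ≤ 3 * ε →
      |fderiv ℝ H y ν| + δ * (2 * |⟪ν, y⟫|) ≤ δ / 6 ∧
      ∀ s : ℝ, |s| = 1 → ε * (2 * gradSq H y + 2 * (s * δ * (1 + 2 * ⟪ν, y⟫)) ^ 2) ≤ δ / 2)
    {θ : ℝ} (hεθ : ε ≤ θ / 10)
    (hcdata : ∀ y y' : EuclideanSpace ℝ (Fin d), ‖y‖ = 1 / 2 →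
      y' ∈ closure (pos u (Metric.ball 0 1)) → ‖y'‖ ≤ 3 / 4 →
      dist (up ν y + (2 * ε) • ν) y' ≤ θ →
      ε * (H y - 3 * δ) ≤ u y' - ⟪ν, y'⟫ ∧ u y' - ⟪ν, y'⟫ ≤ ε * (H y + 3 * δ)) :
    ∀ y ∈ Metric.ball (0 : EuclideanSpace ℝ (Fin d)) (1 / 2), 0 < u y → u y ≤ ⟪ν, y⟫ + 0 +
      ε * (H y + 1 * (3 * δ + δ * (1 - ⟪ν, y⟫ - ⟪ν, y⟫ * ⟪ν, y⟫))) := by
  have hνν : ⟪ν, ν⟫ = 1 := by rw [real_inner_self_eq_norm_sq, hν, one_pow]
  have hball : ∀ {y : EuclideanSpace ℝ (Fin d)}, ‖y‖ ≤ 3 / 4 →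
      y ∈ Metric.ball (0 : EuclideanSpace ℝ (Fin d)) 1 := fun h => mem_ball_zero_iff.2 (by linarith)
  have hP := hP_bound hν hδ0
  set D := Metric.ball (0 : EuclideanSpace ℝ (Fin d)) (1 / 2)
  have hcl : closure D = Metric.closedBall 0 (1 / 2) := closure_ball _ (by norm_num)
  have hDW : closure D ⊆ Metric.ball 0 1 :=
    hcl ▸ Metric.closedBall_subset_ball (by norm_num)
  have hfr : ∀ {y}, y ∈ frontier D → ‖y‖ = 1 / 2 := fun {y} hy => by
    rwa [frontier_ball _ (by norm_num), mem_sphere_zero_iff_norm] at hy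
  have hnear := hnear_bound hν hεθ
  obtain ⟨hw1, hl1, hf1, hg1⟩ := perturb hν hH hHl 1 δ
  refine hu.super D univ _ Metric.isOpen_ball (hcl ▸ isCompact_closedBall _ _) hDW isOpen_univ
    (subset_univ _) (((contDiff_inner_right ν).add contDiff_const).add
      (contDiff_const.mul hw1)).contDiffOn ?_ ?_ ?_
  · intro y _
    rw [lap_plane ε hw1.contDiffAt 0, hl1]
    exact mul_nonpos_of_nonneg_of_nonpos hε.le (by linarith)
  · intro y hy hy0 hv0
    have hyn : ‖y‖ < 1 / 2 := mem_ball_zero_iff.1 hy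
    have hup := hb.upper (⟨hball (by linarith), hy0⟩ : y ∈ pos u (Metric.ball 0 1))
    have hH2 := abs_le.1 (hbd2 y hyn.le)
    obtain ⟨hP0, hP2⟩ := hP y hyn.le
    have hp : |⟪ν, y⟫| ≤ 3 * ε := by
      rw [abs_le]
      have : ε * (-2) ≤ ε * (H y + 1 * (3 * δ + δ * (1 - ⟪ν, y⟫ - ⟪ν, y⟫ * ⟪ν, y⟫))) :=
        mul_le_mul_of_nonneg_left (by linarith) hε.le
      constructor <;> linarith
    obtain ⟨g1, g2⟩ := hgrad y hyn hp
    rw [gradSq_plane hν ε (hw1.differentiable (by norm_num) y) 0, hf1]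
    have k1 : ε * (fderiv ℝ H y ν - 1 * δ * (1 + 2 * ⟪ν, y⟫)) ≤ ε * (-(δ / 2)) := by
      refine mul_le_mul_of_nonneg_left ?_ hε.le
      have := le_abs_self (fderiv ℝ H y ν)
      have := mul_le_mul_of_nonneg_left (neg_abs_le ⟪ν, y⟫) hδ0.le
      linarith
    have k2 := mul_le_mul_of_nonneg_left (g2 1 abs_one) hε.le
    have k3 := mul_le_mul_of_nonneg_left (hg1 y) (sq_nonneg ε)
    nlinarith [k1, k2, k3, mul_pos hε hδ0]
  · intro y hy hyc
    have hyn := hfr hy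
    have hyW := hball (show ‖y‖ ≤ 3 / 4 by linarith)
    have hp1 := hb.closure_pos hyc
    have hd' : dist (up ν y + (2 * ε) • ν) y ≤ θ := hnear y y 0 (by simp) (by simp; linarith) (by
      rcases abs_cases ⟪ν, y⟫ with ⟨h, _⟩ | ⟨h, _⟩ <;> rw [h] <;> linarith)
    have := (hcdata y y hyn hyc (by linarith) hd').2
    have := mul_nonneg hε.le (hP y hyn.le).1
    linarith

theorem lower_barrier (hν : ‖ν‖ = 1) {ε δ : ℝ} (hε : 0 < ε) (hε100 : ε ≤ 1 / 100) (hδ0 : 0 < δ)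
    (hb : Band u (Metric.ball 0 1) ν (-ε) ε) (hu : Sol u (Metric.ball 0 1))
    (hH : ContDiff ℝ ∞ H) (hHl : ∀ x, lap H x = 0) (hbd2 : ∀ y, ‖y‖ ≤ 1 / 2 → |H y| ≤ 2)
    (hgrad : ∀ y : EuclideanSpace ℝ (Fin d), ‖y‖ < 1 / 2 → |⟪ν, y⟫| ≤ 3 * ε →
      |fderiv ℝ H y ν| + δ * (2 * |⟪ν, y⟫|) ≤ δ / 6 ∧
      ∀ s : ℝ, |s| = 1 → ε * (2 * gradSq H y + 2 * (s * δ * (1 + 2 * ⟪ν, y⟫)) ^ 2) ≤ δ / 2)
    {θ : ℝ} (hεθ : ε ≤ θ / 10)
    (hcdata : ∀ y y' : EuclideanSpace ℝ (Fin d), ‖y‖ = 1 / 2 →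
      y' ∈ closure (pos u (Metric.ball 0 1)) → ‖y'‖ ≤ 3 / 4 →
      dist (up ν y + (2 * ε) • ν) y' ≤ θ →
      ε * (H y - 3 * δ) ≤ u y' - ⟪ν, y'⟫ ∧ u y' - ⟪ν, y'⟫ ≤ ε * (H y + 3 * δ)) :
    ∀ y ∈ Metric.ball (0 : EuclideanSpace ℝ (Fin d)) (1 / 2), ⟪ν, y⟫ + 0 +
      ε * (H y + (-1) * (3 * δ + δ * (1 - ⟪ν, y⟫ - ⟪ν, y⟫ * ⟪ν, y⟫))) ≤ u y := by
  have hνν : ⟪ν, ν⟫ = 1 := by rw [real_inner_self_eq_norm_sq, hν, one_pow]
  have hball : ∀ {y : EuclideanSpace ℝ (Fin d)}, ‖y‖ ≤ 3 / 4 →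
      y ∈ Metric.ball (0 : EuclideanSpace ℝ (Fin d)) 1 := fun h => mem_ball_zero_iff.2 (by linarith)
  have hP := hP_bound hν hδ0
  set D := Metric.ball (0 : EuclideanSpace ℝ (Fin d)) (1 / 2)
  have hcl : closure D = Metric.closedBall 0 (1 / 2) := closure_ball _ (by norm_num)
  have hDW : closure D ⊆ Metric.ball 0 1 :=
    hcl ▸ Metric.closedBall_subset_ball (by norm_num)
  have hfr : ∀ {y}, y ∈ frontier D → ‖y‖ = 1 / 2 := fun {y} hy => by
    rwa [frontier_ball _ (by norm_num), mem_sphere_zero_iff_norm] at hy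
  have hnear := hnear_bound hν hεθ
  obtain ⟨hw2, hl2, hf2, hg2⟩ := perturb hν hH hHl (-1) δ
  refine hu.sub D univ _ Metric.isOpen_ball (hcl ▸ isCompact_closedBall _ _) hDW isOpen_univ
    (subset_univ _) (((contDiff_inner_right ν).add contDiff_const).add
      (contDiff_const.mul hw2)).contDiffOn ?_ ?_ ?_
  · intro y _ _
    rw [lap_plane ε hw2.contDiffAt 0, hl2]
    exact mul_nonneg hε.le (by linarith)
  · intro y hy hy0 hv0
    have hyn : ‖y‖ < 1 / 2 := mem_ball_zero_iff.1 hy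
    have hlo := hb.lower (hball (show ‖y‖ ≤ 3 / 4 by linarith))
    rw [hy0] at hlo
    have hH2 := abs_le.1 (hbd2 y hyn.le)
    obtain ⟨hP0, hP2⟩ := hP y hyn.le
    have hp : |⟪ν, y⟫| ≤ 3 * ε := by
      rw [abs_le]
      have : ε * (H y + (-1) * (3 * δ + δ * (1 - ⟪ν, y⟫ - ⟪ν, y⟫ * ⟪ν, y⟫))) ≤ ε * 2 :=
        mul_le_mul_of_nonneg_left (by linarith) hε.le
      constructor <;> linarith
    obtain ⟨g1, g2⟩ := hgrad y hyn hp
    rw [gradSq_plane hν ε (hw2.differentiable (by norm_num) y) 0, hf2]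
    have k1 : ε * (δ / 2) ≤ ε * (fderiv ℝ H y ν - (-1) * δ * (1 + 2 * ⟪ν, y⟫)) := by
      refine mul_le_mul_of_nonneg_left ?_ hε.le
      have := neg_abs_le (fderiv ℝ H y ν)
      have := mul_le_mul_of_nonneg_left (neg_abs_le ⟪ν, y⟫) hδ0.le
      linarith
    have k3 := mul_nonneg (sq_nonneg ε) (gradSq_nonneg
      (fun z => H z + (-1) * (3 * δ + δ * (1 - ⟪ν, z⟫ - ⟪ν, z⟫ * ⟪ν, z⟫))) y)
    nlinarith [k1, k3, mul_pos hε hδ0]
  · intro y hy
    have hyn := hfr hy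
    have hyW := hball (show ‖y‖ ≤ 3 / 4 by linarith)
    have hPy := mul_nonneg hε.le (hP y hyn.le).1
    by_cases hyc : y ∈ closure (pos u (Metric.ball 0 1))
    · have hp1 := hb.closure_pos hyc
      have hd' : dist (up ν y + (2 * ε) • ν) y ≤ θ := hnear y y 0 (by simp) (by simp; linarith) (by
        rcases abs_cases ⟪ν, y⟫ with ⟨h, _⟩ | ⟨h, _⟩ <;> rw [h] <;> linarith)
      have := (hcdata y y hyn hyc (by linarith) hd').1
      linarith
    · have hu0y : u y = 0 := le_antisymm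
        (not_lt.1 fun h => hyc (subset_closure ⟨hyW, h⟩)) (hu.nonneg y hyW)
      rw [hu0y]
      by_cases hlow : ⟪ν, y⟫ < -(2 * ε)
      · have := mul_le_mul_of_nonneg_left (abs_le.1 (hbd2 y hyn.le)).2 hε.le
        have := mul_pos hε hδ0
        linarith
      rw [not_lt] at hlow
      have hlo := hb.lower hyW
      rw [hu0y] at hlo
      set T := Icc (0:ℝ) (4 * ε) ∩ (fun t : ℝ => y + t • ν) ⁻¹' closure (pos u (Metric.ball 0 1))
      have hTc : IsCompact T := isCompact_Icc.inter_right (isClosed_closure.preimage (by fun_prop))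
      have hnorm : ∀ t ∈ Icc (0:ℝ) (4 * ε), ‖y + t • ν‖ ≤ 3 / 4 := fun t ht =>
        (norm_add_le _ _).trans (by
          rw [norm_smul, hν, mul_one, Real.norm_eq_abs, abs_of_nonneg ht.1]; linarith [ht.2])
      have h4 : (4 * ε) ∈ T := by
        refine ⟨⟨by linarith, le_rfl⟩, subset_closure (hb.mem_pos (hball (hnorm _ ⟨by linarith, le_rfl⟩)) ?_)⟩
        rw [inner_add_right, real_inner_smul_right, hνν]; linarith
      obtain ⟨s, hsT, hsmin⟩ := hTc.exists_isLeast ⟨_, h4⟩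
      have hs0 : 0 < s := by
        rcases hsT.1.1.lt_or_eq with h | h
        · exact h
        · exact absurd (by simpa [← h] using hsT.2) hyc
      have hzero : ∀ t ∈ Ico (0:ℝ) s, u (y + t • ν) = 0 := fun t ht => by
        have htI : t ∈ Icc (0:ℝ) (4 * ε) := ⟨ht.1, ht.2.le.trans hsT.1.2⟩
        refine le_antisymm (not_lt.1 fun h => ?_) (hu.nonneg _ (hball (hnorm t htI)))
        exact absurd (hsmin ⟨htI, subset_closure ⟨hball (hnorm t htI), h⟩⟩) (not_le.2 ht.2)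
      have hus : u (y + s • ν) = 0 := by
        have hcont : ContinuousWithinAt (fun t : ℝ => u (y + t • ν)) (Ico 0 s) s :=
          (((hu.cont.continuousAt (Metric.isOpen_ball.mem_nhds (hball (hnorm s hsT.1)))).comp
            (x := s) (f := fun t : ℝ => y + t • ν) (by fun_prop))).continuousWithinAt
        have hne : (𝓝[Ico 0 s] s).NeBot := mem_closure_iff_nhdsWithin_neBot.1
          (by rw [closure_Ico hs0.ne]; exact right_mem_Icc.2 hs0.le)
        exact tendsto_nhds_unique hcont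
          (tendsto_const_nhds.congr' (eventually_mem_nhdsWithin.mono fun t ht => (hzero t ht).symm))
      have hd' := hnear y (y + s • ν) s rfl (by rw [abs_of_pos hs0]; exact hsT.1.2) (by
        rcases abs_cases ⟪ν, y⟫ with ⟨h, _⟩ | ⟨h, _⟩ <;> rw [h] <;> linarith)
      have := (hcdata y _ hyn hsT.2 (hnorm s hsT.1) hd').1
      rw [hus, inner_add_right, real_inner_smul_right, hνν] at this
      linarith

theorem new_normal (hν : ‖ν‖ = 1) {ε δ r A CT : ℝ} (hε : 0 < ε) (hδ0 : 0 < δ) (hδ : δ = r / 60)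
    (hr0 : 0 < r) (hr20 : r ≤ 1 / 20) (hA : 0 < A) (hCT : 0 < CT) (hrCT : CT * r ≤ 1 / 6)
    (hεA' : ε * (A + 1) ^ 2 ≤ 1 / 6) (hu : Sol u (Metric.ball 0 1))
    (h0c : 0 ∈ closure (pos u (Metric.ball 0 1))) (hu0 : u 0 = 0)
    (hH : ContDiff ℝ ∞ H) (hHl : ∀ x, lap H x = 0) (hHe : ∀ x, H (refl ν x) = H x)
    (hgA : gradSq H 0 ≤ A ^ 2)
    (htay : ∀ x, ‖x‖ < 1 / 10 → |H x - H 0 - fderiv ℝ H 0 x| ≤ CT * ‖x‖ ^ 2)
    (hupper : ∀ y ∈ Metric.ball (0 : EuclideanSpace ℝ (Fin d)) (1 / 2), 0 < u y → u y ≤ ⟪ν, y⟫ + 0 +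
      ε * (H y + 1 * (3 * δ + δ * (1 - ⟪ν, y⟫ - ⟪ν, y⟫ * ⟪ν, y⟫))))
    (hlower : ∀ y ∈ Metric.ball (0 : EuclideanSpace ℝ (Fin d)) (1 / 2), ⟪ν, y⟫ + 0 +
      ε * (H y + (-1) * (3 * δ + δ * (1 - ⟪ν, y⟫ - ⟪ν, y⟫ * ⟪ν, y⟫))) ≤ u y) :
    ∃ ν', ‖ν'‖ = 1 ∧ ‖ν' - ν‖ ≤ 2 * (A + 1) * ε ∧
      Band u (Metric.ball 0 r) ν' (-(ε * r / 2)) (ε * r / 2) := by
  have hball : ∀ {y : EuclideanSpace ℝ (Fin d)}, ‖y‖ ≤ 3 / 4 →
      y ∈ Metric.ball (0 : EuclideanSpace ℝ (Fin d)) 1 := fun h => mem_ball_zero_iff.2 (by linarith)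
  have hP := hP_bound (d := d) hν hδ0
  set D := Metric.ball (0 : EuclideanSpace ℝ (Fin d)) (1 / 2)
  -- the new normal
  set a : EuclideanSpace ℝ (Fin d) := WithLp.toLp 2 fun i => pd i H 0
  have hader : ∀ y, fderiv ℝ H 0 y = ⟪a, y⟫ := fun y => by
    rw [fderiv_eq_sum_pd, inner_eq_sum]; exact Finset.sum_congr rfl fun i _ => mul_comm _ _
  have haν : ⟪ν, a⟫ = 0 := by
    rw [real_inner_comm, ← hader]; exact fderiv_even hν (hH.differentiable (by simp)) hHe (by simp)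
  have han : ‖a‖ ≤ A := le_of_pow_le_pow_left₀ two_ne_zero hA.le (by rw [norm_sq_eq]; exact hgA)
  set N := ‖ν + ε • a‖ with hN
  have hN2 : N ^ 2 = 1 + ε ^ 2 * ‖a‖ ^ 2 := by
    rw [hN, norm_add_sq_real, real_inner_smul_right, haν, hν, norm_smul, mul_pow, Real.norm_eq_abs,
      sq_abs]; ring
  have hN0 : 0 ≤ N := norm_nonneg _
  have hN1 : 1 ≤ N := by nlinarith [sq_nonneg (ε * ‖a‖)]
  have hN3 : N - 1 ≤ ε ^ 2 * A ^ 2 := by
    have := mul_le_mul_of_nonneg_left (pow_le_pow_left₀ (norm_nonneg a) han 2) (sq_nonneg ε)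
    nlinarith
  have hεA1 : ε * A ^ 2 ≤ 1 / 6 := le_trans
    (mul_le_mul_of_nonneg_left (by nlinarith) hε.le) hεA'
  have hN4 : N - 1 ≤ ε / 6 := by
    have := mul_le_mul_of_nonneg_left hεA1 hε.le
    linarith
  set ν' := N⁻¹ • (ν + ε • a)
  have hν' : ‖ν'‖ = 1 := by
    rw [norm_smul, norm_inv, Real.norm_eq_abs, abs_of_pos (by linarith), ← hN,
      inv_mul_cancel₀ (by linarith : N ≠ 0)]
  refine ⟨ν', hν', ?_, fun y hy => ?_⟩
  · have e : ν' - ν = ε • a + -((N - 1) • ν') := by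
      have h1 : N • ν' = ν + ε • a := by
        simp only [ν', smul_smul, mul_inv_cancel₀ (by linarith : N ≠ 0), one_smul]
      rw [sub_smul, one_smul, h1]; abel
    rw [e]
    refine (norm_add_le _ _).trans ?_
    rw [norm_neg, norm_smul, norm_smul, hν', mul_one, Real.norm_eq_abs, Real.norm_eq_abs,
      abs_of_pos hε, abs_of_nonneg (by linarith)]
    have := mul_le_mul_of_nonneg_left han hε.le
    have : 0 ≤ ε * A := by positivity
    linarith
  rw [mem_ball_zero_iff] at hy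
  have hyD : y ∈ D := mem_ball_zero_iff.2 (by linarith)
  have hyn : ‖y‖ ≤ 1 / 2 := by linarith
  obtain ⟨hP0, hP2⟩ := hP y hyn
  have h0D : (0 : EuclideanSpace ℝ (Fin d)) ∈ D := Metric.mem_ball_self (by norm_num)
  have hH0 : -(4 * δ) ≤ H 0 ∧ H 0 ≤ 4 * δ := by
    constructor
    · by_contra hneg
      rw [not_le] at hneg
      have hc : ContinuousAt (fun z => ⟪ν, z⟫ + 0 +
          ε * (H z + 1 * (3 * δ + δ * (1 - ⟪ν, z⟫ - ⟪ν, z⟫ * ⟪ν, z⟫)))) 0 :=
        (((contDiff_inner_right (n := 2) ν).add contDiff_const).add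
          (contDiff_const.mul (perturb hν hH hHl 1 δ).1)).continuous.continuousAt
      have hlt : ⟪ν, (0 : EuclideanSpace ℝ (Fin d))⟫ + 0 + ε * (H 0 + 1 * (3 * δ + δ * (1 -
          ⟪ν, (0 : EuclideanSpace ℝ (Fin d))⟫ - ⟪ν, (0 : EuclideanSpace ℝ (Fin d))⟫ *
            ⟪ν, (0 : EuclideanSpace ℝ (Fin d))⟫))) < 0 := by
        simp only [inner_zero_right, add_zero, zero_add, mul_zero, sub_zero]
        exact mul_neg_of_pos_of_neg hε (by linarith)
      obtain ⟨z, ⟨hzlt, hzD⟩, hzp⟩ := mem_closure_iff_nhds.1 h0c _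
        (inter_mem (hc.tendsto.eventually (gt_mem_nhds hlt)) (Metric.isOpen_ball.mem_nhds h0D))
      have := hupper z hzD hzp.2
      have hzp' := hzp.2
      have : _ < (0:ℝ) := hzlt
      linarith
    · have := hlower 0 h0D
      rw [hu0] at this
      simp only [inner_zero_right, add_zero, zero_add, mul_zero, sub_zero] at this
      by_contra hpos
      rw [not_le] at hpos
      have : 0 < ε * (H 0 + -1 * (3 * δ + δ * 1)) := mul_pos hε (by linarith)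
      linarith
  have ht := abs_le.1 (htay y (by linarith))
  rw [hader] at ht
  have hr2 : CT * ‖y‖ ^ 2 ≤ r / 6 := by
    calc CT * ‖y‖ ^ 2 ≤ CT * r ^ 2 :=
          mul_le_mul_of_nonneg_left (pow_le_pow_left₀ (norm_nonneg _) hy.le 2) hCT.le
      _ = CT * r * r := by ring
      _ ≤ 1 / 6 * r := mul_le_mul_of_nonneg_right hrCT hr0.le
      _ = r / 6 := by ring
  have e' : ⟪ν', y⟫ = ⟪ν, y⟫ + ε * ⟪a, y⟫ - (N - 1) * ⟪ν', y⟫ := by
    simp only [ν', real_inner_smul_left, inner_add_left]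
    field_simp
    ring
  have hd1 : |(N - 1) * ⟪ν', y⟫| ≤ ε / 6 * r := by
    rw [abs_mul, abs_of_nonneg (by linarith : 0 ≤ N - 1)]
    refine mul_le_mul hN4 ?_ (abs_nonneg _) (by linarith)
    exact (abs_real_inner_le_norm _ _).trans (by rw [hν', one_mul]; exact hy.le)
  have hd2 := abs_le.1 hd1
  refine ⟨max_le ?_ (hu.nonneg y (hball (by linarith))), ?_⟩
  · have := hlower y hyD
    have : ε * (H 0 + ⟪a, y⟫ - r / 6 - 5 * δ) ≤
        ε * (H y + (-1) * (3 * δ + δ * (1 - ⟪ν, y⟫ - ⟪ν, y⟫ * ⟪ν, y⟫))) :=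
      mul_le_mul_of_nonneg_left (by linarith) hε.le
    have : ε * (-(4 * δ)) ≤ ε * H 0 := mul_le_mul_of_nonneg_left hH0.1 hε.le
    rw [hδ] at *
    linarith
  · rcases (hu.nonneg y (hball (by linarith))).lt_or_eq with h | h
    · refine le_max_of_le_left ?_
      have := hupper y hyD h
      have : ε * (H y + 1 * (3 * δ + δ * (1 - ⟪ν, y⟫ - ⟪ν, y⟫ * ⟪ν, y⟫))) ≤
          ε * (H 0 + ⟪a, y⟫ + r / 6 + 5 * δ) :=
        mul_le_mul_of_nonneg_left (by linarith) hε.le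
      have : ε * H 0 ≤ ε * (4 * δ) := mul_le_mul_of_nonneg_left hH0.2 hε.le
      rw [hδ] at *
      linarith
    · rw [← h]; exact le_max_right _ _


/-- Flatness improves at a smaller scale. -/
theorem improve (hd : 0 < d) : ∃ r ε₀ C : ℝ, 0 < r ∧ r ≤ 1 / 20 ∧ 0 < ε₀ ∧ 0 < C ∧
    ∀ (u : EuclideanSpace ℝ (Fin d) → ℝ) (ν : EuclideanSpace ℝ (Fin d)) (ε : ℝ),
      Sol u (Metric.ball 0 1) → ‖ν‖ = 1 → Band u (Metric.ball 0 1) ν (-ε) ε → 0 < ε → ε ≤ ε₀ →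
      0 ∈ closure (pos u (Metric.ball 0 1)) → u 0 = 0 →
      ∃ ν', ‖ν'‖ = 1 ∧ ‖ν' - ν‖ ≤ C * ε ∧
        Band u (Metric.ball 0 r) ν' (-(ε * r / 2)) (ε * r / 2) := by
  obtain ⟨A, CT, hA, hCT, hT⟩ := taylor hd
  set r := min (1 / 20) (1 / (6 * CT)) with hr
  have hr0 : 0 < r := by positivity
  have hr20 : r ≤ 1 / 20 := min_le_left _ _
  have hrCT : CT * r ≤ 1 / 6 := by
    calc CT * r ≤ CT * (1 / (6 * CT)) := mul_le_mul_of_nonneg_left (min_le_right _ _) hCT.le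
      _ = 1 / 6 := by field_simp
  set δ := r / 60 with hδ
  have hδ0 : 0 < δ := by positivity
  obtain ⟨θ, εm, hθ, hεm, hmod⟩ := modulus hd hδ0
  obtain ⟨M, hM, happ⟩ := approx_even hd hθ hδ0
  set M₁ : ℝ := 2 * (6 + d) * M / 4
  set L₂ : ℝ := 2 * (6 + d) * M₁ / (3 / 2)
  set G : ℝ := 2 * M₁ ^ 2 + 8 * δ ^ 2
  have hM₁ : 0 ≤ M₁ := by positivity
  have hL₂ : 0 ≤ L₂ := by positivity
  refine ⟨r, min εm (min (θ / 10) (min (1 / 100) (min (δ / (2 * (9 * L₂ + 18 * δ + G + 1)))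
    (1 / (6 * (A + 1) ^ 2))))), 2 * (A + 1), hr0, hr20, by positivity, by positivity, ?_⟩
  intro u ν ε hu hν hb hε hε0 h0c hu0
  simp only [le_min_iff] at hε0
  obtain ⟨hεm', hεθ, hε100, hεG, hεA⟩ := hε0
  have hεG' : ε * (9 * L₂ + 18 * δ + G + 1) ≤ δ / 2 := by
    rw [le_div_iff₀ (by positivity)] at hεG; linarith
  have hεA' : ε * (A + 1) ^ 2 ≤ 1 / 6 := by
    rw [le_div_iff₀ (by positivity)] at hεA; linarith
  have hνν : ⟪ν, ν⟫ = 1 := by rw [real_inner_self_eq_norm_sq, hν, one_pow]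
  have hmod' := hmod u ν ε hu hν hb hε hεm'
  have hball : ∀ {y : EuclideanSpace ℝ (Fin d)}, ‖y‖ ≤ 3 / 4 →
      y ∈ Metric.ball (0 : EuclideanSpace ℝ (Fin d)) 1 := fun h => mem_ball_zero_iff.2 (by linarith)
  -- data on the upper hemisphere
  let c : EuclideanSpace ℝ (Fin d) → ℝ := fun y =>
    (u (y + (2 * ε) • ν) - ⟪ν, y + (2 * ε) • ν⟫) / ε
  have hz : ∀ y, ‖y‖ = 1 / 2 → 0 ≤ ⟪ν, y⟫ → y + (2 * ε) • ν ∈ pos u (Metric.ball 0 1) ∧
      ‖y + (2 * ε) • ν‖ ≤ 3 / 4 := fun y hy hy0 => by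
    have h1 : ‖y + (2 * ε) • ν‖ ≤ 3 / 4 := (norm_add_le _ _).trans (by
      rw [norm_smul, hν, Real.norm_eq_abs, abs_of_pos (by linarith : 0 < 2 * ε)]; linarith)
    refine ⟨hb.mem_pos (hball h1) ?_, h1⟩
    rw [inner_add_right, real_inner_smul_right, hνν]; linarith
  obtain ⟨H, hH, hHl, hHe, hHM, hHc⟩ := happ ν hν c (fun y hy hy0 => by
      obtain ⟨h1, h2⟩ := hz y hy hy0
      have := hb.upper h1; have := hb.lower h1.1
      simp only [c]
      rw [abs_div, abs_of_pos hε, div_le_one hε, abs_le]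
      constructor <;> linarith)
    (fun y y' hy hy0 hy' hy0' hyy => by
      obtain ⟨h1, h2⟩ := hz y hy hy0
      obtain ⟨h1', h2'⟩ := hz y' hy' hy0'
      have := hmod' _ _ (subset_closure h1) (subset_closure h1') h2 h2'
        (by rwa [dist_add_right])
      simp only [c]
      rw [← sub_div, abs_div, abs_of_pos hε, div_le_iff₀ hε]
      exact this)
  have hbd2 : ∀ y, ‖y‖ ≤ 1 / 2 → |H y| ≤ 2 := by
    have hsph : ∀ y, ‖y‖ = 1 / 2 → |H y| ≤ 2 := fun y hy => by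
      obtain ⟨h1, h2, _⟩ := norm_up hν y
      obtain ⟨k1, k2⟩ := hz (up ν y) (h1.trans hy) (h2 ▸ abs_nonneg _)
      have ku := hb.upper k1; have kl := hb.lower k1.1
      have kc : |c (up ν y)| ≤ 1 := by
        simp only [c]; rw [abs_div, abs_of_pos hε, div_le_one hε, abs_le]
        constructor <;> linarith
      have := abs_le.1 (hHc y hy); have := abs_le.1 kc
      rw [abs_le]; constructor <;> linarith
    intro y hy
    rcases hy.eq_or_lt with h | h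
    · exact hsph y h
    have hcl := closure_ball (0 : EuclideanSpace ℝ (Fin d)) (by norm_num : (1/2:ℝ) ≠ 0)
    have hmx : ∀ s : ℝ, |s| = 1 → s * H y ≤ 2 := fun s hs =>
      le_of_lap_nonneg hd Metric.isOpen_ball (by rw [hcl]; exact isCompact_closedBall _ _)
        (hH.continuous.const_mul s).continuousOn
        (fun z _ => contDiffAt_const.mul (hH.contDiffAt.of_le (by norm_cast)))
        (fun z _ => by rw [lap_const_mul s (hH.contDiffAt.of_le (by norm_cast)), hHl, mul_zero])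
        (fun z hz => by
          rw [frontier_ball _ (by norm_num), mem_sphere_zero_iff_norm] at hz
          exact (le_abs_self _).trans (by rw [abs_mul, hs, one_mul]; exact hsph z hz))
        y (mem_ball_zero_iff.2 h)
    have := hmx 1 abs_one; have := hmx (-1) (by simp)
    rw [abs_le]; constructor <;> linarith
  have hns := normal_small hd hM hν hH hHl hHe hHM
  have hip : ∀ y, |⟪ν, y⟫| ≤ ‖y‖ := fun y =>
    (abs_real_inner_le_norm _ _).trans_eq (by rw [hν, one_mul])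
  have hP := hP_bound (d := d) hν hδ0
  have hcdata : ∀ y y' : EuclideanSpace ℝ (Fin d), ‖y‖ = 1 / 2 →
      y' ∈ closure (pos u (Metric.ball 0 1)) → ‖y'‖ ≤ 3 / 4 →
      dist (up ν y + (2 * ε) • ν) y' ≤ θ →
      ε * (H y - 3 * δ) ≤ u y' - ⟪ν, y'⟫ ∧ u y' - ⟪ν, y'⟫ ≤ ε * (H y + 3 * δ) := by
    intro y y' hy hy' hy'n hd'
    obtain ⟨h1, h2, _⟩ := norm_up hν y
    obtain ⟨k1, k2⟩ := hz (up ν y) (h1.trans hy) (h2 ▸ abs_nonneg _)
    have hm := abs_le.1 (hmod' _ _ (subset_closure k1) hy' k2 hy'n hd')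
    have hc' := abs_le.1 (hHc y hy)
    have e : u (up ν y + (2 * ε) • ν) - ⟪ν, up ν y + (2 * ε) • ν⟫ = ε * c (up ν y) := by
      simp only [c]; field_simp
    rw [e] at hm
    have g1 := mul_le_mul_of_nonneg_left hc'.1 hε.le
    have g2 := mul_le_mul_of_nonneg_left hc'.2 hε.le
    constructor <;> linarith
  have hgrad : ∀ y : EuclideanSpace ℝ (Fin d), ‖y‖ < 1 / 2 → |⟪ν, y⟫| ≤ 3 * ε →
      |fderiv ℝ H y ν| + δ * (2 * |⟪ν, y⟫|) ≤ δ / 6 ∧
      ∀ s : ℝ, |s| = 1 → ε * (2 * gradSq H y + 2 * (s * δ * (1 + 2 * ⟪ν, y⟫)) ^ 2) ≤ δ / 2 := by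
    intro y hy hp
    obtain ⟨k1, k2⟩ : gradSq H y ≤ M₁ ^ 2 ∧ |fderiv ℝ H y ν| ≤ L₂ * |⟪ν, y⟫| := hns y (by linarith)
    have a1 := k2.trans (mul_le_mul_of_nonneg_left hp hL₂)
    refine ⟨?_, fun s hs => ?_⟩
    · have := mul_le_mul_of_nonneg_left hp hδ0.le
      have h9 : 0 ≤ ε * G + ε := by positivity
      linarith
    · have hs2 : (s * δ * (1 + 2 * ⟪ν, y⟫)) ^ 2 ≤ (2 * δ) ^ 2 := by
        rw [← sq_abs, abs_mul, abs_mul, hs, one_mul, abs_of_pos hδ0]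
        refine pow_le_pow_left₀ (by positivity) ?_ 2
        rw [mul_comm]
        refine mul_le_mul_of_nonneg_right ?_ hδ0.le
        have := abs_le.1 hp
        rw [abs_le]; constructor <;> linarith
      have : ε * (2 * gradSq H y + 2 * (s * δ * (1 + 2 * ⟪ν, y⟫)) ^ 2) ≤ ε * G :=
        mul_le_mul_of_nonneg_left (by simp only [G]; linarith) hε.le
      have h9 : 0 ≤ ε * (9 * L₂) + ε * (18 * δ) + ε := by positivity
      linarith
  have hupper := upper_barrier hν hε hε100 hδ0 hb hu hH hHl hbd2 hgrad hεθ hcdata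
  have hlower := lower_barrier hν hε hε100 hδ0 hb hu hH hHl hbd2 hgrad hεθ hcdata
  set D := Metric.ball (0 : EuclideanSpace ℝ (Fin d)) (1 / 2)
  obtain ⟨hgA, htay⟩ := hT H hH hHl hbd2
  exact new_normal hν hε hδ0 hδ hr0 hr20 hA hCT hrCT hεA' hu h0c hu0 hH hHl hHe hgA htay hupper hlower

end Vale.Agent.P098.Reg.Eps
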