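import Vale.Agent.P098.Reg.Eps.Improve

/-! Iteration of the improvement of flatness: Hölder continuous normals and gradient. -/

noncomputable section

namespace Vale.Agent.P098.Reg.Eps

open Set Filter Topology
open scoped ContDiff RealInnerProductSpace

variable {d : ℕ}
variable {u f : EuclideanSpace ℝ (Fin d) → ℝ} {ν x : EuclideanSpace ℝ (Fin d)}

/-- Flatness at a free boundary point decays geometrically. -/
theorem decay (hd : 0 < d) : ∃ α ε₀ C : ℝ, 0 < α ∧ α < 1 ∧ 0 < ε₀ ∧ 0 < C ∧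
    ∀ (u : EuclideanSpace ℝ (Fin d) → ℝ) (ν : EuclideanSpace ℝ (Fin d)) (ε : ℝ),
      Sol u (Metric.ball 0 1) → ‖ν‖ = 1 → Band u (Metric.ball 0 1) ν (-ε) ε → 0 < ε → ε ≤ ε₀ →
      ∀ x, ‖x‖ < 1 / 2 → x ∈ closure (pos u (Metric.ball 0 1)) → u x = 0 →
      ∃ νx, ‖νx‖ = 1 ∧ ‖νx - ν‖ ≤ C * ε ∧ ∀ s, 0 < s → s ≤ 1 / 2 →
        Band u (Metric.ball x s) νx (-⟪νx, x⟫ - C * ε * s ^ α * s)
          (-⟪νx, x⟫ + C * ε * s ^ α * s) := by
  obtain ⟨r, ε₁, C₁, hr0, hr20, hε₁, hC₁, H⟩ := improve hd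
  set α := Real.log 2 / Real.log (1 / r)
  have h1r : (20:ℝ) ≤ 1 / r := by rw [le_div_iff₀ hr0]; linarith
  have hlr : 0 < Real.log (1 / r) := Real.log_pos (by linarith)
  have hl2 : 0 < Real.log 2 := Real.log_pos one_lt_two
  have hα : 0 < α := by positivity
  have hα1 : α < 1 := by rw [div_lt_one hlr]; exact Real.log_lt_log two_pos (by linarith)
  have hrα : r ^ α = 1 / 2 := by
    rw [Real.rpow_def_of_pos hr0, show Real.log r = -Real.log (1 / r) by
      rw [one_div, Real.log_inv, neg_neg]]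
    rw [show -Real.log (1 / r) * α = -Real.log 2 by simp only [α]; field_simp, Real.exp_neg,
      Real.exp_log two_pos]
    norm_num
  set C₂ := 8 * C₁ + 4 / r
  refine ⟨α, ε₁ / 4, C₂ * (2 / r), hα, hα1, by positivity, by positivity, ?_⟩
  intro u ν ε hu hν hb hε hε0 x hx hxc hux
  have hxW : x ∈ Metric.ball (0 : EuclideanSpace ℝ (Fin d)) 1 := mem_ball_zero_iff.2 (by linarith)
  have hp0 := hb.closure_pos hxc
  have hp1 := hb.lower hxW
  rw [hux] at hp1
  let rk : ℕ → ℝ := fun k => 1 / 2 * r ^ k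
  have hrk : ∀ k, 0 < rk k := fun k => by positivity
  have hrk2 : ∀ k, rk k ≤ 1 / 2 := fun k =>
    mul_le_of_le_one_right (by norm_num) (pow_le_one₀ hr0.le (by linarith))
  have hsub : ∀ {s : ℝ}, s ≤ 1 / 2 → Metric.ball x s ⊆ Metric.ball 0 1 := fun hs =>
    Metric.ball_subset_ball' (by rw [dist_zero_right]; linarith)
  let Q : ℕ → EuclideanSpace ℝ (Fin d) → Prop := fun k μ => ‖μ‖ = 1 ∧
    Band (resc u x (rk k)) (Metric.ball 0 1) μ (-(4 * ε * (1 / 2) ^ k)) (4 * ε * (1 / 2) ^ k)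
  have hbase : Q 0 ν := ⟨hν, by
    refine (hb.rescale (x0 := x) (hrk 0) (W' := Metric.ball 0 1) fun y hy => ?_).mono ?_ ?_
    · refine hsub (hrk2 0) (show x + rk 0 • y ∈ Metric.ball x (rk 0) from ?_)
      rw [mem_ball_iff_norm, add_sub_cancel_left, norm_smul, Real.norm_eq_abs, abs_of_pos (hrk 0)]
      exact mul_lt_of_lt_one_right (hrk 0) (mem_ball_zero_iff.1 hy)
    · simp only [rk, pow_zero, mul_one]; rw [le_div_iff₀ (by norm_num)]; linarith
    · simp only [rk, pow_zero, mul_one]; rw [div_le_iff₀ (by norm_num)]; linarith⟩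
  have hstep : ∀ k μ, Q k μ → ∃ μ', Q (k + 1) μ' ∧ ‖μ' - μ‖ ≤ 4 * C₁ * ε * (1 / 2) ^ k := by
    rintro k μ ⟨hμ, hband⟩
    have he0 : (0:ℝ) < 4 * ε * (1 / 2) ^ k := by positivity
    have hsol : Sol (resc u x (rk k)) (Metric.ball 0 1) :=
      (hu.restrict Metric.isOpen_ball (hsub (hrk2 k))).rescale_ball (hrk k)
    have hc0 : (0 : EuclideanSpace ℝ (Fin d)) ∈
        closure (pos (resc u x (rk k)) (Metric.ball 0 1)) := by
      have e : aff x (hrk k).ne' ⁻¹' Metric.ball x (rk k) = Metric.ball 0 1 := by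
        simpa using preimage_ball x (hrk k) (0 : EuclideanSpace ℝ (Fin d)) 1
      rw [← e, pos_resc x (hrk k), ← Homeomorph.preimage_closure]
      show x + rk k • (0 : EuclideanSpace ℝ (Fin d)) ∈ closure (pos u (Metric.ball x (rk k)))
      rw [smul_zero, add_zero]
      refine closure_mono (show Metric.ball x (rk k) ∩ pos u (Metric.ball 0 1) ⊆
        pos u (Metric.ball x (rk k)) from fun w hw => ⟨hw.1, hw.2.2⟩) ?_
      exact Metric.isOpen_ball.inter_closure ⟨Metric.mem_ball_self (hrk k), hxc⟩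
    obtain ⟨μ', h1, h2, h3⟩ := H _ μ _ hsol hμ hband he0
      (by have : (1 / 2 : ℝ) ^ k ≤ 1 := pow_le_one₀ (by norm_num) (by norm_num)
          have := mul_le_mul_of_nonneg_left this hε.le
          linarith) hc0 (by simp [resc, hux])
    refine ⟨μ', ⟨h1, ?_⟩, h2.trans_eq (by ring)⟩
    have h4 := h3.rescale (x0 := 0) hr0 (W' := Metric.ball 0 1) fun y hy => by
      rw [zero_add, mem_ball_zero_iff, norm_smul, Real.norm_eq_abs, abs_of_pos hr0]
      exact mul_lt_of_lt_one_right hr0 (mem_ball_zero_iff.1 hy)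
    have e : resc (resc u x (rk k)) 0 r = resc u x (rk (k + 1)) := by
      funext y
      simp only [resc, rk, zero_add, smul_smul, pow_succ]
      rw [← mul_assoc (1 / 2 : ℝ) (r ^ k) r, mul_inv, mul_inv, mul_inv]
      ring
    rw [e] at h4
    refine h4.mono (le_of_eq ?_) (le_of_eq ?_) <;>
      · simp only [inner_zero_right, add_zero, pow_succ]; field_simp
  choose! next hnext hnext' using hstep
  let μ : ℕ → EuclideanSpace ℝ (Fin d) := fun k => Nat.rec ν (fun k m => next k m) k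
  have hQ : ∀ k, Q k (μ k) := fun k => by
    induction k with
    | zero => exact hbase
    | succ k ih => exact hnext k _ ih
  have hdist : ∀ k, dist (μ k) (μ (k + 1)) ≤ 4 * C₁ * ε * (1 / 2) ^ k := fun k => by
    rw [dist_eq_norm, norm_sub_rev]; exact hnext' k _ (hQ k)
  obtain ⟨νx, hlim⟩ := cauchySeq_tendsto_of_complete
    (cauchySeq_of_le_geometric (1 / 2) (4 * C₁ * ε) (by norm_num) hdist)
  have hνx : ‖νx‖ = 1 := by
    refine tendsto_nhds_unique hlim.norm (tendsto_const_nhds.congr fun k => ((hQ k).1).symm)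
  have hdl : ∀ k, dist (μ k) νx ≤ 8 * C₁ * ε * (1 / 2) ^ k := fun k => by
    refine (dist_le_of_le_geometric_of_tendsto (1 / 2) (4 * C₁ * ε) (by norm_num) hdist hlim k).trans
      (le_of_eq ?_)
    ring
  have h2r : (1:ℝ) ≤ 2 / r := by rw [le_div_iff₀ hr0]; linarith
  refine ⟨νx, hνx, ?_, fun s hs hs2 => ?_⟩
  · have := hdl 0
    rw [dist_eq_norm, norm_sub_rev, pow_zero, mul_one] at this
    refine this.trans (mul_le_mul_of_nonneg_right ?_ hε.le)
    exact (le_add_of_nonneg_right (by positivity)).trans (le_mul_of_one_le_right (by positivity) h2r)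
  obtain ⟨k, hk1, hk2⟩ := exists_nat_pow_near_of_lt_one (x := 2 * s) (y := r) (by positivity)
    (by linarith) hr0 (by linarith)
  have hsk : s ≤ rk k := by show s ≤ 1 / 2 * r ^ k; linarith
  have hks : rk k ≤ s / r := by
    rw [le_div_iff₀ hr0]
    have e : rk k * r = 1 / 2 * r ^ (k + 1) := by simp only [rk, pow_succ]; ring
    linarith
  have hpow : (1 / 2 : ℝ) ^ k ≤ 2 / r * s ^ α := by
    have e : (1 / 2 : ℝ) ^ k = (r ^ k) ^ α := by
      rw [← hrα, ← Real.rpow_natCast (r ^ α) k, ← Real.rpow_mul hr0.le, mul_comm,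
        Real.rpow_mul hr0.le, Real.rpow_natCast]
    rw [e]
    calc (r ^ k) ^ α ≤ (2 * s / r) ^ α := by
          refine Real.rpow_le_rpow (by positivity) ?_ hα.le
          rw [le_div_iff₀ hr0, ← pow_succ]; exact hk1.le
      _ = (2 / r) ^ α * s ^ α := by
          rw [← Real.mul_rpow (by positivity) hs.le]; congr 1; ring
      _ ≤ 2 / r * s ^ α := by
          refine mul_le_mul_of_nonneg_right ?_ (Real.rpow_nonneg hs.le _)
          calc (2 / r) ^ α ≤ (2 / r) ^ (1:ℝ) := Real.rpow_le_rpow_of_exponent_le h2r hα1.le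
            _ = 2 / r := Real.rpow_one _
  have hband := Band.unscale (W := Metric.ball x s) (hrk k) (hQ k).2 fun y hy => by
    rw [mem_ball_zero_iff, norm_smul, Real.norm_eq_abs, abs_of_pos (inv_pos.2 (hrk k)),
      inv_mul_lt_iff₀ (hrk k), mul_one]
    exact (mem_ball_iff_norm.1 hy).trans_le hsk
  intro y hy
  obtain ⟨hlo, hhi⟩ := hband y hy
  have hy' := mem_ball_iff_norm.1 hy
  have hν' : |⟪μ k, y - x⟫ - ⟪νx, y - x⟫| ≤ 8 * C₁ * ε * (1 / 2) ^ k * s := by
    rw [← inner_sub_left]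
    refine (abs_real_inner_le_norm _ _).trans (mul_le_mul ?_ hy'.le (norm_nonneg _) (by positivity))
    rw [← dist_eq_norm]; exact hdl k
  rw [inner_sub_right, inner_sub_right, abs_le] at hν'
  have hwid : 8 * C₁ * ε * (1 / 2) ^ k * s + rk k * (4 * ε * (1 / 2) ^ k)
      ≤ C₂ * (2 / r) * ε * s ^ α * s := by
    have h1 : rk k * (4 * ε * (1 / 2) ^ k) ≤ s / r * (4 * ε * (1 / 2) ^ k) :=
      mul_le_mul_of_nonneg_right hks (by positivity)
    have h2 : C₂ * ε * s * (1 / 2) ^ k ≤ C₂ * ε * s * (2 / r * s ^ α) :=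
      mul_le_mul_of_nonneg_left hpow (by positivity)
    have e : s / r * (4 * ε * (1 / 2) ^ k) = 4 / r * ε * s * (1 / 2) ^ k := by ring
    simp only [C₂] at h2 ⊢
    linarith
  exact ⟨(max_le_max (by linarith) le_rfl).trans hlo, hhi.trans (max_le_max (by linarith) le_rfl)⟩

theorem fderiv_sub_affine (hu : DifferentiableAt ℝ u x) (μ : EuclideanSpace ℝ (Fin d)) (c : ℝ) :
    fderiv ℝ (fun y => u y - ⟪μ, y⟫ - c) x = fderiv ℝ u x - innerSL ℝ μ :=
  ((hu.hasFDerivAt.sub (innerSL ℝ μ).hasFDerivAt).sub_const c).fderiv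

theorem Sol.interior_bounds (hd : 0 < d) {W : Set (EuclideanSpace ℝ (Fin d))} (hu : Sol u W)
    {μ : EuclideanSpace ℝ (Fin d)} {c R B : ℝ} (hR : 0 < R) (hB : 0 ≤ B)
    (hsub : Metric.closedBall x R ⊆ pos u W)
    (hbd : ∀ y ∈ Metric.closedBall x R, |u y - ⟪μ, y⟫ - c| ≤ B) :
    ‖fderiv ℝ u x - innerSL ℝ μ‖ ≤ 2 * (6 + d) * B / R ∧
      ∀ y, dist x y < R / 6 → ‖fderiv ℝ u x - fderiv ℝ u y‖
        ≤ d * (2 * (6 + d) * (2 * (6 + d) * B / R) / (R / 3)) * dist x y := by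
  set V := pos u W
  have hV : IsOpen V := hu.isOpen_pos
  let g : EuclideanSpace ℝ (Fin d) → ℝ := fun y => u y - ⟪μ, y⟫ - c
  have hgs : ContDiffOn ℝ ∞ g V := (hu.smooth_sub μ).sub contDiffOn_const
  have hgl : ∀ y ∈ V, lap g y = 0 := fun y hy => by
    rw [show g = fun z => (u z - ⟪μ, z⟫) + (-c) from funext fun z => by simp [g]; ring,
      lap_add (((hu.smooth_sub μ).contDiffAt (hV.mem_nhds hy)).of_le (by norm_cast))
        contDiffAt_const, hu.harm_sub μ hy, lap_const, add_zero]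
  have hG : ∀ y ∈ Metric.ball x (R / 2), gradSq g y ≤ (2 * (6 + d) * B / R) ^ 2 := fun y hy => by
    refine (gradSq_le_of_harmonic hd hV hR hsub hgs hgl hbd y hy).trans ?_
    rw [div_pow, div_le_div_iff_of_pos_right (by positivity), mul_pow, mul_pow]
    refine mul_le_mul_of_nonneg_right ?_ (sq_nonneg B)
    have : (0:ℝ) ≤ d := Nat.cast_nonneg d
    nlinarith
  have hfd : ∀ y ∈ V, fderiv ℝ g y = fderiv ℝ u y - innerSL ℝ μ := fun y hy =>
    fderiv_sub_affine (hu.diffAt hy) μ c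
  have hxV : x ∈ V := hsub (Metric.mem_closedBall_self hR.le)
  refine ⟨?_, fun y hy => ?_⟩
  · rw [← hfd x hxV]
    exact (norm_fderiv_le g x).trans
      (Real.sqrt_le_iff.2 ⟨by positivity, hG x (Metric.mem_ball_self (by positivity))⟩)
  have h3 : Metric.closedBall x (R / 3) ⊆ Metric.ball x (R / 2) :=
    Metric.closedBall_subset_ball (by linarith)
  have h3V : Metric.closedBall x (R / 3) ⊆ V :=
    fun z hz => hsub (Metric.ball_subset_closedBall (Metric.ball_subset_ball (by linarith) (h3 hz)))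
  have hlp : ∀ j, ∀ z ∈ V, lap (pd j g) z = 0 := fun j z hz => by
    have hp : ∀ i, ContDiffOn ℝ ∞ (pd i g) V := fun i => contDiffOn_pd hV hgs le_rfl
    have e1 : ∀ i, pd i (pd i (pd j g)) z = pd j (pd i (pd i g)) z := fun i => by
      rw [pd_congr (eventually_of_mem (hV.mem_nhds hz) fun w hw =>
          (pd_comm hV hgs hw (by norm_cast) : pd i (pd j g) w = pd j (pd i g) w)),
        pd_comm hV (hp i) hz (by norm_cast)]
    simp only [lap, e1]
    rw [← pd_sum _ fun i _ => ((contDiffOn_pd (m := 1) hV (hp i) (by norm_cast)).contDiffAt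
      (hV.mem_nhds hz)).differentiableAt one_ne_zero]
    exact (pd_congr (f := lap g) (g := fun _ => (0:ℝ))
      (eventually_of_mem (hV.mem_nhds hz) fun w hw => hgl w hw)).trans (pd_const 0)
  have hy6 : y ∈ Metric.ball x (R / 3 / 2) := by rw [Metric.mem_ball, dist_comm]; linarith
  have hj : ∀ j, |pd j g x - pd j g y|
      ≤ 2 * (6 + d) * (2 * (6 + d) * B / R) / (R / 3) * dist x y := fun j =>
    abs_sub_le_of_harmonic hd hV (by positivity) (by positivity) h3V (contDiffOn_pd hV hgs le_rfl)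
      (hlp j) (fun z hz => abs_pd_le j (by positivity) (hG z (h3 hz))) x
      (Metric.mem_ball_self (by positivity)) y hy6
  have hyV : y ∈ V := hsub (by rw [Metric.mem_closedBall, dist_comm]; linarith)
  refine ContinuousLinearMap.opNorm_le_bound _ (by positivity) fun v => ?_
  rw [show fderiv ℝ u x - fderiv ℝ u y = fderiv ℝ g x - fderiv ℝ g y by
    rw [hfd x hxV, hfd y hyV]; abel]
  rw [FunLike.coe_sub, Pi.sub_apply, Real.norm_eq_abs, fderiv_eq_sum_pd, fderiv_eq_sum_pd,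
    ← Finset.sum_sub_distrib]
  calc |∑ i, (v i * pd i g x - v i * pd i g y)|
      ≤ ∑ i, |v i * pd i g x - v i * pd i g y| := Finset.abs_sum_le_sum_abs _ _
    _ ≤ ∑ _i : Fin d, ‖v‖ * (2 * (6 + d) * (2 * (6 + d) * B / R) / (R / 3) * dist x y) :=
        Finset.sum_le_sum fun i _ => by
          rw [← mul_sub, abs_mul]
          exact mul_le_mul ((Real.norm_eq_abs _).symm.le.trans (PiLp.norm_apply_le v i)) (hj i)
            (abs_nonneg _) (norm_nonneg _)
    _ = _ := by simp; ring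

/-- Two flatness bands for the same function have close normals. -/
theorem normals_close {μ₁ μ₂ c₁ : EuclideanSpace ℝ (Fin d)} {k₂ e₁ e₂ s : ℝ}
    {W₂ : Set (EuclideanSpace ℝ (Fin d))} (hs : 0 < s) (hμ₁ : ‖μ₁‖ = 1)
    (he₁ : e₁ < s / 4) (he₂ : 0 ≤ e₂) (he₁0 : 0 ≤ e₁)
    (h₁ : Band u (Metric.ball c₁ s) μ₁ (-⟪μ₁, c₁⟫ - e₁) (-⟪μ₁, c₁⟫ + e₁))
    (h₂ : Band u W₂ μ₂ (k₂ - e₂) (k₂ + e₂)) (hsub : Metric.ball c₁ s ⊆ W₂) :
    ‖μ₁ - μ₂‖ ≤ 8 * (e₁ + e₂) / s := by
  by_cases h0 : μ₁ - μ₂ = 0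
  · rw [h0, norm_zero]; positivity
  set v := ‖μ₁ - μ₂‖⁻¹ • (μ₁ - μ₂)
  have hv : ‖v‖ = 1 := norm_smul_inv_norm h0
  have hμv : ⟪μ₁ - μ₂, v⟫ = ‖μ₁ - μ₂‖ := by
    rw [real_inner_smul_right, real_inner_self_eq_norm_sq, sq, ← mul_assoc,
      inv_mul_cancel₀ (norm_ne_zero_iff.2 h0), one_mul]
  have hμμ : ⟪μ₁, μ₁⟫ = 1 := by rw [real_inner_self_eq_norm_sq, hμ₁, one_pow]
  have hμ1v : |⟪μ₁, v⟫| ≤ 1 := (abs_real_inner_le_norm _ _).trans_eq (by rw [hμ₁, hv, one_mul])
  have key : ∀ t, |t| ≤ s / 4 → |⟪μ₁, (s / 2) • μ₁ + t • v⟫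
      - (⟪μ₂, c₁ + ((s / 2) • μ₁ + t • v)⟫ + k₂)| ≤ e₁ + e₂ := by
    intro t ht
    set w := (s / 2) • μ₁ + t • v with hw
    have hwn : ‖w‖ < s := (norm_add_le _ _).trans_lt (by
      rw [norm_smul, norm_smul, hμ₁, hv, Real.norm_eq_abs, Real.norm_eq_abs,
        abs_of_pos (by linarith : 0 < s / 2)]; linarith)
    have hμw : s / 4 ≤ ⟪μ₁, w⟫ := by
      rw [hw, inner_add_right, real_inner_smul_right, real_inner_smul_right, hμμ]
      have : |t * ⟪μ₁, v⟫| ≤ s / 4 := by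
        rw [abs_mul]; exact (mul_le_of_le_one_right (abs_nonneg t) hμ1v).trans ht
      linarith [(abs_le.1 this).1]
    have hmem : c₁ + w ∈ Metric.ball c₁ s := by simpa using hwn
    have hp : c₁ + w ∈ pos u (Metric.ball c₁ s) :=
      h₁.mem_pos hmem (by rw [inner_add_right]; linarith)
    have a1 := h₁.lower hmem
    have a2 := h₁.upper hp
    have b1 := h₂.lower (hsub hmem)
    have b2 := h₂.upper (⟨hsub hmem, hp.2⟩ : c₁ + w ∈ pos u W₂)
    rw [inner_add_right μ₁] at a1 a2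
    rw [abs_le]; constructor <;> linarith
  have k0 := abs_le.1 (key 0 (by rw [abs_zero]; positivity))
  have k1 := abs_le.1 (key (s / 4) (by rw [abs_of_pos (by positivity)]))
  simp only [inner_add_right, real_inner_smul_right, zero_smul,
    add_zero] at k0 k1
  rw [inner_sub_left] at hμv
  rw [le_div_iff₀ hs]
  have : (⟪μ₁, v⟫ - ⟪μ₂, v⟫) * (s / 4) ≤ 2 * (e₁ + e₂) := by linarith
  rw [hμv] at this
  linarith

/-- Flat solutions have a Hölder continuous gradient up to the free boundary. -/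
theorem flat_regular (hd : 0 < d) : ∃ α ε₀ C : ℝ, 0 < α ∧ α < 1 ∧ 0 < ε₀ ∧ 0 < C ∧
    ∀ (u : EuclideanSpace ℝ (Fin d) → ℝ) (ν : EuclideanSpace ℝ (Fin d)) (ε : ℝ),
      Sol u (Metric.ball 0 1) → ‖ν‖ = 1 → Band u (Metric.ball 0 1) ν (-ε) ε → 0 < ε → ε ≤ ε₀ →
      (∀ x, ‖x‖ < 1 / 2 → x ∈ closure (pos u (Metric.ball 0 1)) → u x = 0 →
        ∃ νx, ‖νx‖ = 1 ∧ ∀ s, 0 < s → s ≤ 1 / 4 →
          Band u (Metric.ball x s) νx (-⟪νx, x⟫ - C * ε * s ^ α * s)
            (-⟪νx, x⟫ + C * ε * s ^ α * s)) ∧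
      ∀ x, ‖x‖ < 1 / 4 → 0 < u x → ‖fderiv ℝ u x - innerSL ℝ ν‖ ≤ C * ε ∧
        ∀ y, ‖y‖ < 1 / 4 → 0 < u y →
          ‖fderiv ℝ u x - fderiv ℝ u y‖ ≤ C * ε * dist x y ^ α := by
  obtain ⟨α, εd, C₁, hα, hα1, hεd, hC₁, HD⟩ := decay hd
  set L : ℝ := 2 * (6 + d)
  set C₂ : ℝ := max (C₁ * 100) 6400
  have hC₂ : 0 < C₂ := lt_max_of_lt_right (by norm_num)
  set C₃ : ℝ := L * C₂ + C₁ + 1
  set C₄ : ℝ := 3 * (d * L ^ 2) * C₂
  set C₅ : ℝ := 16 * L * C₂ + 32 * (64 * C₁)
  set C₆ : ℝ := 2 * C₃ * 300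
  have hC₁' : C₁ ≤ C₂ := (le_mul_of_one_le_right hC₁.le (by norm_num)).trans (le_max_left _ _)
  refine ⟨α, min εd (min (1 / 100) (1 / (100 * (C₁ + 1)))), C₁ + C₃ + C₄ + C₅ + C₆,
    hα, hα1, by positivity, by positivity, ?_⟩
  intro u ν ε hu hν hb hε hε0
  simp only [le_min_iff] at hε0
  obtain ⟨hεd', hε100, hεC⟩ := hε0
  rw [le_div_iff₀ (by positivity)] at hεC
  have hD := HD u ν ε hu hν hb hε hεd'
  set C := C₁ + C₃ + C₄ + C₅ + C₆
  have hCC : C₁ ≤ C ∧ C₃ ≤ C ∧ C₄ ≤ C ∧ C₅ ≤ C ∧ C₆ ≤ C := by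
    have := hC₁; have : 0 ≤ C₃ := by positivity
    have : 0 ≤ C₄ := by positivity
    have : 0 ≤ C₅ := by positivity
    have : 0 ≤ C₆ := by positivity
    simp only [C]
    refine ⟨?_, ?_, ?_, ?_, ?_⟩ <;> linarith
  refine ⟨fun x hx hxc hux => ?_, ?_⟩
  · obtain ⟨νx, h1, _, h3⟩ := hD x hx hxc hux
    refine ⟨νx, h1, fun s hs hs4 => (h3 s hs (by linarith)).mono ?_ ?_⟩ <;>
    · have := mul_le_mul_of_nonneg_right hCC.1
        (mul_nonneg (mul_nonneg hε.le (Real.rpow_nonneg hs.le α)) hs.le)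
      linarith
  have hνν : ⟪ν, ν⟫ = 1 := by rw [real_inner_self_eq_norm_sq, hν, one_pow]
  have hball : ∀ {y : EuclideanSpace ℝ (Fin d)}, ‖y‖ ≤ 3 / 4 →
      y ∈ Metric.ball (0 : EuclideanSpace ℝ (Fin d)) 1 := fun h => mem_ball_zero_iff.2 (by linarith)
  set Z := Metric.closedBall (0 : EuclideanSpace ℝ (Fin d)) (3 / 4) ∩ {z | u z = 0}
  have hZc : IsCompact Z := (isCompact_closedBall _ _).of_isClosed_subset
    ((hu.cont.mono fun z hz => hball (mem_closedBall_zero_iff.1 hz)).preimage_isClosed_of_isClosed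
      Metric.isClosed_closedBall isClosed_singleton) inter_subset_left
  let rad : EuclideanSpace ℝ (Fin d) → ℝ := fun x => min (Metric.infDist x Z) (1 / 20) / 2
  have hrad : ∀ x y, rad y ≤ rad x + dist x y := fun x y => by
    have := Metric.infDist_le_infDist_add_dist (s := Z) (x := y) (y := x)
    rw [dist_comm] at this
    simp only [rad]
    rcases min_cases (Metric.infDist x Z) (1 / 20) with ⟨e, _⟩ | ⟨e, _⟩ <;> rw [e]
    · linarith [min_le_left (Metric.infDist y Z) (1 / 20), dist_nonneg (x := x) (y := y)]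
    · linarith [min_le_right (Metric.infDist y Z) (1 / 20), dist_nonneg (x := x) (y := y)]
  -- every positive point has a normal seen at the scale of its distance to the zero set
  have hpt : ∀ x, ‖x‖ < 1 / 4 → 0 < u x → 0 < rad x ∧ rad x ≤ 1 / 40 ∧
      Metric.closedBall x (rad x) ⊆ pos u (Metric.ball 0 1) ∧
      ∃ μ c, ‖μ - ν‖ ≤ C₁ * ε ∧
        (∀ y ∈ Metric.closedBall x (rad x),
          |u y - ⟪μ, y⟫ - c| ≤ C₂ * ε * rad x ^ α * rad x) ∧
        (rad x < 1 / 40 → ∃ z, dist x z = 2 * rad x ∧ ‖μ‖ = 1 ∧ ∀ s, 0 < s → s ≤ 1 / 2 →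
          Band u (Metric.ball z s) μ (-⟪μ, z⟫ - C₁ * ε * s ^ α * s)
            (-⟪μ, z⟫ + C₁ * ε * s ^ α * s)) := by
    intro x hx hux
    have hxW := hball (show ‖x‖ ≤ 3 / 4 by linarith)
    have hxup := hb.upper (⟨hxW, hux⟩ : x ∈ pos u (Metric.ball 0 1))
    have hpx : |⟪ν, x⟫| ≤ 1 / 4 := ((abs_real_inner_le_norm _ _).trans (by
      rw [hν, one_mul])).trans hx.le
    set w := x + (-(⟪ν, x⟫ + ε)) • ν with hw
    have hwn : ‖w‖ ≤ 3 / 4 := (norm_add_le _ _).trans (by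
      rw [norm_smul, hν, mul_one, Real.norm_eq_abs, abs_neg]
      have := abs_add_le ⟪ν, x⟫ ε
      rw [abs_of_pos hε] at this
      linarith)
    have hwZ : w ∈ Z := ⟨mem_closedBall_zero_iff.2 hwn, le_antisymm
      ((hb w (hball hwn)).2.trans (max_le (by
        rw [hw, inner_add_right, real_inner_smul_right, hνν]; linarith) le_rfl))
      (hu.nonneg w (hball hwn))⟩
    obtain ⟨z, hzZ, hz⟩ := hZc.exists_infDist_eq_dist ⟨w, hwZ⟩ x
    have hρ : 0 < Metric.infDist x Z := by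
      rw [hz]; exact dist_pos.2 fun h => hux.ne' (h ▸ hzZ.2)
    have hR0 : 0 < rad x := by simp only [rad]; positivity
    have hR40 : rad x ≤ 1 / 40 := by
      simp only [rad]; linarith [min_le_right (Metric.infDist x Z) (1 / 20)]
    have hRρ : rad x < Metric.infDist x Z := by
      simp only [rad]; linarith [min_le_left (Metric.infDist x Z) (1 / 20)]
    have hsub : Metric.closedBall x (rad x) ⊆ pos u (Metric.ball 0 1) := fun y hy => by
      have hyd := Metric.mem_closedBall.1 hy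
      have hyn : ‖y‖ ≤ 3 / 4 := by
        have := dist_triangle y x 0
        rw [dist_zero_right, dist_zero_right] at this; linarith
      refine ⟨hball hyn, (hu.nonneg y (hball hyn)).lt_of_ne fun h => ?_⟩
      have := Metric.infDist_le_dist_of_mem (x := x)
        (show y ∈ Z from ⟨mem_closedBall_zero_iff.2 hyn, h.symm⟩)
      rw [dist_comm] at hyd; linarith
    refine ⟨hR0, hR40, hsub, ?_⟩
    have hRα : rad x ≤ rad x ^ α :=
      (Real.rpow_one _).symm.le.trans (Real.rpow_le_rpow_of_exponent_ge hR0 (by linarith) hα1.le)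
    by_cases hsmall : Metric.infDist x Z < 1 / 20
    · have hR : rad x = dist x z / 2 := by simp only [rad, min_eq_left hsmall.le]; rw [hz]
      have hzd : dist x z < 1 / 20 := hz ▸ hsmall
      have hzn : ‖z‖ < 1 / 2 := by
        have := dist_triangle z x 0
        rw [dist_zero_right, dist_zero_right, dist_comm z x] at this; linarith
      have hzc : z ∈ closure (pos u (Metric.ball 0 1)) := by
        refine closure_mono ?_ (show z ∈ closure (Metric.ball x (dist x z)) by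
          rw [closure_ball x (hz ▸ hρ).ne']; simp [dist_comm])
        intro y hy
        have hyd := Metric.mem_ball.1 hy
        have hyn : ‖y‖ ≤ 3 / 4 := by
          have := dist_triangle y x 0
          rw [dist_zero_right, dist_zero_right] at this; linarith
        refine ⟨hball hyn, (hu.nonneg y (hball hyn)).lt_of_ne fun h => ?_⟩
        have := Metric.infDist_le_dist_of_mem (x := x)
          (show y ∈ Z from ⟨mem_closedBall_zero_iff.2 hyn, h.symm⟩)
        rw [dist_comm] at hyd; linarith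
      obtain ⟨μ, h1, h2, h3⟩ := hD z hzn hzc hzZ.2
      refine ⟨μ, -⟪μ, z⟫, h2, fun y hy => ?_, fun _ => ⟨z, by rw [hR]; ring, h1, h3⟩⟩
      have hs : (0:ℝ) < 4 * rad x := by positivity
      have hyz : y ∈ Metric.ball z (4 * rad x) := by
        have := Metric.mem_closedBall.1 hy
        have := dist_triangle y x z
        rw [Metric.mem_ball]; linarith
      have hB := h3 (4 * rad x) hs (by linarith)
      have a1 := hB.lower hyz
      have a2 := hB.upper (⟨hyz, (hsub hy).2⟩ : y ∈ pos u (Metric.ball z (4 * rad x)))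
      have hp : (4 * rad x) ^ α ≤ 4 * rad x ^ α := by
        rw [Real.mul_rpow (by norm_num) hR0.le]
        refine mul_le_mul_of_nonneg_right ?_ (Real.rpow_nonneg hR0.le _)
        exact (Real.rpow_le_rpow_of_exponent_le (by norm_num) hα1.le).trans_eq (Real.rpow_one 4)
      have hE : C₁ * ε * (4 * rad x) ^ α * (4 * rad x) ≤ C₂ * ε * rad x ^ α * rad x := by
        have := mul_le_mul_of_nonneg_left hp (by positivity : 0 ≤ C₁ * ε * (4 * rad x))
        have h16 : C₁ * 16 ≤ C₂ :=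
          (mul_le_mul_of_nonneg_left (by norm_num) hC₁.le).trans (le_max_left _ _)
        have := mul_le_mul_of_nonneg_right h16
          (by positivity : 0 ≤ ε * rad x ^ α * rad x)
        linarith
      rw [abs_le]; constructor <;> linarith
    · rw [not_lt] at hsmall
      have hR : rad x = 1 / 40 := by simp only [rad, min_eq_right hsmall]; norm_num
      refine ⟨ν, 0, by simpa using by positivity, fun y hy => ?_, fun h => absurd hR h.ne⟩
      have a1 := hb.lower (hsub hy).1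
      have a2 := hb.upper (hsub hy)
      have hE : ε ≤ C₂ * ε * rad x ^ α * rad x := by
        have h1 : 1 / 1600 ≤ rad x ^ α * rad x := by
          calc (1 / 1600 : ℝ) = 1 / 40 * (1 / 40) := by norm_num
            _ ≤ _ := by rw [hR] at hRα ⊢; exact mul_le_mul_of_nonneg_right hRα (by norm_num)
        have h2 : 6400 * (1 / 1600 : ℝ) ≤ C₂ * (rad x ^ α * rad x) :=
          mul_le_mul (le_max_right _ _) h1 (by norm_num) hC₂.le
        have := mul_le_mul_of_nonneg_left h2 hε.le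
        linarith
      rw [abs_le]; constructor <;> linarith
  have hgrad : ∀ {x μ : EuclideanSpace ℝ (Fin d)} {c : ℝ}, 0 < rad x →
      Metric.closedBall x (rad x) ⊆ pos u (Metric.ball 0 1) →
      (∀ y ∈ Metric.closedBall x (rad x), |u y - ⟪μ, y⟫ - c| ≤ C₂ * ε * rad x ^ α * rad x) →
      ‖fderiv ℝ u x - innerSL ℝ μ‖ ≤ L * C₂ * ε * rad x ^ α ∧
        ∀ y, dist x y < rad x / 6 → ‖fderiv ℝ u x - fderiv ℝ u y‖
          ≤ C₄ * ε * (rad x ^ α / rad x) * dist x y := by
    intro x μ c hR hsub hbd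
    obtain ⟨k1, k2⟩ := hu.interior_bounds hd hR (by positivity) hsub hbd
    refine ⟨k1.trans_eq (by simp only [L]; field_simp), fun y hy => (k2 y hy).trans_eq ?_⟩
    simp only [C₄, L]; field_simp
  intro x hx hux
  obtain ⟨hR, hR40, hsub, μ, c, hμν, hbd, hfree⟩ := hpt x hx hux
  obtain ⟨g1, g2⟩ := hgrad hR hsub hbd
  have hRα1 : rad x ^ α ≤ 1 := Real.rpow_le_one hR.le (by linarith) hα.le
  have hnear : ∀ {x μ : EuclideanSpace ℝ (Fin d)},
      ‖fderiv ℝ u x - innerSL ℝ μ‖ ≤ L * C₂ * ε → ‖μ - ν‖ ≤ C₁ * ε →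
      ‖fderiv ℝ u x - innerSL ℝ ν‖ ≤ C₃ * ε := fun {x μ} h1 h2 => by
    refine (norm_sub_le_norm_sub_add_norm_sub _ (innerSL ℝ μ) _).trans ?_
    rw [← map_sub, innerSL_apply_norm]
    have : C₃ * ε = L * C₂ * ε + C₁ * ε + ε := by simp only [C₃]; ring
    linarith
  refine ⟨(hnear (g1.trans (mul_le_of_le_one_right (by positivity) hRα1)) hμν).trans
    (mul_le_mul_of_nonneg_right hCC.2.1 hε.le), fun y hy huy => ?_⟩
  obtain ⟨hR', hR40', hsub', μ', c', hμν', hbd', hfree'⟩ := hpt y hy huy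
  obtain ⟨g1', -⟩ := hgrad hR' hsub' hbd'
  set δ := dist x y with hδdef
  rcases eq_or_ne x y with rfl | hxy
  · rw [sub_self, norm_zero]; positivity
  have hδ : 0 < δ := dist_pos.2 hxy
  have hδα : 0 ≤ ε * δ ^ α := by positivity
  have hup : ∀ {D}, D ≤ C → D * ε * δ ^ α ≤ C * ε * δ ^ α := fun h => by
    have := mul_le_mul_of_nonneg_right h hδα; linarith
  by_cases hclose : δ < rad x / 6
  · refine (g2 y hclose).trans (le_trans ?_ (hup hCC.2.2.1))
    have h1 : rad x ^ α / rad x * δ ≤ δ ^ α := by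
      have e : rad x ^ α / rad x * δ = δ ^ α * (δ / rad x) ^ (1 - α) := by
        rw [Real.div_rpow hδ.le hR.le, Real.rpow_sub hδ, Real.rpow_sub hR, Real.rpow_one,
          Real.rpow_one]
        field_simp
      rw [e]
      refine mul_le_of_le_one_right (Real.rpow_nonneg hδ.le _)
        (Real.rpow_le_one (by positivity) ?_ (by linarith))
      rw [div_le_one hR]; linarith
    calc C₄ * ε * (rad x ^ α / rad x) * δ = C₄ * ε * (rad x ^ α / rad x * δ) := by ring
      _ ≤ C₄ * ε * δ ^ α := mul_le_mul_of_nonneg_left h1 (by positivity)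
  rw [not_lt] at hclose
  by_cases hbig : 1 / 300 ≤ δ
  · refine le_trans ?_ (hup hCC.2.2.2.2)
    have hα' : (1 / 300 : ℝ) ≤ δ ^ α := by
      have h : (1 / 300 : ℝ) ^ α ≤ δ ^ α := Real.rpow_le_rpow (by norm_num) hbig hα.le
      refine le_trans ?_ h
      calc (1 / 300 : ℝ) = (1 / 300 : ℝ) ^ (1:ℝ) := (Real.rpow_one _).symm
        _ ≤ _ := Real.rpow_le_rpow_of_exponent_ge (by norm_num) (by norm_num) hα1.le
    have hy1 : rad y ^ α ≤ 1 := Real.rpow_le_one hR'.le (by linarith) hα.le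
    have a1 := hnear (g1.trans (mul_le_of_le_one_right (by positivity) hRα1)) hμν
    have a2 := hnear (g1'.trans (mul_le_of_le_one_right (by positivity) hy1)) hμν'
    refine (norm_sub_le_norm_sub_add_norm_sub _ (innerSL ℝ ν) _).trans ?_
    rw [norm_sub_rev (innerSL ℝ ν)]
    calc _ ≤ 2 * C₃ * ε := by linarith
      _ = C₆ * ε * (1 / 300) := by simp only [C₆]; ring
      _ ≤ _ := mul_le_mul_of_nonneg_left hα' (by positivity)
  rw [not_le] at hbig
  have hRy : rad y ≤ 7 * δ := (hrad x y).trans (by linarith)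
  obtain ⟨z, hz, hμ1, hband⟩ := hfree (by linarith)
  obtain ⟨z', hz', hμ1', hband'⟩ := hfree' (by linarith [hrad x y])
  have hzz : dist z z' ≤ 27 * δ := by
    have h1 := dist_triangle4 z x y z'
    rw [dist_comm z x] at h1; linarith
  set s := 32 * δ with hs
  have hs0 : 0 < s := by positivity
  have hp : ∀ {K : ℝ}, 1 ≤ K → (K * δ) ^ α ≤ K * δ ^ α := fun {K} hK => by
    rw [Real.mul_rpow (by linarith) hδ.le]
    refine mul_le_mul_of_nonneg_right ?_ (Real.rpow_nonneg hδ.le _)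
    exact (Real.rpow_le_rpow_of_exponent_le hK hα1.le).trans_eq (Real.rpow_one K)
  have hsα : s ^ α ≤ 1 := Real.rpow_le_one hs0.le (by linarith) hα.le
  have hmm : ‖μ - μ'‖ ≤ 32 * (64 * C₁) * ε * δ ^ α := by
    have hk := normals_close (u := u) (s := s) (k₂ := -⟪μ', z'⟫)
      (e₁ := C₁ * ε * s ^ α * s) (e₂ := C₁ * ε * (2 * s) ^ α * (2 * s)) hs0 hμ1 ?_ (by positivity)
      (by positivity) (hband s hs0 (by linarith))
      (hband' (2 * s) (by positivity) (by linarith))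
      (Metric.ball_subset_ball' (by linarith))
    · refine hk.trans ?_
      rw [div_le_iff₀ hs0]
      have b1 := mul_le_mul_of_nonneg_left (hp (K := 32) (by norm_num))
        (by positivity : 0 ≤ C₁ * ε * s)
      have b2 : (2 * s) ^ α ≤ 64 * δ ^ α := by
        rw [hs, ← mul_assoc]; norm_num; exact hp (by norm_num)
      have b2' := mul_le_mul_of_nonneg_left b2 (by positivity : 0 ≤ C₁ * ε * (2 * s))
      have b3 : 0 ≤ C₁ * ε * s * δ ^ α := by positivity
      rw [← hs] at b1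
      linarith
    · calc C₁ * ε * s ^ α * s ≤ C₁ * ε * 1 * s := by gcongr
        _ < s / 4 := by
          have := mul_lt_mul_of_pos_right (show C₁ * ε < 1 / 4 by linarith) hs0
          linarith
  have hpow : ∀ {R : ℝ}, 0 < R → R ≤ 8 * δ → L * C₂ * ε * R ^ α ≤ 8 * L * C₂ * ε * δ ^ α :=
    fun {R} hR0 hRle => by
      have := (Real.rpow_le_rpow hR0.le hRle hα.le).trans (hp (by norm_num))
      have := mul_le_mul_of_nonneg_left this (by positivity : 0 ≤ L * C₂ * ε)
      linarith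
  have a1 := g1.trans (hpow hR (by linarith))
  have a2 := g1'.trans (hpow hR' (by linarith))
  refine le_trans ?_ (hup hCC.2.2.2.1)
  refine (norm_sub_le_norm_sub_add_norm_sub _ (innerSL ℝ μ) _).trans ?_
  have a3 : ‖innerSL ℝ μ - fderiv ℝ u y‖ ≤ ‖μ - μ'‖ + ‖fderiv ℝ u y - innerSL ℝ μ'‖ := by
    refine (norm_sub_le_norm_sub_add_norm_sub _ (innerSL ℝ μ') _).trans ?_
    rw [← map_sub, innerSL_apply_norm, norm_sub_rev (innerSL ℝ μ')]
  have : C₅ * ε * δ ^ α
      = 2 * (8 * L * C₂ * ε * δ ^ α) + 32 * (64 * C₁) * ε * δ ^ α := by simp only [C₅]; ring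
  linarith

end Vale.Agent.P098.Reg.Eps
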